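import Crest.Agent.R164.Defs

/-!
# Row 164 — blueprint (no declarations)

Goal: the Parisi formula for `H(σ) = ½ σᵀ Uᵀ Λ U σ (+ c·σ)`, `U` Haar, in the Prelude's form
`inf_p S(p) + G(p)` (S0247), with finite-alphabet fields (S0248) and general fields (S0249).

## 0. Finite hierarchical systems (Grow, Hier1, Hier2, Theta, Test, IBP, LG)
Ruelle cascades are replaced by the finite recursion `X` with the uniform exponents
`uz k r = (k+1-r)/(k+1)`; `mu`, `Ex` are the tilted Markov kernels.  The enriched model adds Gaussian fields
`∑_{s=1}^k a_{j,s} z^s_i y_i` (`y = Uσ`, row `i` in eigenvalue block `j`, `z^s` at coordinate `s`).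
`tl … s f f = E f² - (1/(k+1)) ∑_{i=1}^s E (E_i f)²` is what Gaussian integration by parts produces:
`E[z^s_i F] = a tl(F, y_i)`.

## 1. Touching points give synchronisation (Sync, M3)
If the averaged free energy `f_N(ϑ)` is touched from above at `ϑ_N` by a parabola (`Touch`), then
`conc_abs` (exponents `≥ 1/(k+1)` on the coordinates `≤ k`) and concentration in `U` (`haar_conc`) show that
EVERY conjugate observable `psi θ` is `N c_θ + o(N)` under the full measure.  Conditional Gaussian IBP turns
this into: the conditional overlaps `|E_r Y|²` of the normalised top block `Y` are, for most levels `r`, within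
`O(1/√k)` of a deterministic profile `q r`, and the conditional covariance operators are small (`sync`).
No Ghirlanda–Guerra identities and no ultrametricity are needed.

## 2. Cavity (Cav, Tree, M4–M7)
`d` rows of the top block are, by block invariance, Gaussian combinations `G·Y` of the top block
(`polar`).  A smart path (`cavity`) replaces them by a hierarchical Gaussian vector `tree k q` with profile
`q`, at the cost of the synchronisation defect.  Consequences: moving a row from the top block to block
`j` costs `Move (λ_top - λ_j) q`; second-order tests give the *Ward identities*
`tail_j = γ_j ptail (tq Δ_j q)`; adjoining a spin (`spin_transfer`, `join`) gives the one-site value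
`spinC + osT (beff) (heff)`.

## 3. Upper bound (Upper, FinU)
Maximise `f_N(tλ, a, β)/N` minus a penalty forcing `a ≈ α` isotropic, minus `½ ∑ α_s² ptail p̄ s`, minus
`½ Gd (cR (t·)) p̄ + ε t`, over `t ∈ [t₀,1]`, `α ∈ [α_min, A]`.  The maximiser is a touching point; the
first-order conditions in `α` give `ptail (img q) ≤ ptail p̄ + o(1)` (the cap is not active because
`p̄ r ≤ 1-η`), Ward + `energy_img` + `Gd_cmp` show that the `t`-derivative is `≤ -ε + o(1)`, so `t = t₀`.
At `t = 0` the model is a product of one-site systems.  Magnetisation constraints: split the cube into cells.

## 4. Lower bound (M8, Lower, FinL)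
Aizenman–Sims–Starr with penalised magnetisations (`pen`): `Q_N = max_ϑ [F_N(ϑ) - N|ϑ-ϑ₀|²/δ]`,
increments evaluated at the maximiser (a touching point), `ass_identity`, the concavity `entropy_le`
(files O1–O8, OBridge, OMain: the one-site functional at fixed magnetisation is concave in the
cumulative variances; total positivity + `L♮`-convexity) and `spectral_pstep_le`.

## 5. General spectra and fields (Spec1–4, Disc, Gen, Transport)
Sandwich by discrete spectra with rational weights (`discretise`), Borel–Cantelli, and the Lipschitz
dependence on the field law in the transport distance.
-/
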