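import Crest.Agent.R164.TreeAux
import Crest.Agent.R164.Prof
import Crest.Agent.R164.Hier2

/-!
# Row 164: completing the square level by level
-/

set_option autoImplicit false
set_option linter.unusedSectionVars false

open MeasureTheory ProbabilityTheory Filter Topology
open scoped ENNReal BigOperators

noncomputable section

namespace Crest.Agent.R164

theorem trb_X_comp {Ω : Type} [MeasurableSpace Ω] (ζ : ℕ → ℝ) (L : Lv Ω) (H : (ℕ → Ω) → ℝ)
    {Θ : (ℕ → Ω) → ℕ → Ω} {r : ℕ}
    (h : ∀ i < r, ∀ x ω, Θ (Function.update x i ω) = Function.update (Θ x) i ω) (x : ℕ → Ω) :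
    X ζ L (fun x => H (Θ x)) r x = X ζ L H r (Θ x) := by
  induction r generalizing x with
  | zero => rfl
  | succ r ih =>
    rw [h2_X_succ, h2_X_succ]
    congr 1
    funext ω
    rw [ih fun i hi => h i (by omega), h r (by omega)]

theorem trb_snd_update {Ω Ω' : Type} (x : ℕ → Ω' × Ω) (r : ℕ) (ω : Ω' × Ω) :
    (fun i => (Function.update x r ω i).2) = Function.update (fun i => (x i).2) r ω.2 := by
  funext i
  by_cases h : i = r
  · subst h; simp
  · simp [h]

theorem trb_X_snd {Ω Ω' : Type} [MeasurableSpace Ω] [MeasurableSpace Ω'] (ζ : ℕ → ℝ) (L : Lv Ω)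
    (L' : Lv Ω') (H : (ℕ → Ω) → ℝ) (r : ℕ) (x : ℕ → Ω' × Ω) :
    X ζ (L'.prod L) (fun x => H fun i => (x i).2) r x = X ζ L H r fun i => (x i).2 := by
  induction r generalizing x with
  | zero => rfl
  | succ r ih =>
    rw [h2_X_succ, h2_X_succ]
    simp only [ih, trb_snd_update]
    unfold pm
    have h1 := integral_fun_snd (μ := L'.P) (ν := L.P)
      fun w => X ζ L H r (Function.update (fun i => (x i).2) r w)
    have h2 := integral_fun_snd (μ := L'.P) (ν := L.P)
      fun w => Real.exp (ζ r * X ζ L H r (Function.update (fun i => (x i).2) r w))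
    rw [probReal_univ, one_smul] at h1 h2
    show (if ζ r = 0 then ∫ ω, _ ∂(L'.P.prod L.P) else _ * Real.log (∫ ω, _ ∂(L'.P.prod L.P))) = _
    rw [h1, h2]

variable {A d : Type} [MeasurableSpace A] [Fintype d] [DecidableEq d] {k : ℕ} {Q : ℝ} {q : ℕ → ℝ}
  {α : d → ℝ}

/-- The outer part of the tree field. -/
def trY (k : ℕ) (q : ℕ → ℝ) (r : ℕ) (x : ℕ → (d → ℝ) × A) (a : d) : ℝ :=
  ∑ i ∈ Finset.Ico r (k + 1), √(inc q i) * (x i).1 a

/-- Its conditional mean under the quadratic tilt. -/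
def trU (k : ℕ) (α : d → ℝ) (q : ℕ → ℝ) (r : ℕ) (x : ℕ → (d → ℝ) × A) (a : d) : ℝ :=
  trY k q r x a / (1 + α a * dfc k q r)

/-- The free energy of the quadratic tilt. -/
def trQ (k : ℕ) (α : d → ℝ) (q : ℕ → ℝ) (r : ℕ) (x : ℕ → (d → ℝ) × A) : ℝ :=
  ∑ a, (-(α a / (1 + α a * dfc k q r) / 2) * trY k q r x a ^ 2 + -(1 / 2) * ∑ i ∈ Finset.range r,
    (uz k i)⁻¹ * Real.log ((1 + α a * dfc k q (i + 1)) / (1 + α a * dfc k q i)))

/-- Curvature of the tilt at level `r`. -/
def trc (k : ℕ) (α : d → ℝ) (q : ℕ → ℝ) (r : ℕ) (a : d) : ℝ :=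
  uz k r * (α a / (1 + α a * dfc k q r))

/-- The affine change of variables at coordinate `r`. -/
def trTh (k : ℕ) (α : d → ℝ) (q : ℕ → ℝ) (r : ℕ) (x : ℕ → (d → ℝ) × A) : ℕ → (d → ℝ) × A :=
  Function.update x r (fun a => -(trc k α q r a * √(inc q r) * trY k q (r + 1) x a) /
    (1 + trc k α q r a * inc q r) + (√(1 + trc k α q r a * inc q r))⁻¹ * (x r).1 a, (x r).2)

theorem trY_dep (k : ℕ) (q : ℕ → ℝ) (r : ℕ) : Dep r (trY (d := d) (A := A) k q r) := by
  intro x x' h
  funext a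
  exact Finset.sum_congr rfl fun i hi => by rw [h i (Finset.mem_Ico.1 hi).1]

theorem trY_update {i r : ℕ} (h : i < r) (x : ℕ → (d → ℝ) × A) (ω : (d → ℝ) × A) :
    trY k q r (Function.update x i ω) = trY k q r x :=
  trY_dep k q r _ _ fun j hj => Function.update_of_ne (by omega) _ _

theorem trY_succ {r : ℕ} (hr : r ≤ k) (x : ℕ → (d → ℝ) × A) (a : d) :
    trY k q r x a = trY k q (r + 1) x a + √(inc q r) * (x r).1 a := by
  unfold trY
  rw [Finset.sum_eq_sum_Ico_succ_bot (by omega), add_comm]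

theorem trY_zero (x : ℕ → (d → ℝ) × A) (a : d) : trY k q 0 x a = tree k q x a := by
  unfold trY tree
  rw [Finset.range_eq_Ico]

theorem trY_top (x : ℕ → (d → ℝ) × A) (a : d) : trY k q (k + 1) x a = 0 := by simp [trY]

theorem trU_zero (x : ℕ → (d → ℝ) × A) (a : d) : trU k α q 0 x a = tree k q x a := by
  simp [trU, trY_zero, dfc_zero]

theorem trU_top (x : ℕ → (d → ℝ) × A) (a : d) : trU k α q (k + 1) x a = 0 := by
  simp [trU, trY_top]

theorem trQ_zero (x : ℕ → (d → ℝ) × A) :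
    trQ k α q 0 x = -((∑ a, α a * tree k q x a ^ 2) / 2) := by
  simp only [trQ, trY_zero, dfc_zero, mul_zero, add_zero, div_one, Finset.range_zero,
    Finset.sum_empty, Finset.sum_div, ← Finset.sum_neg_distrib]
  exact Finset.sum_congr rfl fun a _ => by ring

theorem trQ_top (x : ℕ → (d → ℝ) × A) : trQ k α q (k + 1) x = ∑ a, Move k (α a) q := by
  simp [trQ, trY_top, Move]

theorem lin_trY (LA : Lv A) (k : ℕ) (q : ℕ → ℝ) (r : ℕ) (a : d) :
    Lin ((gLv d).prod LA) (k + 1) (fun x => trY k q r x a) :=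
  Lin.sum _ fun _ hi => (lin_gauss LA (Finset.mem_Ico.1 hi).2 a).const_mul _

theorem lin_trU (LA : Lv A) (k : ℕ) (α : d → ℝ) (q : ℕ → ℝ) (r : ℕ) (a : d) :
    Lin ((gLv d).prod LA) (k + 1) (fun x => trU k α q r x a) := by
  simpa only [trU, div_eq_inv_mul] using (lin_trY LA k q r a).const_mul _

theorem ham_trQ (LA : Lv A) (k : ℕ) (q : ℕ → ℝ) (hα : ∀ a, 0 ≤ α a) :
    Ham ((gLv d).prod LA) (k + 1) (trQ k α q 0) := by
  have h := Ham.sum Finset.univ fun a _ =>
    (lin_trY LA k q 0 a).ham_neg_sq (c := α a / 2) (by have := hα a; positivity)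
  convert h using 2 with x
  simp only [trQ, dfc_zero, mul_zero, add_zero, div_one, Finset.range_zero, Finset.sum_empty,
    neg_mul]

theorem trTh_snd (r : ℕ) (x : ℕ → (d → ℝ) × A) :
    (fun i => (trTh k α q r x i).2) = fun i => (x i).2 := by
  unfold trTh
  rw [trb_snd_update, Function.update_eq_self]

theorem trTh_of_ne {r i : ℕ} (h : i ≠ r) (x : ℕ → (d → ℝ) × A) : trTh k α q r x i = x i :=
  Function.update_of_ne h _ _

theorem trTh_comm {r i : ℕ} (h : i < r) (x : ℕ → (d → ℝ) × A) (ω : (d → ℝ) × A) :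
    trTh k α q r (Function.update x i ω) = Function.update (trTh k α q r x) i ω := by
  unfold trTh
  rw [trY_update (by omega), Function.update_of_ne h.ne', Function.update_comm h.ne]

theorem trb_pos (hq : IsProf k Q q) (hα : ∀ a, 0 ≤ α a) (r : ℕ) (a : d) :
    0 < 1 + α a * dfc k q r := by
  have := hα a
  have := hq.dfc_nonneg r
  positivity

theorem trc_eq (hq : IsProf k Q q) (hα : ∀ a, 0 ≤ α a) (r : ℕ) (a : d) :
    1 + trc k α q r a * inc q r = (1 + α a * dfc k q (r + 1)) / (1 + α a * dfc k q r) := by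
  have := trb_pos hq hα r a
  rw [dfc_succ, trc]
  field_simp
  ring

theorem trU_Th (hq : IsProf k Q q) (hα : ∀ a, 0 ≤ α a) {r : ℕ} (hr : r ≤ k)
    (x : ℕ → (d → ℝ) × A) (a : d) :
    trU k α q r (trTh k α q r x) a =
      trU k α q (r + 1) x a + √(tinc k (α a) q r) * (x r).1 a := by
  have h0 := trb_pos hq hα r a
  have h1 := trb_pos hq hα (r + 1) a
  have hs := hq.inc_nonneg r
  have hc := trc_eq hq hα r a
  unfold trU
  rw [trY_succ hr, trTh, trY_update (by omega), Function.update_self]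
  have h2 : √(tinc k (α a) q r) =
      √(inc q r) * (√(1 + trc k α q r a * inc q r))⁻¹ / (1 + α a * dfc k q r) := by
    rw [Real.sqrt_eq_iff_eq_sq (hq.tinc_nonneg (hα a) r) (by positivity), div_pow, mul_pow,
      inv_pow, Real.sq_sqrt hs, hc, Real.sq_sqrt (by positivity), tinc]
    field_simp
  have h3 : √(inc q r) * (-(trc k α q r a * √(inc q r) * trY k q (r + 1) x a) /
      (1 + trc k α q r a * inc q r)) = -(trc k α q r a * inc q r * trY k q (r + 1) x a) /
      (1 + trc k α q r a * inc q r) := by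
    have := Real.mul_self_sqrt hs
    linear_combination (-(trc k α q r a * trY k q (r + 1) x a) /
      (1 + trc k α q r a * inc q r)) * this
  have h4 : trc k α q r a * inc q r =
      (1 + α a * dfc k q (r + 1)) / (1 + α a * dfc k q r) - 1 := by linarith
  simp only []
  rw [h2, mul_add, h3]
  generalize (√(1 + trc k α q r a * inc q r))⁻¹ = σ
  rw [hc, h4]
  field_simp
  ring

theorem trb_key (LA : Lv A) (hq : IsProf k Q q) (hα : ∀ a, 0 ≤ α a) {r : ℕ} (hr : r ≤ k)
    {F : (ℕ → (d → ℝ) × A) → ℝ} (hF : Measurable F) (x : ℕ → (d → ℝ) × A) :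
    ∫ ω, Real.exp (uz k r * trQ k α q r (Function.update x r ω)) * F (Function.update x r ω)
        ∂((gLv d).prod LA).P =
      Real.exp (uz k r * trQ k α q (r + 1) x) *
        ∫ ω, F (trTh k α q r (Function.update x r ω)) ∂((gLv d).prod LA).P := by
  have hζ := uz_pos hr
  have hc : ∀ a, 0 ≤ trc k α q r a := fun a => by
    have := trb_pos hq hα r a
    have := hα a
    unfold trc; positivity
  have h := tra_tilt_integral LA.P hc (hq.inc_nonneg r) (trY k q (r + 1) x)
    (F := fun ω => F (Function.update x r ω)) (hF.comp (measurable_update x))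
  set c₀ : ℝ := ∑ a, -(1 / 2) * ∑ i ∈ Finset.range r,
    (uz k i)⁻¹ * Real.log ((1 + α a * dfc k q (i + 1)) / (1 + α a * dfc k q i)) with hc₀
  have h1 : ∀ ω : (d → ℝ) × A, Real.exp (uz k r * trQ k α q r (Function.update x r ω)) =
      Real.exp (uz k r * c₀) * Real.exp (∑ a, -(trc k α q r a / 2) *
        (trY k q (r + 1) x a + √(inc q r) * ω.1 a) ^ 2) := fun ω => by
    rw [← Real.exp_add, trQ, hc₀, Finset.mul_sum, Finset.mul_sum, ← Finset.sum_add_distrib]
    congr 1
    refine Finset.sum_congr rfl fun a _ => ?_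
    rw [trY_succ hr, trY_update (by omega), Function.update_self, trc]
    ring
  have h2 : Real.exp (uz k r * trQ k α q (r + 1) x) = Real.exp (uz k r * c₀) *
      ∏ a, (√(1 + trc k α q r a * inc q r))⁻¹ * Real.exp (-(trc k α q r a / 2) *
        trY k q (r + 1) x a ^ 2 / (1 + trc k α q r a * inc q r)) := by
    rw [trQ, hc₀, Finset.mul_sum, Finset.mul_sum, Real.exp_sum, Real.exp_sum,
      ← Finset.prod_mul_distrib]
    refine Finset.prod_congr rfl fun a _ => ?_
    have h0 := trb_pos hq hα r a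
    have h1 := trb_pos hq hα (r + 1) a
    have h3 : (√(1 + trc k α q r a * inc q r))⁻¹ = Real.exp (-(1 / 2) *
        Real.log ((1 + α a * dfc k q (r + 1)) / (1 + α a * dfc k q r))) := by
      rw [trc_eq hq hα, Real.sqrt_eq_rpow, Real.rpow_def_of_pos (by positivity), ← Real.exp_neg]
      congr 1; ring
    rw [h3, ← Real.exp_add, ← Real.exp_add, trc_eq hq hα, Finset.sum_range_succ, trc]
    congr 1
    field_simp
    ring
  have h3 : ∀ ω : (d → ℝ) × A, trTh k α q r (Function.update x r ω) = Function.update x r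
      (fun a => -(trc k α q r a * √(inc q r) * trY k q (r + 1) x a) /
        (1 + trc k α q r a * inc q r) + (√(1 + trc k α q r a * inc q r))⁻¹ * ω.1 a, ω.2) :=
    fun ω => by
      rw [trTh, trY_update (by omega), Function.update_self, Function.update_idem]
  simp only [h1, h3, mul_assoc (Real.exp (uz k r * c₀)), integral_const_mul, h2]
  congr 1

theorem trb_main {LA : Lv A} (hq : IsProf k Q q) (hα : ∀ a, 0 ≤ α a)
    {G : ℕ → (ℕ → (d → ℝ) × A) → ℝ} (hG : ∀ r, Ham ((gLv d).prod LA) (k + 1) (G r))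
    (hTh : ∀ r ≤ k, ∀ x, G r (trTh k α q r x) = G (r + 1) x) {r : ℕ} (hr : r ≤ k + 1)
    (x : ℕ → (d → ℝ) × A) :
    X (uz k) ((gLv d).prod LA) (fun x => trQ k α q 0 x + G 0 x) r x =
      trQ k α q r x + X (uz k) ((gLv d).prod LA) (G r) r x := by
  induction r generalizing x with
  | zero => rfl
  | succ r ih =>
    have hr' : r ≤ k := by omega
    have hζ := uz_pos hr'
    rw [h2_X_succ, h2_X_succ]
    simp only [ih (by omega), pm, if_neg hζ.ne', mul_add, Real.exp_add]
    rw [trb_key LA hq hα hr' (F := fun x => Real.exp (uz k r * X (uz k) ((gLv d).prod LA) (G r) r x))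
      (Real.measurable_exp.comp ((h1_measurable_X _ _ (hG r).measurable r).const_mul _))]
    have h1 : ∀ x', X (uz k) ((gLv d).prod LA) (G r) r (trTh k α q r x') =
        X (uz k) ((gLv d).prod LA) (G (r + 1)) r x' := fun x' => by
      rw [← trb_X_comp _ _ _ fun i hi => trTh_comm hi]
      simp only [hTh r hr']
    simp only [h1]
    rw [Real.log_mul (Real.exp_pos _).ne' (integral_exp_pos
      (((hG (r + 1)).X (isSch_uz k) r).integrable_exp_update hζ.le r x)).ne', Real.log_exp]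
    field_simp

theorem trb_step {LA : Lv A} {Ha : (ℕ → A) → ℝ} (hH : Lin LA (k + 1) Ha) (hq : IsProf k Q q)
    (hα : ∀ a, 0 ≤ α a) {r : ℕ} (hr : r ≤ k) (a : d) {F : (ℕ → (d → ℝ) × A) → ℝ}
    (hF : Tame ((gLv d).prod LA) (k + 1) F) {φ : ℝ → ℝ} (hφ : Measurable φ)
    (h : ∀ x, Ex (uz k) ((gLv d).prod LA) (fun x => trQ k α q 0 x + Ha fun i => (x i).2) r F x =
      φ (trU k α q r x a)) (x : ℕ → (d → ℝ) × A) :
    Ex (uz k) ((gLv d).prod LA) (fun x => trQ k α q 0 x + Ha fun i => (x i).2) (r + 1) F x =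
      ∫ g, φ (trU k α q (r + 1) x a + √(tinc k (α a) q r) * g) ∂(gaussianReal 0 1) := by
  have hHam : Ham ((gLv d).prod LA) (k + 1) fun x => trQ k α q 0 x + Ha fun i => (x i).2 :=
    (ham_trQ LA k q hα).add hH.snd.ham
  have hgood := hHam.good_of_pos (isSch_uz k) (r := r + 1) fun i hi => uz_pos (by omega)
  rw [(Ex_succ (isSch_uz k) hHam hF.measurable (hgood.2 _ le_rfl F hF x)).2]
  have hX : ∀ j ≤ k + 1, ∀ x', X (uz k) ((gLv d).prod LA)
      (fun x => trQ k α q 0 x + Ha fun i => (x i).2) j x' =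
      trQ k α q j x' + X (uz k) LA Ha j fun i => (x' i).2 := fun j hj x' => by
    rw [trb_main hq hα (G := fun _ x => Ha fun i => (x i).2) (fun _ => hH.snd.ham)
      (fun r _ x => by rw [trTh_snd]) hj, trb_X_snd]
  have h1 : ∀ ω, Wt (uz k) ((gLv d).prod LA) (fun x => trQ k α q 0 x + Ha fun i => (x i).2) r
      (Function.update x r ω) * φ (trU k α q r (Function.update x r ω) a) =
      Real.exp (-(uz k r * trQ k α q (r + 1) x)) *
        (Real.exp (uz k r * trQ k α q r (Function.update x r ω)) *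
          (fun x' => φ (trU k α q r x' a) * Wt (uz k) LA Ha r fun i => (x' i).2)
            (Function.update x r ω)) := fun ω => by
    have e1 : trQ k α q (r + 1) (Function.update x r ω) = trQ k α q (r + 1) x := by
      simp only [trQ, trY_update (Nat.lt_succ_self r)]
    simp only [Wt, hX r (by omega), hX (r + 1) (by omega), e1]
    rw [mul_comm (φ _), ← mul_assoc, ← mul_assoc, ← Real.exp_add, ← Real.exp_add]
    congr 2
    ring
  simp only [h, h1]
  rw [integral_const_mul, trb_key LA hq hα hr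
    (F := fun x' => φ (trU k α q r x' a) * Wt (uz k) LA Ha r fun i => (x' i).2)
    ((hφ.comp (lin_trU LA k α q r a).measurable).mul
      ((h1_measurable_Wt _ _ hH.measurable r).comp (by fun_prop))),
    ← mul_assoc, ← Real.exp_add, neg_add_cancel, Real.exp_zero, one_mul]
  have e2 : ∀ ω : (d → ℝ) × A, trU k α q (r + 1) (Function.update x r ω) a =
      trU k α q (r + 1) x a := fun ω => by simp only [trU, trY_update (Nat.lt_succ_self r)]
  simp only [trU_Th hq hα hr, trTh_snd, trb_snd_update, e2, Function.update_self]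
  have h2 := integral_prod_mul (μ := gpi d) (ν := LA.P)
    (fun g : d → ℝ => φ (trU k α q (r + 1) x a + √(tinc k (α a) q r) * g a))
    fun w => Wt (uz k) LA Ha r (Function.update (fun i => (x i).2) r w)
  rw [integral_Wt (isSch_uz k) hH.ham, mul_one] at h2
  refine h2.trans ?_
  have h3 := measurePreserving_eval (fun _ : d => gaussianReal 0 1) a
  have h4 : Measurable fun g : ℝ => φ (trU k α q (r + 1) x a + √(tinc k (α a) q r) * g) :=
    hφ.comp (by fun_prop)
  rw [← h3.map_eq, integral_map h3.measurable.aemeasurable h4.aestronglyMeasurable]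
  rfl

theorem trb_mom {LA : Lv A} {Ha : (ℕ → A) → ℝ} (hH : Lin LA (k + 1) Ha) (hq : IsProf k Q q)
    (hα : ∀ a, 0 ≤ α a) (a : d) {φ : ℝ → ℝ → ℝ} (hφ : ∀ V, Measurable (φ V))
    (hs : ∀ V u t, ∫ g, φ V (u + t * g) ∂(gaussianReal 0 1) = φ (V + t ^ 2) u) {j : ℕ}
    (hF : Tame ((gLv d).prod LA) (k + 1) fun x => φ 0 (trU k α q j x a)) {r : ℕ} (hj : j ≤ r)
    (hr : r ≤ k + 1) (x : ℕ → (d → ℝ) × A) :
    Ex (uz k) ((gLv d).prod LA) (fun x => trQ k α q 0 x + Ha fun i => (x i).2) r
      (fun x => φ 0 (trU k α q j x a)) x =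
      φ (∑ i ∈ Finset.Ico j r, tinc k (α a) q i) (trU k α q r x a) := by
  induction r, hj using Nat.le_induction generalizing x with
  | base =>
    rw [h2_Ex_dep (isSch_uz k) ((ham_trQ LA k q hα).add hH.snd.ham) hF.measurable
      fun x x' h => by simp only [trU, trY_dep k q j x x' h]]
    simp
  | succ r hj ih =>
    rw [trb_step hH hq hα (by omega) a hF (hφ _) (ih (by omega)), hs,
      Real.sq_sqrt (hq.tinc_nonneg (hα a) r), Finset.sum_Ico_succ_top hj]

theorem trb_m1 {LA : Lv A} {Ha : (ℕ → A) → ℝ} (hH : Lin LA (k + 1) Ha) (hq : IsProf k Q q)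
    (hα : ∀ a, 0 ≤ α a) (a : d) {r : ℕ} (hr : r ≤ k + 1) (x : ℕ → (d → ℝ) × A) :
    Ex (uz k) ((gLv d).prod LA) (fun x => trQ k α q 0 x + Ha fun i => (x i).2) r
      (fun x => tree k q x a) x = trU k α q r x a := by
  have := trb_mom hH hq hα a (φ := fun _ u => u) (fun _ => measurable_id) (fun V u t => by
    simpa using tra_poly u t 0 0 0) (lin_trU LA k α q 0 a).tame (Nat.zero_le r) hr x
  simpa only [trU_zero] using this

theorem trb_m2 {LA : Lv A} {Ha : (ℕ → A) → ℝ} (hH : Lin LA (k + 1) Ha) (hq : IsProf k Q q)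
    (hα : ∀ a, 0 ≤ α a) (a : d) {j : ℕ} (hj : j ≤ k + 1) (x : ℕ → (d → ℝ) × A) :
    Ex (uz k) ((gLv d).prod LA) (fun x => trQ k α q 0 x + Ha fun i => (x i).2) (k + 1)
      (fun x => trU k α q j x a ^ 2) x = tq k (α a) q j := by
  have := trb_mom hH hq hα a (φ := fun V u => u ^ 2 + V) (fun _ => by fun_prop) (fun V u t => by
    have h := tra_poly (u ^ 2 + V) (2 * u * t) (t ^ 2) 0 0
    convert h using 1
    · congr 1; funext g; ring
    · ring) (j := j) (by simpa using (lin_trU LA k α q j a).tame.pow 2) hj le_rfl x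
  simpa [trU_top, tq] using this

theorem trb_m4 {LA : Lv A} {Ha : (ℕ → A) → ℝ} (hH : Lin LA (k + 1) Ha) (hq : IsProf k Q q)
    (hα : ∀ a, 0 ≤ α a) (a : d) (x : ℕ → (d → ℝ) × A) :
    Ex (uz k) ((gLv d).prod LA) (fun x => trQ k α q 0 x + Ha fun i => (x i).2) (k + 1)
      (fun x => tree k q x a ^ 4) x ≤ 3 * Q ^ 2 := by
  have := trb_mom hH hq hα a (φ := fun V u => u ^ 4 + 6 * u ^ 2 * V + 3 * V ^ 2)
    (fun _ => by fun_prop) (fun V u t => by
    have h := tra_poly (u ^ 4 + 6 * u ^ 2 * V + 3 * V ^ 2) (4 * u ^ 3 * t + 12 * u * t * V)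
      (6 * u ^ 2 * t ^ 2 + 6 * t ^ 2 * V) (4 * u * t ^ 3) (t ^ 4)
    convert h using 1
    · congr 1; funext g; ring
    · ring) (j := 0) (by simpa using (lin_trU LA k α q 0 a).tame.pow 4) (Nat.zero_le _) le_rfl x
  have h1 := hq.tq (hα a)
  have h2 : tq k (α a) q 0 ^ 2 ≤ Q ^ 2 := pow_le_pow_left₀ (h1.2.1 0) h1.2.2.2 2
  simp only [trU_zero, trU_top, mul_zero, add_zero, ne_eq, OfNat.ofNat_ne_zero, not_false_eq_true,
    zero_pow, zero_mul, zero_add] at this
  rw [this]
  exact mul_le_mul_of_nonneg_left h2 (by norm_num)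

end Crest.Agent.R164
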