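import Crest.Agent.R164.Smooth
import Crest.Agent.R164.Prof
import Crest.Agent.R164.IBP
import Crest.Agent.R164.Test
import Crest.Agent.R164.TreeAux2

/-!
# Row 164: Tree
Explicit Gaussian computations on the tree side.
`gauss_tilt`: complete the square.  `tree_val`: with `y_r = ∑_{i ∈ [r,k]} √(inc q i) z_i`,
`A_r = α/(1+α D_r)`, `e_r = -∑_a β_a (y_r)_a/(1+α_a D_r)`, and `B^R_e = Ha + ε e - ε ∑_{i<R} ∑_a β_a √(tinc α_a i) z_{i,a}`,
prove by induction `X r x = -½ ∑ A_r y_r² + c_r + X (B^r_{e_r x}) r x` (`X_congr` turns the field of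
coordinate `r` into a shift of `e`; `gauss_tilt` coordinatewise, `Measure.pi`), then flip `z ↦ -z`
(`theta_val`).
-/

set_option autoImplicit false
set_option linter.unusedSectionVars false

open MeasureTheory ProbabilityTheory Filter Topology
open scoped ENNReal BigOperators Matrix

noncomputable section

namespace Crest.Agent.R164

theorem gauss_tilt {c s : ℝ} (hc : 0 ≤ c) (hs : 0 ≤ s) (y : ℝ) :
    ((gaussianReal 0 1).withDensity
        (fun g => ENNReal.ofReal (Real.exp (-(c / 2) * (y + √s * g) ^ 2)))).map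
          (fun g => y + √s * g) =
      ENNReal.ofReal ((√(1 + c * s))⁻¹ * Real.exp (-(c / 2) * y ^ 2 / (1 + c * s))) •
        (gaussianReal 0 1).map (fun g => y / (1 + c * s) + √(s / (1 + c * s)) * g) := by
  have ht : 0 < 1 + c * s := by positivity
  rw [tra_tilt hc hs, Measure.map_smul, Measure.map_map (by fun_prop) (by fun_prop)]
  congr 2
  funext g
  have h1 := Real.mul_self_sqrt hs
  simp only [Function.comp_apply]
  rw [Real.sqrt_div hs, div_eq_mul_inv √s]
  generalize (√(1 + c * s))⁻¹ = σ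
  field_simp
  linear_combination (-(c * y)) * h1

variable {A d : Type} [MeasurableSpace A] [Fintype d] [DecidableEq d] {k : ℕ} {Q : ℝ} {q : ℕ → ℝ}

theorem lin_tree (LA : Lv A) (k : ℕ) (q : ℕ → ℝ) (a : d) :
    Lin ((gLv d).prod LA) (k + 1) (fun x => tree k q x a) := by
  simpa only [trY_zero] using lin_trY LA k q 0 a

theorem loc_tree (k : ℕ) (q : ℕ → ℝ) : Loc (k + 1) (tree (d := d) (A := A) k q) := by
  intro x x' h
  funext a
  exact Finset.sum_congr rfl fun r hr => by rw [h r (Finset.mem_range.1 hr)]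

theorem tree_val {LA : Lv A} {Ha ε : (ℕ → A) → ℝ} (hH : Lin LA (k + 1) Ha) (hl : Loc (k + 1) Ha)
    (hε : Bdd ε 1) (hεl : Loc (k + 1) ε) (hq : IsProf k Q q) {α β : d → ℝ} (hα : ∀ a, 0 ≤ α a) :
    val (uz k) ((gLv d).prod LA) (k + 1) (fun x => Ha (fun r => (x r).2) -
        (∑ a, α a * tree k q x a ^ 2) / 2 - ε (fun r => (x r).2) * ∑ a, β a * tree k q x a) =
      ∑ a, Move k (α a) q + val (uz k) ((gLv d).prod LA) (k + 1) (fun x => Ha (fun r => (x r).2) +
        ε (fun r => (x r).2) * ∑ r ∈ Finset.range (k + 1), ∑ a,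
          β a * √(tinc k (α a) q r) * (x r).1 a) := by
  have hε' : Bdd (fun x : ℕ → (d → ℝ) × A => ε fun r => (x r).2) 1 :=
    ⟨hε.1.comp (by fun_prop), fun x => hε.2 _⟩
  let G : ℕ → (ℕ → (d → ℝ) × A) → ℝ := fun r x => Ha (fun i => (x i).2) -
    (∑ a, β a * (trU k α q r x a + ∑ i ∈ Finset.range (min r (k + 1)),
      √(tinc k (α a) q i) * (x i).1 a)) * ε fun i => (x i).2
  have hG : ∀ r, Lin ((gLv d).prod LA) (k + 1) (G r) := fun r =>
    hH.snd.sub ((Lin.sum _ fun a _ => ((lin_trU LA k α q r a).add (Lin.sum _ fun i hi =>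
      (lin_gauss LA ((Finset.mem_range.1 hi).trans_le (min_le_right _ _)) a).const_mul
        _)).const_mul _).mul_bdd hε')
  have hTh : ∀ r ≤ k, ∀ x, G r (trTh k α q r x) = G (r + 1) x := fun r hr x => by
    simp only [G, trTh_snd, trU_Th hq hα hr, min_eq_left (show r ≤ k + 1 by omega),
      min_eq_left (show r + 1 ≤ k + 1 by omega), Finset.sum_range_succ]
    congr 2
    refine Finset.sum_congr rfl fun a _ => ?_
    rw [Finset.sum_congr rfl fun i hi => by rw [trTh_of_ne (Finset.mem_range.1 hi).ne]]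
    ring
  have h1 := trb_main hq hα (fun r => (hG r).ham) hTh le_rfl (x0 ((gLv d).prod LA))
  have h2 : (fun x => trQ k α q 0 x + G 0 x) = fun x => Ha (fun r => (x r).2) -
      (∑ a, α a * tree k q x a ^ 2) / 2 - ε (fun r => (x r).2) * ∑ a, β a * tree k q x a := by
    funext x
    simp only [G, trQ_zero, trU_zero, Nat.zero_min, Finset.range_zero, Finset.sum_empty, add_zero]
    ring
  rw [h2, trQ_top] at h1
  refine h1.trans ?_
  congr 1
  have hτ : MeasurePreserving (fun ω : (d → ℝ) × A => ((fun a => -ω.1 a), ω.2))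
      ((gLv d).prod LA).P ((gLv d).prod LA).P :=
    (measurePreserving_pi (fun _ : d => gaussianReal 0 1) (fun _ : d => gaussianReal 0 1)
      (f := fun _ g => -g) fun _ => ⟨measurable_neg, by
        rw [gaussianReal_map_neg, neg_zero]⟩).prod (MeasurePreserving.id LA.P)
  have h3 : G (k + 1) = fun x => (fun x : ℕ → (d → ℝ) × A => Ha (fun r => (x r).2) +
        ε (fun r => (x r).2) * ∑ r ∈ Finset.range (k + 1), ∑ a,
          β a * √(tinc k (α a) q r) * (x r).1 a) fun r => ((fun a => -(x r).1 a), (x r).2) := by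
    funext x
    simp only [G, trU_top, zero_add, min_self, mul_neg, Finset.sum_neg_distrib, Finset.mul_sum,
      mul_assoc]
    rw [Finset.sum_comm, mul_comm, Finset.mul_sum]
    simp only [Finset.mul_sum, sub_eq_add_neg]
  have h4 : Lin ((gLv d).prod LA) (k + 1) fun x : ℕ → (d → ℝ) × A => Ha (fun r => (x r).2) +
      ε (fun r => (x r).2) * ∑ r ∈ Finset.range (k + 1), ∑ a,
        β a * √(tinc k (α a) q r) * (x r).1 a := by
    simp only [mul_comm (ε _)]
    exact hH.snd.add ((Lin.sum _ fun r hr => Lin.sum _ fun a _ =>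
      (lin_gauss LA (Finset.mem_range.1 hr) a).const_mul _).mul_bdd hε')
  have h5 := theta_val (isSch_uz k) (fun _ => hτ)
    h4.ham (fun x x' h => by
      rw [hl _ (fun r => (x' r).2) fun i hi => by rw [h i hi],
        hεl _ (fun r => (x' r).2) fun i hi => by rw [h i hi],
        Finset.sum_congr rfl fun r hr => by rw [h r (Finset.mem_range.1 hr)]])
    (h3 ▸ (hG (k + 1)).ham)
  rw [← h5, h3]
  rfl

theorem tr_lin_g1 {n r : ℕ} (hr : r < n) : Lin g1 n (fun x => x r) :=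
  ⟨1, measurable_pi_apply r, zero_le_one, fun x => by
    have h : |x r| ≤ nrm g1 n x := sz_le_nrm g1 hr x
    linarith⟩

theorem tr_bdd_sgn {Ω : Type} [MeasurableSpace Ω] {b : Ω → Bool} (hb : Measurable b) :
    Bdd (fun x => sgn (b x)) 1 :=
  ⟨(measurable_of_countable sgn).comp hb, fun _ => (abs_sgn _).le⟩

theorem tr_lin_osH (k : ℕ) (b : ℝ) (h : ℕ → ℝ) : Lin osL (k + 1) (osH k b h) := by
  have := ((lin_const b).add (Lin.sum (Finset.range (k + 1)) fun r hr =>
    ((tr_lin_g1 (Finset.mem_range.1 hr)).fst (L' := bLv)).const_mul √(h r))).mul_bdd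
    (tr_bdd_sgn (b := fun x : ℕ → ℝ × Bool => (x 0).2) (by fun_prop))
  simp only [mul_comm _ (sgn _)] at this
  exact this

theorem tr_merge {v : ℝ} (hv : 0 ≤ v) (c : d → ℝ) : ∃ T : (d → ℝ) × ℝ → ℝ,
    MeasurePreserving T ((gpi d).prod (gaussianReal 0 1)) (gaussianReal 0 1) ∧
      ∀ z g, √(v + ∑ a, c a ^ 2) * T (z, g) = √v * g + ∑ a, c a * z a := by
  have h0 : 0 ≤ ∑ a, c a ^ 2 := Finset.sum_nonneg fun a _ => sq_nonneg _
  rcases (add_nonneg hv h0).eq_or_lt with h | h
  · refine ⟨Prod.snd, measurePreserving_snd, fun z g => ?_⟩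
    have h1 : v = 0 := by linarith
    have h2 : ∀ a, c a = 0 := fun a => pow_eq_zero_iff two_ne_zero |>.1
      ((Finset.sum_eq_zero_iff_of_nonneg fun a _ => sq_nonneg (c a)).1 (by linarith) a
        (Finset.mem_univ a))
    simp [h1, h2]
  · have hr : 0 < √(v + ∑ a, c a ^ 2) := Real.sqrt_pos.2 h
    let u : Option d → ℝ := fun o => o.elim √v c / √(v + ∑ a, c a ^ 2)
    have hu : ∑ o, u o ^ 2 = 1 := by
      simp only [u, div_pow, Real.sq_sqrt h.le, ← Finset.sum_div, Fintype.sum_option,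
        Option.elim_none, Option.elim_some, Real.sq_sqrt hv]
      exact div_self h.ne'
    have hT : Measurable fun p : (d → ℝ) × ℝ => u none * p.2 + ∑ a, u (some a) * p.1 a := by
      fun_prop
    refine ⟨fun p => u none * p.2 + ∑ a, u (some a) * p.1 a, ⟨hT, ?_⟩, fun z g => ?_⟩
    · rw [← (measurePreserving_gpi_option d).map_eq,
        Measure.map_map hT (measurePreserving_gpi_option d).measurable,
        ← (measurePreserving_gpi_dot u hu).map_eq]
      congr 1
      funext z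
      simp [Fintype.sum_option]
    · simp only [u, Option.elim_none, Option.elim_some, mul_add, Finset.mul_sum]
      congr 1
      · field_simp
      · exact Finset.sum_congr rfl fun a _ => by field_simp

/-- Merge independent Gaussian channels (`theta_val`, `measurePreserving_gpi_dot` on `Option d`). -/
theorem merge_val {h : ℕ → ℝ} (hh : ∀ r, 0 ≤ h r) (b a₂ : ℝ) (s : ℕ) (hs : s ≤ k)
    (c : ℕ → d → ℝ) :
    val (uz k) ((gLv d).prod (osL.prod bLv)) (k + 1) (fun x =>
        (osH k b h (fun r => (x r).2.1) + a₂ * sgn (x s).2.2 * sgn (x 0).2.1.2) +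
          sgn (x 0).2.1.2 * ∑ r ∈ Finset.range (k + 1), ∑ a, c r a * (x r).1 a) =
      osT k b (fun r => h r + ∑ a, c r a ^ 2) a₂ s := by
  choose T hT hT' using fun r => tr_merge (hh r) (c r)
  have hτ : ∀ r, MeasurePreserving
      (fun ω : (d → ℝ) × ((ℝ × Bool) × Bool) => ((T r (ω.1, ω.2.1.1), ω.2.1.2), ω.2.2))
      ((gLv d).prod (osL.prod bLv)).P (osL.prod bLv).P := fun r =>
    ((((hT r).prod (MeasurePreserving.id bLv.P)).comp
      (measurePreserving_prodAssoc (gpi d) (gaussianReal 0 1) bLv.P).symm).prod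
        (MeasurePreserving.id bLv.P)).comp
      (measurePreserving_prodAssoc (gpi d) ((gaussianReal 0 1).prod bLv.P) bLv.P).symm
  have hb : Bdd (fun x : ℕ → (ℝ × Bool) × Bool => sgn (x s).2) 1 := tr_bdd_sgn (by fun_prop)
  have hb' : Bdd (fun x : ℕ → (ℝ × Bool) × Bool => sgn (x 0).1.2) 1 := tr_bdd_sgn (by fun_prop)
  have hL : ∀ h' : ℕ → ℝ, Lin (osL.prod bLv) (k + 1) fun x =>
      osH k b h' (fun r => (x r).1) + a₂ * sgn (x s).2 * sgn (x 0).1.2 := fun h' =>
    (tr_lin_osH k b h').fst.add ((hb.lin.const_mul a₂).mul_bdd hb')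
  have h1 : (fun x : ℕ → (d → ℝ) × ((ℝ × Bool) × Bool) =>
      (osH k b h (fun r => (x r).2.1) + a₂ * sgn (x s).2.2 * sgn (x 0).2.1.2) +
          sgn (x 0).2.1.2 * ∑ r ∈ Finset.range (k + 1), ∑ a, c r a * (x r).1 a) = fun x =>
      (fun x : ℕ → (ℝ × Bool) × Bool => osH k b (fun r => h r + ∑ a, c r a ^ 2) (fun r => (x r).1) +
        a₂ * sgn (x s).2 * sgn (x 0).1.2)
        fun r => ((T r ((x r).1, (x r).2.1.1), (x r).2.1.2), (x r).2.2) := by
    funext x
    simp only [osH, hT', Finset.sum_add_distrib]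
    ring
  have h2 : Lin ((gLv d).prod (osL.prod bLv)) (k + 1) fun x =>
      (osH k b h (fun r => (x r).2.1) + a₂ * sgn (x s).2.2 * sgn (x 0).2.1.2) +
          sgn (x 0).2.1.2 * ∑ r ∈ Finset.range (k + 1), ∑ a, c r a * (x r).1 a := by
    refine (hL h).snd.add ?_
    simp only [mul_comm (sgn _)]
    exact (Lin.sum _ fun r hr => Lin.sum _ fun a _ =>
      (lin_gauss _ (Finset.mem_range.1 hr) a).const_mul _).mul_bdd (tr_bdd_sgn (by fun_prop))
  have h3 := theta_val (isSch_uz k) hτ (hL fun r => h r + ∑ a, c r a ^ 2).ham (fun x x' hx => by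
    simp only [osH, hx 0 (by omega), hx s (by omega)]
    rw [Finset.sum_congr rfl fun r hr => by rw [hx r (Finset.mem_range.1 hr)]]) (h1 ▸ h2.ham)
  rw [h1]
  exact h3

/-- Fourth moment when the tree field is not tilted (`prod_Ex`, `measurePreserving_gpi_dot` or
level-by-level). -/
theorem tree_m4 {LA : Lv A} {Ha : (ℕ → A) → ℝ} (hH : Lin LA (k + 1) Ha) (hq : IsProf k Q q)
    (a : d) :
    ex (uz k) ((gLv d).prod LA) (k + 1) (fun x => Ha fun r => (x r).2)
      (fun x => tree k q x a ^ 4) ≤ 3 * Q ^ 2 := by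
  have h := trb_m4 (α := fun _ => 0) hH hq (fun _ => le_rfl) a (x0 ((gLv d).prod LA))
  simpa only [ex, trQ_zero, zero_mul, Finset.sum_const_zero, zero_div, neg_zero, zero_add]
    using h

theorem tr_quad_eq (k : ℕ) (q : ℕ → ℝ) (Δ : ℝ) :
    (fun x : ℕ → (Unit → ℝ) × Unit => -(Δ * tree k q x () ^ 2) / 2) =
      fun x => trQ k (fun _ => Δ) q 0 x + (fun _ => 0 : (ℕ → Unit) → ℝ) fun i => (x i).2 := by
  funext x
  simp [trQ_zero, neg_div]

theorem tr_quad (hq : IsProf k Q q) {Δ : ℝ} (hΔ : 0 ≤ Δ) {s : ℕ} (hs : s ≤ k)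
    (x : ℕ → (Unit → ℝ) × Unit) :
    tl (uz k) ((gLv Unit).prod uLv) (fun x => -(Δ * tree k q x () ^ 2) / 2) (k + 1) s
        (fun x => tree k q x ()) (fun x => tree k q x ()) x = ptail k (tq k Δ q) s ∧
    Ex (uz k) ((gLv Unit).prod uLv) (fun x => -(Δ * tree k q x () ^ 2) / 2) (k + 1)
      (fun x => tree k q x () ^ 2) x ≤ Q ∧
    Ex (uz k) ((gLv Unit).prod uLv) (fun x => -(Δ * tree k q x () ^ 2) / 2) (k + 1)
      (fun x => tree k q x () ^ 4) x ≤ 3 * Q ^ 2 := by
  rw [tr_quad_eq]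
  have hH : Lin uLv (k + 1) fun _ => (0 : ℝ) := lin_const 0
  have h2 := trb_m2 (α := fun _ => Δ) hH hq (fun _ => hΔ) () (Nat.zero_le _) x
  simp only [trU_zero] at h2
  refine ⟨?_, h2.trans_le (hq.tq hΔ).2.2.2, trb_m4 hH hq (fun _ => hΔ) () x⟩
  unfold tl ptail
  simp only [← sq]
  rw [h2]
  congr 1
  refine Finset.sum_congr rfl fun i hi => ?_
  have hi' := Finset.mem_range.1 hi
  simp only [trb_m1 hH hq (fun _ => hΔ) () (show i + 1 ≤ k + 1 by omega)]
  rw [trb_m2 hH hq (fun _ => hΔ) () (by omega), uz_sub (by omega)]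
  ring

/-- The purely quadratic chain: `E_r y = y_r/(1+Δ D_r)`, increments of `E (E_r y)²` are `tinc`,
tilted conditional moments are dominated by the untilted ones. -/
theorem tree_quad (hq : IsProf k Q q) {Δ : ℝ} (hΔ : 0 ≤ Δ) {s : ℕ} (hs : s ≤ k) :
    tl (uz k) ((gLv Unit).prod uLv) (fun x => -(Δ * tree k q x () ^ 2) / 2) (k + 1) s
        (fun x => tree k q x ()) (fun x => tree k q x ()) (x0 ((gLv Unit).prod uLv)) =
      ptail k (tq k Δ q) s ∧
    ex (uz k) ((gLv Unit).prod uLv) (k + 1) (fun x => -(Δ * tree k q x () ^ 2) / 2)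
      (fun x => tree k q x () ^ 2) ≤ Q ∧
    ex (uz k) ((gLv Unit).prod uLv) (k + 1) (fun x => -(Δ * tree k q x () ^ 2) / 2)
      (fun x => tree k q x () ^ 4) ≤ 3 * Q ^ 2 :=
  tr_quad hq hΔ hs _

/-- Second-order test on the tree side (`test2`, `tree_val` with `β = 0`, `tree_quad`,
`abs_tl_sub_le`, `abs_gs_sub_le`). -/
theorem tree_test (hq : IsProf k Q q) {Δ Lg a : ℝ} (hΔ : 0 ≤ Δ) (hL : 1 ≤ Lg) (ha : |a| * Lg ≤ 1)
    {s : ℕ} (hs : s ≤ k) :
    |val (uz k) ((gLv Unit).prod bLv) (k + 1) (fun x => -(Δ * tree k q x () ^ 2) / 2 +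
          a * sgn (x s).2 * gs Lg (tree k q x ())) - Move k Δ q -
        a ^ 2 / 2 * ptail k (tq k Δ q) s| ≤
      200 * (|a| * Lg) ^ 3 + a ^ 2 * (4 * (1 + Q) ^ 2 / Lg) := by
  have hQ : 0 ≤ Q := (hq.2.1 0).trans hq.2.2.2
  have hL0 : 0 < Lg := by linarith
  have hH0 : Lin uLv (k + 1) fun _ => (0 : ℝ) := lin_const 0
  have hH : Ham ((gLv Unit).prod uLv) (k + 1) fun x => -(Δ * tree k q x () ^ 2) / 2 := by
    rw [tr_quad_eq]
    exact (ham_trQ uLv k q fun _ => hΔ).add hH0.snd.ham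
  have hH' : Ham ((gLv Unit).prod bLv) (k + 1) fun x => -(Δ * tree k q x () ^ 2) / 2 := by
    convert ham_trQ (α := fun _ : Unit => Δ) bLv k q fun _ => hΔ using 2 with x
    simp [trQ_zero, neg_div]
  have hp : MeasurePreserving (fun ω : (Unit → ℝ) × Bool => ((ω.1, ()), ω.2))
      ((gLv Unit).prod bLv).P (((gLv Unit).prod uLv).P.prod bLv.P) :=
    (⟨measurable_prodMk_right, (Measure.prod_dirac ()).symm⟩ :
      MeasurePreserving (fun z : Unit → ℝ => (z, ())) (gpi Unit)
        ((gpi Unit).prod (Measure.dirac ()))).prod (MeasurePreserving.id bLv.P)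
  have hf := lin_tree uLv k q ()
  have hg : Bdd (fun x : ℕ → (Unit → ℝ) × Unit => gs Lg (tree k q x ())) Lg :=
    ⟨(measurable_gs Lg).comp hf.measurable, fun x => abs_gs_le hL0 _⟩
  have h1 := test2 (isSch_uz k) hH (p := fun ω : (Unit → ℝ) × Bool => (ω.1, ())) (ξ := Prod.snd)
    hp hH' hg ha (show s < k + 1 by omega) (x0 ((gLv Unit).prod bLv))
  set x₁ : ℕ → (Unit → ℝ) × Unit := fun r => ((x0 ((gLv Unit).prod bLv) r).1, ()) with hx₁
  have h2 : X (uz k) ((gLv Unit).prod uLv) (fun x => -(Δ * tree k q x () ^ 2) / 2) (k + 1) x₁ =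
      Move k Δ q := by
    rw [tr_quad_eq, trb_main hq (fun _ => hΔ) (G := fun _ _ => 0) (fun _ => (lin_const 0).ham)
      (fun _ _ _ => rfl) le_rfl, trQ_top, tst_X_zero]
    simp
  obtain ⟨h3, h4, h5⟩ := tr_quad hq hΔ hs x₁
  have hgood := hH.good_of_pos (isSch_uz k) (r := k + 1) fun i hi => uz_pos (by omega)
  have h6 := abs_tl_sub_le (isSch_uz k) hgood (show s ≤ k + 1 by omega) hg.tame hf.tame x₁
  have hi := fun F hF => hgood.2 _ le_rfl F hF x₁
  have h7 : √(Ex (uz k) ((gLv Unit).prod uLv) (fun x => -(Δ * tree k q x () ^ 2) / 2) (k + 1)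
      (fun x => (gs Lg (tree k q x ()) - tree k q x ()) ^ 2) x₁) ≤ 2 * Q / Lg := by
    refine Real.sqrt_le_iff.2 ⟨by positivity, ?_⟩
    have := integral_mono (hi _ ((hg.tame.sub hf.tame).pow 2))
      (hi _ ((hf.tame.pow 4).const_mul (Lg ^ 2)⁻¹)) fun x => by
        have h := abs_gs_sub_le hL0 (tree k q x ())
        have h' := pow_le_pow_left₀ (abs_nonneg _) h 2
        rw [sq_abs] at h'
        refine h'.trans_eq ?_
        field_simp
    rw [integral_const_mul] at this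
    refine this.trans ((mul_le_mul_of_nonneg_left h5 (by positivity)).trans ?_)
    rw [div_pow, div_eq_inv_mul]
    gcongr
    nlinarith [sq_nonneg Q]
  have h8 : √(Ex (uz k) ((gLv Unit).prod uLv) (fun x => -(Δ * tree k q x () ^ 2) / 2) (k + 1)
      (fun x => tree k q x () ^ 2) x₁) ≤ 1 + Q :=
    Real.sqrt_le_iff.2 ⟨by positivity, h4.trans (by nlinarith)⟩
  have h9 : √(Ex (uz k) ((gLv Unit).prod uLv) (fun x => -(Δ * tree k q x () ^ 2) / 2) (k + 1)
      (fun x => gs Lg (tree k q x ()) ^ 2) x₁) ≤ 1 + Q := by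
    refine (Real.sqrt_le_sqrt ?_).trans h8
    exact integral_mono (hi _ (hg.tame.pow 2)) (hi _ (hf.tame.pow 2)) fun x =>
      sq_le_sq.2 (abs_gs_le_abs hL0 _)
  have h10 := h6.trans (mul_le_mul (mul_le_mul_of_nonneg_left h7 zero_le_two) (add_le_add h9 h8)
    (by positivity) (by positivity))
  rw [h3] at h10
  rw [h2] at h1
  have h11 : a ^ 2 / 2 * (2 * (2 * Q / Lg) * (1 + Q + (1 + Q))) ≤ a ^ 2 * (4 * (1 + Q) ^ 2 / Lg) := by
    have : a ^ 2 / 2 * (2 * (2 * Q / Lg) * (1 + Q + (1 + Q))) = a ^ 2 * (4 * (Q * (1 + Q)) / Lg) := by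
      ring
    rw [this]
    gcongr
    nlinarith
  have h12 := (mul_le_mul_of_nonneg_left h10 (by positivity : 0 ≤ a ^ 2 / 2)).trans h11
  rw [← abs_of_nonneg (by positivity : 0 ≤ a ^ 2 / 2), ← abs_mul] at h12
  refine le_trans ?_ (add_le_add h1 h12)
  refine le_trans (le_of_eq ?_) (abs_add_le _ _)
  congr 1
  unfold val tree
  ring

end Crest.Agent.R164
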