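import Crest.Agent.R164.M4
import Crest.Agent.R164.Tree

/-!
# Row 164: M5
**Moving one row; Ward identities.**
`cav1`: let `B = S.move i`, `Δ = l none - l (part i) ∈ [0, Δ₁]`, `ψ = a ξ_s gs Lg (y i)` (`|ψ| ≤ 1`).
(1) mismatch: the row-wise parameters `(Λ̃, Ã)` = those of `B` except `Λ̃ i = lam ϑ none - Δ` differ from those of
`S` only in row `i`, by `≤ 2δ₀` resp. `δ₀`; `gf_param_lower` both ways.  Second moments: `gav_tilt_le`, `gav_y2`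
for `S`; for `(Λ̃, Ã)` = `B` with extra term `ψ - Δ y_i²/2` (`gH_eig`) use `gav_tilt_le`, `gav_neg_tilt_le` (divide
by `Δ` if `Δ > 0`), `gav_y2`.  (2) truncate `Q = Δ y_i²` (`gf_trunc`, `gav_y4`).  (3) `cav0` with `d = Unit`,
`La = bLv`, `Ha = 0`, `T y c = -chi M (Δ y²)/2 + a ξ_s gs Lg y` (`sm2_quad`, `sm2_gs`, `Sm2.add`; `|a| ≤ 1`) for the
sequence `B`, which is touching by `move_bound` and `TS.near`.  (4) untruncate (`trunc_cmp`, `tree_m4`).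
To pass from a sequence of rows to "eventually, for all rows" choose a bad row when there is one:
`B N = {S N with part := fun i' => if o N = some i' then none else (S N).part i'}`, `o N : Option (S N).ρ`.
Order of constants: `e → M → k₀`; `k, R → δ₀`.
`ward`: subtract `cav1` for `a` and for `0`; `gf_test2`, `tree_test`, `abs_gtl_sub_le` + `abs_gs_sub_le` + `gav_y4`,
`sl_approx`; choose `Lg` large, then `a` small, then the accuracy `≪ a² e`.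
-/

set_option autoImplicit false
set_option linter.unusedSectionVars false

open MeasureTheory ProbabilityTheory Filter Topology
open scoped ENNReal BigOperators Matrix

noncomputable section

namespace Crest.Agent.R164

section Gen

variable {ρ ς A : Type} [Fintype ρ] [DecidableEq ρ] [Fintype ς] [DecidableEq ς] [MeasurableSpace A]
  {k : ℕ} {π : Measure (ς → Bool)} [IsProbabilityMeasure π] {La : Lv A}
  {E0 : (ς → Bool) → ℝ} {Λ Λ' : ρ → ℝ} {𝔞 𝔞' : ρ → ℕ → ℝ}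
  {G ψ : (ρ → ℝ) → (ς → Bool) → (ℕ → A) → ℝ}

theorem m5_y2 (hc : Fintype.card ρ = Fintype.card ς) {I : Finset ρ}
    (hI : ∀ i ∈ I, ∀ i' ∈ I, Λ i = Λ i' ∧ 𝔞 i = 𝔞 i') {i : ρ} (hi : i ∈ I) {g₀ : ℝ} (hg : 0 < g₀)
    (hn : g₀ * Fintype.card ς ≤ I.card) :
    gav k π La E0 Λ 𝔞 (fun _ _ _ => 0) (fun U x => yv U (x 0).2.1 i ^ 2) ≤ 1 / g₀ := by
  refine (gav_y2 (G₀ := fun _ _ => 0) hc gok_zero hI hi).trans ?_
  have : (0 : ℝ) < I.card := by exact_mod_cast Finset.card_pos.2 ⟨i, hi⟩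
  rw [div_le_div_iff₀ this hg]
  linarith

theorem m5_y4 (hc : Fintype.card ρ = Fintype.card ς) {I : Finset ρ}
    (hI : ∀ i ∈ I, ∀ i' ∈ I, Λ i = Λ i' ∧ 𝔞 i = 𝔞 i') {i : ρ} (hi : i ∈ I) {g₀ : ℝ} (hg : 0 < g₀)
    (hn : g₀ * Fintype.card ς ≤ I.card) (h2 : 2 ≤ I.card) :
    gav k π La E0 Λ 𝔞 (fun _ _ _ => 0) (fun U x => yv U (x 0).2.1 i ^ 4) ≤ 6 / g₀ ^ 2 := by
  refine (gav_y4 (G₀ := fun _ _ => 0) hc gok_zero hI hi h2).trans ?_
  have h3 : (2 : ℝ) ≤ I.card := by exact_mod_cast h2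
  have h4 : (g₀ * Fintype.card ς) ^ 2 ≤ (I.card : ℝ) ^ 2 := by gcongr
  rw [div_le_div_iff₀ (mul_pos (by linarith) (by linarith)) (by positivity)]
  nlinarith

theorem m5_mis1 (hc : Fintype.card ρ = Fintype.card ς) (hψ : GOK k La ψ)
    (hb : ∀ y σ c, |ψ y σ c| ≤ 1) {i : ρ} (hoff : ∀ i', i' ≠ i → Λ' i' = Λ i' ∧ 𝔞' i' = 𝔞 i')
    {δ₀ R m : ℝ} (hR : 0 ≤ R) (hA : ∀ i s, |𝔞 i s| ≤ R) (h1 : |Λ' i - Λ i| ≤ 2 * δ₀)
    (h2 : ∀ s, |𝔞' i s - 𝔞 i s| ≤ δ₀)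
    (hm : gav k π La E0 Λ 𝔞 (fun _ _ _ => 0) (fun U x => yv U (x 0).2.1 i ^ 2) ≤ m) :
    gf k π La E0 Λ 𝔞 ψ - gf k π La E0 Λ' 𝔞' ψ ≤
      δ₀ * (1 + k * (1 + 2 * R)) * (1 + Real.exp 2 * m) := by
  have e1 := gf_param_lower (π := π) (E0 := E0) (Λ := Λ) (Λ' := Λ') (𝔞' := 𝔞') hc hψ hR hA
  rw [Finset.sum_eq_single i (fun i' _ hi' => by simp [(hoff i' hi').1, (hoff i' hi').2])
    (fun h => absurd (Finset.mem_univ _) h)] at e1
  have e2 := gav_tilt_le (π := π) (E0 := E0) (Λ := Λ) (𝔞 := 𝔞) hc gok_zero hψ hb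
    ((ut_y i).pow 2) (fun _ _ => sq_nonneg _)
  simp only [zero_add, mul_one] at e2
  have e3 := gav_nonneg (k := k) (π := π) (La := La) (E0 := E0) (Λ := Λ) (𝔞 := 𝔞) (G := ψ)
    (F := fun U x => yv U (x 0).2.1 i ^ 2) (fun _ _ => sq_nonneg _)
  have e4 : ∑ s ∈ Finset.Icc 1 k, |𝔞' i s - 𝔞 i s| * (1 + 2 * R) ≤ k * (δ₀ * (1 + 2 * R)) := by
    refine (Finset.sum_le_card_nsmul _ _ (δ₀ * (1 + 2 * R)) fun s _ =>
      mul_le_mul_of_nonneg_right (h2 s) (by linarith)).trans ?_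
    simp
  have hδ : 0 ≤ δ₀ := (abs_nonneg _).trans (h2 0)
  have e5 := mul_le_mul_of_nonneg_left hm (Real.exp_pos 2).le
  refine (sub_le_comm.1 e1).trans (mul_le_mul (by linarith) (by linarith) (by linarith) ?_)
  positivity

theorem m5_eig (i : ρ) (Δ : ℝ) (G : (ρ → ℝ) → (ς → Bool) → (ℕ → A) → ℝ) :
    gH k E0 (Function.update Λ i (Λ i - Δ)) 𝔞 G =
      gH (ς := ς) k E0 Λ 𝔞 (fun y σ c => G y σ c - Δ / 2 * y i ^ 2) := by
  rw [gH_eig Λ]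
  congr 1
  ext y σ c
  rw [Finset.sum_eq_single i (fun i' _ hi' => by simp [hi'])
    (fun h => absurd (Finset.mem_univ _) h), Function.update_self]
  ring

theorem m5_neg (hc : Fintype.card ρ = Fintype.card ς) (i : ρ) {Δ : ℝ} (hΔ : 0 ≤ Δ) :
    gav k π La E0 (Function.update Λ i (Λ i - Δ)) 𝔞 (fun _ _ _ => 0)
        (fun U x => yv U (x 0).2.1 i ^ 2) ≤
      gav k π La E0 Λ 𝔞 (fun _ _ _ => 0) (fun U x => yv U (x 0).2.1 i ^ 2) := by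
  rcases hΔ.eq_or_lt with rfl | hΔ
  · rw [sub_zero, Function.update_eq_self]
  have e := gav_neg_tilt_le (k := k) (π := π) (La := La) (E0 := E0) (Λ := Λ) (𝔞 := 𝔞) hc gok_zero
    (fok_y (ς := ς) i (φ := fun t => Δ / 2 * t ^ 2) (by fun_prop)).gok
  have e1 : obs (fun (y : ρ → ℝ) (_ : ς → Bool) (_ : ℕ → A) => Δ / 2 * y i ^ 2) =
      fun U x => Δ / 2 * yv U (x 0).2.1 i ^ 2 := rfl
  rw [e1, gav_const_mul, gav_const_mul] at e
  have e2 := le_of_mul_le_mul_left e (by positivity)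
  simpa only [gav, m5_eig] using e2

/-- mismatch and truncation on the model side -/
theorem m5_model (hc : Fintype.card ρ = Fintype.card ς) (hψ : GOK k La ψ)
    (hb : ∀ y σ c, |ψ y σ c| ≤ 1) {i : ρ} (hoff : ∀ i', i' ≠ i → Λ' i' = Λ i' ∧ 𝔞' i' = 𝔞 i')
    {δ₀ R Δ Δ₁ M g₀ : ℝ} (hR : 0 ≤ R) (hA : ∀ i s, |𝔞 i s| ≤ R) (hA' : ∀ i s, |𝔞' i s| ≤ R)
    (hΔ : 0 ≤ Δ) (hΔ₁ : Δ ≤ Δ₁) (hM : 0 < M)
    (h1 : |Λ' i - Δ - Λ i| ≤ 2 * δ₀) (h2 : ∀ s, |𝔞' i s - 𝔞 i s| ≤ δ₀)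
    (hm : gav k π La E0 Λ 𝔞 (fun _ _ _ => 0) (fun U x => yv U (x 0).2.1 i ^ 2) ≤ 1 / g₀)
    (hm' : gav k π La E0 Λ' 𝔞' (fun _ _ _ => 0) (fun U x => yv U (x 0).2.1 i ^ 2) ≤ 1 / g₀)
    (hm4 : gav k π La E0 Λ' 𝔞' (fun _ _ _ => 0) (fun U x => yv U (x 0).2.1 i ^ 4) ≤ 6 / g₀ ^ 2) :
    |gf k π La E0 Λ 𝔞 ψ -
        gf k π La E0 Λ' 𝔞' (fun y σ c => 0 - chi M (Δ * y i ^ 2) / 2 + ψ y σ c)| ≤
      δ₀ * (1 + k * (1 + 2 * R)) * (1 + Real.exp 2 * (1 / g₀)) +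
        Real.exp 2 * (Δ₁ ^ 2 * (6 / g₀ ^ 2)) / (2 * M) := by
  have e1 := m5_mis1 (π := π) (E0 := E0) (Λ := Λ) (Λ' := Function.update Λ' i (Λ' i - Δ))
    (𝔞 := 𝔞) (𝔞' := 𝔞') hc hψ hb (i := i)
    (fun i' hi' => ⟨by rw [Function.update_of_ne hi', (hoff i' hi').1], (hoff i' hi').2⟩) hR hA
    (by rwa [Function.update_self]) h2 hm
  have e2 := m5_mis1 (π := π) (E0 := E0) (Λ' := Λ) (Λ := Function.update Λ' i (Λ' i - Δ))
    (𝔞' := 𝔞) (𝔞 := 𝔞') hc hψ hb (i := i)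
    (fun i' hi' => ⟨by rw [Function.update_of_ne hi', (hoff i' hi').1], (hoff i' hi').2.symm⟩) hR hA'
    (by rwa [Function.update_self, abs_sub_comm]) (fun s => by rw [abs_sub_comm]; exact h2 s)
    ((m5_neg hc i hΔ).trans hm')
  have e3 := gf_trunc (k := k) (π := π) (La := La) (E0 := E0) (Λ := Λ') (𝔞 := 𝔞') hc gok_zero
    (fok_y (ς := ς) i (φ := fun t => Δ * t ^ 2) (by fun_prop)).gok
    (fun _ _ _ => by positivity) hψ hb hM
  have e4 : gf k π La E0 (Function.update Λ' i (Λ' i - Δ)) 𝔞' ψ =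
      gf k π La E0 Λ' 𝔞' (fun y σ c => 0 - Δ * y i ^ 2 / 2 + ψ y σ c) := by
    have : (fun y σ c => ψ y σ c - Δ / 2 * y i ^ 2) =
        fun y σ c => 0 - Δ * y i ^ 2 / 2 + ψ y σ c := by
      ext y σ c
      ring
    simp only [gf, gz, m5_eig, this]
  have e5 : (fun U x => obs (fun (y : ρ → ℝ) (_ : ς → Bool) (_ : ℕ → A) => Δ * y i ^ 2) U x ^ 2) =
      fun U x => Δ ^ 2 * yv U (x 0).2.1 i ^ 4 := by
    ext U x
    simp only [obs]
    ring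
  rw [e5, gav_const_mul, mul_one] at e3
  have e6 : Δ ^ 2 * gav k π La E0 Λ' 𝔞' (fun _ _ _ => 0) (fun U x => yv U (x 0).2.1 i ^ 4) ≤
      Δ₁ ^ 2 * (6 / g₀ ^ 2) := by
    refine (mul_le_mul_of_nonneg_left hm4 (sq_nonneg _)).trans ?_
    gcongr
  have e7 := e3.trans (div_le_div_of_nonneg_right
    (mul_le_mul_of_nonneg_left e6 (Real.exp_pos 2).le) (by positivity))
  rw [e4] at e1 e2
  rw [abs_le] at e7 ⊢
  constructor <;> linarith [e7.1, e7.2]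

theorem m5_meas_sgn : Measurable sgn := Measurable.of_discrete

theorem m5_abs_psi {a Lg : ℝ} (hL : 1 ≤ Lg) (ha : |a| * Lg ≤ 1) (b : Bool) (t : ℝ) :
    |a * sgn b * gs Lg t| ≤ 1 := by
  rw [abs_mul, abs_mul, abs_sgn, mul_one]
  exact (mul_le_mul_of_nonneg_left (abs_gs_le (by linarith) t) (abs_nonneg _)).trans ha

theorem m5_gok {a Lg : ℝ} (hL : 1 ≤ Lg) (ha : |a| * Lg ≤ 1) {s : ℕ} (hs : s ≤ k) (i : ρ) :
    GOK k bLv (fun (y : ρ → ℝ) (_ : ς → Bool) (c : ℕ → Bool) => a * sgn (c s) * gs Lg (y i)) := by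
  refine gok_of_bdd (C := 1) (fun σ => ?_) (fun y σ c c' h => ?_)
    fun y σ c _ => m5_abs_psi hL ha _ _
  · have := m5_meas_sgn
    have := measurable_gs Lg
    fun_prop
  · simp only [h s (by omega)]

/-- truncation on the tree side -/
theorem m5_tree {Q : ℝ} {q : ℕ → ℝ} (hq : IsProf k Q q) {a Lg Δ Δ₁ M : ℝ} (hL : 1 ≤ Lg)
    (ha : |a| * Lg ≤ 1) (s : ℕ) (hΔ : 0 ≤ Δ) (hΔ₁ : Δ ≤ Δ₁) (hM : 0 < M) :
    |val (uz k) ((gLv Unit).prod bLv) (k + 1) (fun x =>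
        0 - chi M (Δ * tree k q x () ^ 2) / 2 + a * sgn (x s).2 * gs Lg (tree k q x ())) -
      val (uz k) ((gLv Unit).prod bLv) (k + 1) (fun x =>
        -(Δ * tree k q x () ^ 2) / 2 + a * sgn (x s).2 * gs Lg (tree k q x ()))| ≤
      Real.exp 2 * (Δ₁ ^ 2 * (3 * Q ^ 2)) / (2 * M) := by
  have hl := lin_tree (d := Unit) bLv k q ()
  have hψ : Bdd (fun x : ℕ → (Unit → ℝ) × Bool => a * sgn (x s).2 * gs Lg (tree k q x ())) 1 := by
    refine ⟨?_, fun x => m5_abs_psi hL ha _ _⟩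
    exact (measurable_const.mul (m5_meas_sgn.comp (measurable_pi_apply s).snd)).mul
      ((measurable_gs Lg).comp hl.measurable)
  have e1 := trunc_cmp (isSch_uz k) ((lin_const 0).good (isSch_uz k) (k + 1)) (hl.ham_neg_sq hΔ)
    (fun x => by positivity) hψ hM (x0 ((gLv Unit).prod bLv))
  have e2 := tree_m4 (d := Unit) (LA := bLv) (Ha := fun _ => 0) (lin_const 0) hq ()
  have e3 : Ex (uz k) ((gLv Unit).prod bLv) (fun _ => 0) (k + 1)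
      (fun x => (Δ * tree k q x () ^ 2) ^ 2) (x0 ((gLv Unit).prod bLv)) ≤ Δ₁ ^ 2 * (3 * Q ^ 2) := by
    have : (fun x : ℕ → (Unit → ℝ) × Bool => (Δ * tree k q x () ^ 2) ^ 2) =
        fun x => Δ ^ 2 * tree k q x () ^ 4 := by
      ext x; ring
    rw [this, Ex, integral_const_mul]
    refine (mul_le_mul_of_nonneg_left e2 (sq_nonneg _)).trans ?_
    gcongr
  rw [mul_one] at e1
  have e4 := e1.trans (div_le_div_of_nonneg_right
    (mul_le_mul_of_nonneg_left e3 (Real.exp_pos 2).le) (by positivity))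
  simpa only [val, zero_sub, neg_div] using e4

theorem m5_sm2 (Δ₁ : ℝ) {M : ℝ} (hM : 0 < M) : ∃ M' : ℝ, ∀ {a Lg Δ : ℝ}, 1 ≤ Lg → |a| * Lg ≤ 1 →
    0 ≤ Δ → Δ ≤ Δ₁ → ∀ s : ℕ, Sm2 (fun (y : Unit → ℝ) (c : ℕ → Bool) =>
      -(chi M (Δ * y () ^ 2) / 2) + a * sgn (c s) * gs Lg (y ())) (M / 2 + Lg) M' := by
  obtain ⟨M', -, h⟩ := sm2_quad Unit Unit (Δ₁ := Δ₁) hM
  refine ⟨M' + 1, fun {a Lg Δ} hL ha h0 h1 s => ?_⟩
  have e1 := h (ℕ → Bool) (fun _ => Δ) (fun _ _ => 1) (fun _ _ => 0) (fun _ => ⟨h0, h1⟩)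
    (fun _ _ => by simp) (fun _ => measurable_const)
  have e2 := sm2_gs (d := Unit) (ψ := fun c : ℕ → Bool => a * sgn (c s))
    ⟨measurable_const.mul (m5_meas_sgn.comp (measurable_pi_apply s)), fun c => by
      rw [abs_mul, abs_sgn, mul_one]
      nlinarith [abs_nonneg a]⟩ hL ()
  simpa using e1.add e2

end Gen

variable {κ J : Type} [Fintype κ] [DecidableEq κ] [Fintype J] [DecidableEq J]

/-- move the optional row to the top block -/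
def m5_mvo (S : BS κ J) (o : Option S.ρ) : BS κ J :=
  { S with part := fun i' => if o = some i' then none else S.part i' }

theorem m5_mvo_none (S : BS κ J) : m5_mvo S none = S := by
  unfold m5_mvo
  congr 1

theorem m5_mvo_some (S : BS κ J) (i : S.ρ) : m5_mvo S (some i) = S.move i := by
  unfold m5_mvo BS.move
  congr 1
  ext1 i'
  simp only [Option.some.injEq, Function.update_apply, eq_comm]

theorem m5_move_nb (S : BS κ J) (i : S.ρ) (j : Option κ) :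
    (S.move i).nb j ≤ S.nb j + 1 ∧ S.nb j ≤ (S.move i).nb j + 1 ∧
      S.nb none ≤ (S.move i).nb none := by
  simp only [BS.move_nb, dec, Function.update_apply]
  refine ⟨?_, ?_, ?_⟩ <;> split_ifs <;> simp_all <;> omega

theorem m5_fat {γ : Option κ → ℝ} (hγ : ∀ j, 0 < γ j) : ∃ g₀ : ℝ, 0 < g₀ ∧
    ∀ {S : ℕ → BS κ J}, Reg S γ → ∀ᶠ N in atTop, ∀ j, g₀ * (S N).N ≤ (S N).nb j ∧ 2 ≤ (S N).nb j := by
  obtain ⟨j₀, h₀⟩ := Finite.exists_min γ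
  have h1 := hγ j₀
  refine ⟨γ j₀ / 2, by positivity, fun {S} hS => ?_⟩
  filter_upwards [hS.eventually_fat hγ,
    (tendsto_natCast_atTop_atTop (R := ℝ).comp hS.1).eventually_ge_atTop (4 / γ j₀)] with N hN h2 j
  have h3 : γ j₀ / 2 * (S N).N ≤ (S N).nb j :=
    le_trans (by have := h₀ j; gcongr) (hN.2 j)
  refine ⟨h3, ?_⟩
  have h4 : 4 / γ j₀ ≤ (S N).N := h2
  rw [div_le_iff₀ h1] at h4
  have : (2 : ℝ) ≤ (S N).nb j := by linarith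
  exact_mod_cast this

theorem near_move {k : ℕ} {γ : Option κ → ℝ} (hγ : ∀ j, 0 < γ j) {S : ℕ → BS κ J} (hS : Reg S γ)
    (o : ∀ N, Option (S N).ρ) :
    Near S (fun N => { S N with part := fun i' => if o N = some i' then none else (S N).part i' }) k ∧
      Reg (fun N => ({ S N with part := fun i' => if o N = some i' then none else (S N).part i' } :
        BS κ J)) γ := by
  change Near S (fun N => m5_mvo (S N) (o N)) k ∧ Reg (fun N => m5_mvo (S N) (o N)) γ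
  have hN : ∀ N, (m5_mvo (S N) (o N)).N = (S N).N := fun N => rfl
  have hT : Tendsto (fun N => ((S N).N : ℝ)) atTop atTop :=
    tendsto_natCast_atTop_atTop.comp hS.1
  refine ⟨⟨?_, fun R e he => ?_⟩, hS.1, fun j => ?_⟩
  · refine tendsto_const_nhds.congr' ?_
    filter_upwards [hT.eventually_gt_atTop 0] with N h
    rw [hN, div_self h.ne']
  · obtain ⟨g₀, hg, hf⟩ := m5_fat (J := J) hγ
    obtain ⟨C, hC⟩ := move_bound (κ := κ) (J := J) k R hg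
    filter_upwards [hf hS, hT.eventually_ge_atTop (C / e)] with N h1 h2 ϑ hϑ
    rw [div_le_iff₀ he, mul_comm] at h2
    rcases o N with _ | i
    · rw [m5_mvo_none, sub_self, abs_zero]
      positivity
    · rw [m5_mvo_some, abs_sub_comm]
      exact (hC _ i ϑ hϑ fun j => (h1 j).1).trans h2
  · have h1 : Tendsto (fun N => (((m5_mvo (S N) (o N)).nb j : ℝ) - (S N).nb j) / (S N).N) atTop
        (𝓝 0) := by
      refine squeeze_zero_norm (fun N => ?_) hT.inv_tendsto_atTop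
      rw [norm_div, Real.norm_natCast, Pi.inv_apply, ← one_div]
      refine div_le_div_of_nonneg_right ?_ (Nat.cast_nonneg _)
      rcases o N with _ | i
      · simp [m5_mvo_none]
      · obtain ⟨e1, e2, -⟩ := m5_move_nb (S N) i j
        have e3 : (((S N).move i).nb j : ℝ) ≤ (S N).nb j + 1 := by exact_mod_cast e1
        have e4 : ((S N).nb j : ℝ) ≤ ((S N).move i).nb j + 1 := by exact_mod_cast e2
        rw [m5_mvo_some, Real.norm_eq_abs, abs_le]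
        constructor <;> linarith
    have h2 := h1.add (hS.2 j)
    rw [zero_add] at h2
    refine h2.congr fun N => ?_
    rw [hN]
    ring

theorem m5_all {ι : ℕ → Type} {P : ∀ N, ι N → Prop}
    (h : ∀ o : ∀ N, Option (ι N), ∀ᶠ N in atTop, ∀ i, o N = some i → P N i) :
    ∀ᶠ N in atTop, ∀ i, P N i := by
  classical
  filter_upwards [h fun N => if h : ∃ i, ¬P N i then some h.choose else none] with N hN i
  by_contra hi
  have h1 : ∃ i, ¬P N i := ⟨i, hi⟩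
  exact h1.choose_spec (hN _ (dif_pos h1))

theorem m5_gap {l : Option κ → ℝ} {Δ₁ : ℝ} (h : Gaps l 0 Δ₁) (j : Option κ) :
    0 ≤ l none - l j ∧ l none - l j ≤ |Δ₁| := by
  rcases j with _ | a
  · simp
  · exact ⟨(h a).1, (h a).2.trans (le_abs_self _)⟩

theorem m5_block {A : Type} [MeasurableSpace A] (La : Lv A) (S : BS κ J) {k : ℕ}
    (ϑ : PI κ J k → ℝ) (i : S.ρ) {g₀ : ℝ} (hg : 0 < g₀) (h1 : g₀ * S.N ≤ S.nb (S.part i))
    (h2 : 2 ≤ S.nb (S.part i)) :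
    gav k S.π La (S.E0 ϑ) (S.Λ ϑ) (S.A ϑ) (fun _ _ _ => 0) (fun U x => yv U (x 0).2.1 i ^ 2) ≤
      1 / g₀ ∧
    gav k S.π La (S.E0 ϑ) (S.Λ ϑ) (S.A ϑ) (fun _ _ _ => 0) (fun U x => yv U (x 0).2.1 i ^ 4) ≤
      6 / g₀ ^ 2 := by
  have hI : ∀ i₁ ∈ Finset.univ.filter (fun i' => S.part i' = S.part i),
      ∀ i₂ ∈ Finset.univ.filter (fun i' => S.part i' = S.part i),
      S.Λ ϑ i₁ = S.Λ ϑ i₂ ∧ S.A ϑ i₁ = S.A ϑ i₂ := by
    intro i₁ e1 i₂ e2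
    have e := (Finset.mem_filter.1 e1).2.trans (Finset.mem_filter.1 e2).2.symm
    exact ⟨by simp only [BS.Λ, e], by ext s; simp only [BS.A, e]⟩
  have hi : i ∈ Finset.univ.filter (fun i' => S.part i' = S.part i) := by simp
  exact ⟨m5_y2 S.hc hI hi hg h1, m5_y4 S.hc hI hi hg h1 h2⟩

theorem m5_tri {a b c d v x y z : ℝ} (e3 : |a - b| ≤ x) (e1 : |b - c - d| ≤ y) (e2 : |d - v| ≤ z) :
    |a - c - v| ≤ x + y + z := by
  rw [abs_le] at e1 e2 e3 ⊢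
  constructor <;> linarith [e1.1, e1.2, e2.1, e2.2, e3.1, e3.2]

/-- the conclusion of `cav0` for one row -/
def m5_P (S : BS κ J) (k : ℕ) (ϑ : PI κ J k → ℝ) (q : ℕ → ℝ) (B M e : ℝ) : Prop :=
  ∀ (E : Unit → S.ρ), Function.Injective E → (∀ a, S.part (E a) = none) →
    ∀ (A : Type) [MeasurableSpace A] (La : Lv A) (Ha : (ℕ → A) → ℝ)
      (T : (Unit → ℝ) → (ℕ → A) → ℝ),
      Lin La (k + 1) Ha → Loc (k + 1) Ha → Sm2 T B M → (∀ y, Loc (k + 1) (T y)) →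
      |S.fx k ϑ La (fun y _ c => Ha c + T (fun a => y (E a)) c) - S.f k ϑ -
        val (uz k) ((gLv Unit).prod La) (k + 1)
          (fun x => Ha (fun r => (x r).2) + T (tree k q x) (fun r => (x r).2))| ≤ e

theorem cav1 {γ : Option κ → ℝ} (hγ : ∀ j, 0 < γ j) (Δ₁ : ℝ) {Lg e : ℝ} (hL : 1 ≤ Lg) (he : 0 < e) :
    ∃ k₀ : ℕ, ∀ k ≥ k₀, ∀ R : ℝ, ∃ δ₀ : ℝ, 0 < δ₀ ∧ ∀ (δ : ℝ) (S : ℕ → BS κ J)
      (ϑ c : ℕ → PI κ J k → ℝ) (q : ℕ → ℕ → ℝ) (l : ℕ → Option κ → ℝ), TS k γ R δ S ϑ c q →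
      (∀ N, Close (ϑ N) (l N) δ₀) → (∀ N, Gaps (l N) 0 Δ₁) → ∀ᶠ N in atTop,
      ∀ (i : (S N).ρ) (a : ℝ) (s : ℕ), |a| * Lg ≤ 1 → s ≤ k →
        |(S N).fx k (ϑ N) bLv (fun y _ c => a * sgn (c s) * gs Lg (y i)) - ((S N).move i).f k (ϑ N) -
          val (uz k) ((gLv Unit).prod bLv) (k + 1) (fun x =>
            -((l N none - l N ((S N).part i)) * tree k (q N) x () ^ 2) / 2 +
              a * sgn (x s).2 * gs Lg (tree k (q N) x ()))| ≤ e := by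
  obtain ⟨g₀, hg, hfat⟩ := m5_fat (J := J) hγ
  have hγ0 := hγ none
  obtain ⟨M, hM, hM1, hM2⟩ : ∃ M : ℝ, 0 < M ∧
      Real.exp 2 * (|Δ₁| ^ 2 * (6 / g₀ ^ 2)) / (2 * M) ≤ e / 5 ∧
      Real.exp 2 * (|Δ₁| ^ 2 * (3 * (2 / γ none) ^ 2)) / (2 * M) ≤ e / 5 := by
    have h : ∀ C : ℝ, ∀ᶠ M : ℝ in atTop, C / (2 * M) ≤ e / 5 := fun C =>
      (tendsto_const_nhds.div_atTop (tendsto_id.const_mul_atTop two_pos)).eventually_le_const
        (by positivity)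
    exact ((eventually_gt_atTop 0).and ((h _).and (h _))).exists
  obtain ⟨M', hM'⟩ := m5_sm2 |Δ₁| hM
  obtain ⟨C, hC⟩ := cav0 (κ := κ) (J := J) Unit (M / 2 + Lg) M' hγ0
  obtain ⟨k₀, hk₀⟩ : ∃ k₀ : ℕ, ∀ k ≥ k₀, C / √(k + 1) ≤ e / 5 := by
    refine eventually_atTop.1 (Tendsto.eventually_le_const (show 0 < e / 5 by positivity) ?_)
    exact tendsto_const_nhds.div_atTop (Real.tendsto_sqrt_atTop.comp
      (tendsto_atTop_add_const_right _ _ tendsto_natCast_atTop_atTop))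
  refine ⟨k₀, fun k hk R => ?_⟩
  have hK : 0 < (1 + k * (1 + 2 * |R|)) * (1 + Real.exp 2 * (1 / g₀)) := by positivity
  refine ⟨e / 5 / ((1 + k * (1 + 2 * |R|)) * (1 + Real.exp 2 * (1 / g₀))), by positivity,
    fun δ S ϑ c q l hT hcl hgap => m5_all fun o => ?_⟩
  obtain ⟨hn1, hn2⟩ := near_move (k := k) hγ hT.reg o
  filter_upwards [hC k γ R δ _ ϑ c q rfl (hT.near hn1 hn2) (e / 5) (by positivity), hfat hT.reg]
    with N h1 h2 i hi a s ha hs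
  have h3 : m5_P (m5_mvo (S N) (o N)) k (ϑ N) (q N) (M / 2 + Lg) M' (C / √(k + 1) + e / 5) := h1
  rw [hi, m5_mvo_some] at h3
  obtain ⟨hΔ, hΔ₁⟩ := m5_gap (hgap N) ((S N).part i)
  have hp : ((S N).move i).part i = none := Function.update_self ..
  have e1 := h3 (fun _ => i) (fun _ _ _ => rfl) (fun _ => hp) _ bLv (fun _ => 0) _ (lin_const 0)
    (fun _ _ _ => rfl) (hM' hL ha hΔ hΔ₁ s) (fun y c c' h => by simp only [h s (by omega)])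
  have e2 := m5_tree (hT.tp.prof N) hL ha s hΔ hΔ₁ hM
  have hA : ∀ j s, |amp (ϑ N) j s| ≤ |R| := fun j s =>
    (abs_amp_le (hT.tp.bϑ N) j s).trans (le_abs_self R)
  have hb := m5_block bLv ((S N).move i) (ϑ N) i hg
    (by rw [hp]; exact (h2 none).1.trans (by exact_mod_cast (m5_move_nb (S N) i none).2.2))
    (by rw [hp]; exact (h2 none).2.trans (m5_move_nb (S N) i none).2.2)
  have e3 := m5_model (π := (S N).π) (E0 := (S N).E0 (ϑ N)) (Λ := (S N).Λ (ϑ N))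
    (Λ' := ((S N).move i).Λ (ϑ N)) (𝔞 := (S N).A (ϑ N)) (𝔞' := ((S N).move i).A (ϑ N))
    (S N).hc (m5_gok hL ha hs i) (fun _ _ _ => m5_abs_psi hL ha _ _) (i := i)
    (δ₀ := e / 5 / ((1 + k * (1 + 2 * |R|)) * (1 + Real.exp 2 * (1 / g₀))))
    (fun i' hi' => by
      have : ((S N).move i).part i' = (S N).part i' := Function.update_of_ne hi' ..
      exact ⟨by simp only [BS.Λ, this], by ext s; simp only [BS.A, this]⟩)
    (abs_nonneg R) (fun _ _ => hA _ _) (fun _ _ => hA _ _) hΔ hΔ₁ hM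
    (by
      have a1 := abs_le.1 ((hcl N).1 none)
      have a2 := abs_le.1 ((hcl N).1 ((S N).part i))
      simp only [BS.Λ, hp, abs_le]
      constructor <;> linarith [a1.1, a1.2, a2.1, a2.2])
    (fun s => by
      simp only [BS.A, hp]
      rw [abs_sub_comm]
      exact (hcl N).2 _ s)
    (m5_block bLv (S N) (ϑ N) i hg (h2 _).1 (h2 _).2).1 hb.1 hb.2
  rw [mul_assoc, div_mul_cancel₀ _ hK.ne'] at e3
  have e4 := hk₀ k hk
  simp only [zero_add, zero_sub] at e1 e2 e3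
  exact (m5_tri e3 e1 e2).trans (by linarith)

theorem move_val {γ : Option κ → ℝ} (hγ : ∀ j, 0 < γ j) (Δ₁ : ℝ) {e : ℝ} (he : 0 < e) :
    ∃ k₀ : ℕ, ∀ k ≥ k₀, ∀ R : ℝ, ∃ δ₀ : ℝ, 0 < δ₀ ∧ ∀ (δ : ℝ) (S : ℕ → BS κ J)
      (ϑ c : ℕ → PI κ J k → ℝ) (q : ℕ → ℕ → ℝ) (l : ℕ → Option κ → ℝ), TS k γ R δ S ϑ c q →
      (∀ N, Close (ϑ N) (l N) δ₀) → (∀ N, Gaps (l N) 0 Δ₁) → ∀ᶠ N in atTop, ∀ i : (S N).ρ,
        |(S N).f k (ϑ N) - ((S N).move i).f k (ϑ N) -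
          Move k (l N none - l N ((S N).part i)) (q N)| ≤ e := by
  obtain ⟨k₀, hk₀⟩ := cav1 (J := J) hγ Δ₁ (le_refl 1) he
  refine ⟨k₀, fun k hk R => ?_⟩
  obtain ⟨δ₀, hδ₀, h⟩ := hk₀ k hk R
  refine ⟨δ₀, hδ₀, fun δ S ϑ c q l hT hcl hgap => ?_⟩
  filter_upwards [h δ S ϑ c q l hT hcl hgap] with N hN i
  have e1 := hN i 0 0 (by simp) (Nat.zero_le _)
  have e2 := gf_test2 (k := k) (π := (S N).π) (E0 := (S N).E0 (ϑ N)) (Λ := (S N).Λ (ϑ N))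
    (𝔞 := (S N).A (ϑ N)) (S N).hc (g := fun y _ => gs 1 (y i))
    (fun _ => (measurable_gs 1).comp (measurable_pi_apply i)) (B := 1) (a := 0)
    (fun _ _ => abs_gs_le one_pos _) (by simp) (Nat.zero_le k)
  have e3 := tree_test (hT.tp.prof N) (m5_gap (hgap N) ((S N).part i)).1 (le_refl 1) (a := 0)
    (by simp) (Nat.zero_le k)
  change |(S N).fx k (ϑ N) bLv _ - (S N).f k (ϑ N) - _| ≤ _ at e2
  rw [abs_le] at e1 e2 e3 ⊢
  norm_num only [abs_zero, zero_mul, zero_pow, mul_zero, zero_div, sub_zero, add_zero, neg_zero]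
    at e1 e2 e3
  constructor <;> linarith [e1.1, e1.2, e2.1, e2.2, e3.1, e3.2]

theorem m5_gs (S : BS κ J) {k : ℕ} (ϑ : PI κ J k → ℝ) (i : S.ρ) {g₀ Lg : ℝ} (hg : 0 < g₀)
    (hL : 1 ≤ Lg) (h1 : g₀ * S.N ≤ S.nb (S.part i)) (h2 : 2 ≤ S.nb (S.part i)) {s : ℕ} (hs : s ≤ k) :
    |S.atl k ϑ s (fun y _ => gs Lg (y i)) - S.atl k ϑ s (fun y _ => y i)| ≤
      4 * √(6 / g₀ ^ 2) * √(1 / g₀) / Lg := by
  have hL0 : 0 < Lg := by linarith
  obtain ⟨b2, b4⟩ := m5_block uLv S ϑ i hg h1 h2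
  have hf : FOK (fun (y : S.ρ → ℝ) (_ : S.ς → Bool) => gs Lg (y i)) :=
    fok_y i (by unfold gs; fun_prop)
  have hf' : FOK (fun (y : S.ρ → ℝ) (_ : S.ς → Bool) => y i) := fok_y i continuous_id
  have hu : UT k (mLv S.ρ S.π uLv) (fun U x => gs Lg (yv U (x 0).2.1 i)) := hf.gok.ut
  refine (abs_gtl_sub_le S.hc gok_zero hf hf' (by omega)).trans ?_
  have e1 : gav k S.π uLv (S.E0 ϑ) (S.Λ ϑ) (S.A ϑ) (fun _ _ _ => 0)
      (fun U x => gs Lg (yv U (x 0).2.1 i) ^ 2) ≤ 1 / g₀ :=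
    (gav_mono S.hc gok_zero (hu.pow 2) ((ut_y i).pow 2) fun U x =>
      sq_le_sq.2 (abs_gs_le_abs hL0 _)).trans b2
  have e2 : gav k S.π uLv (S.E0 ϑ) (S.Λ ϑ) (S.A ϑ) (fun _ _ _ => 0)
      (fun U x => (gs Lg (yv U (x 0).2.1 i) - yv U (x 0).2.1 i) ^ 2) ≤ 6 / g₀ ^ 2 / Lg ^ 2 := by
    refine (gav_mono S.hc gok_zero ((hu.sub (ut_y i)).pow 2)
      (((ut_y i).pow 4).const_mul (1 / Lg ^ 2)) fun U x => ?_).trans ?_
    · refine (sq_le_sq.2 ((abs_gs_sub_le hL0 _).trans (le_abs_self _))).trans (le_of_eq ?_)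
      ring
    · rw [gav_const_mul]
      refine (mul_le_mul_of_nonneg_left b4 (by positivity)).trans (le_of_eq ?_)
      ring
  have e3 := Real.sqrt_le_sqrt e2
  rw [Real.sqrt_div' _ (sq_nonneg Lg), Real.sqrt_sq hL0.le] at e3
  calc _ ≤ 2 * (√(6 / g₀ ^ 2) / Lg) * (√(1 / g₀) + √(1 / g₀)) := by gcongr
    _ = _ := by ring

theorem ward {γ : Option κ → ℝ} (hγ : ∀ j, 0 < γ j) (Δ₁ : ℝ) {e : ℝ} (he : 0 < e) :
    ∃ k₀ : ℕ, ∀ k ≥ k₀, ∀ R : ℝ, ∃ δ₀ : ℝ, 0 < δ₀ ∧ ∀ (δ : ℝ) (S : ℕ → BS κ J)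
      (ϑ c : ℕ → PI κ J k → ℝ) (q : ℕ → ℕ → ℝ) (l : ℕ → Option κ → ℝ), TS k γ R δ S ϑ c q →
      (∀ N, Close (ϑ N) (l N) δ₀) → (∀ N, Gaps (l N) 0 Δ₁) → ∀ᶠ N in atTop, ∀ j, ∀ s ≤ k,
        |sl (ϑ N) (c N) j s - γ j * ptail k (tq k (l N none - l N j) (q N)) s| ≤ e := by
  obtain ⟨g₀, hg, hfat⟩ := m5_fat (J := J) hγ
  obtain ⟨j₁, hj₁⟩ := Finite.exists_max γ
  have hΓ := hγ j₁
  obtain ⟨e', he', hee⟩ : ∃ e' : ℝ, 0 < e' ∧ γ j₁ * (4 * e') ≤ e / 2 :=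
    ⟨e / 2 / (4 * γ j₁), by positivity, le_of_eq (by field_simp)⟩
  obtain ⟨Lg, hL, hL1, hL2⟩ : ∃ Lg : ℝ, 1 ≤ Lg ∧ 4 * √(6 / g₀ ^ 2) * √(1 / g₀) / Lg ≤ e' ∧
      4 * (1 + 2 / γ none) ^ 2 / Lg ≤ e' / 2 := by
    have h : ∀ C e : ℝ, 0 < e → ∀ᶠ M : ℝ in atTop, C / M ≤ e := fun C e he =>
      (tendsto_const_nhds.div_atTop tendsto_id).eventually_le_const he
    exact ((eventually_ge_atTop 1).and ((h _ _ he').and (h _ _ (by positivity)))).exists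
  obtain ⟨a, ha0, ha, ha1⟩ : ∃ a : ℝ, 0 < a ∧ |a| * Lg ≤ 1 ∧
      200 * (|a| * Lg) ^ 3 ≤ a ^ 2 * (e' / 4) := by
    have h0 : 0 < min (1 / Lg) (e' / 4 / (200 * Lg ^ 3)) := by positivity
    have h1 := min_le_left (1 / Lg) (e' / 4 / (200 * Lg ^ 3))
    have h2 := min_le_right (1 / Lg) (e' / 4 / (200 * Lg ^ 3))
    generalize min (1 / Lg) (e' / 4 / (200 * Lg ^ 3)) = a at h0 h1 h2
    rw [le_div_iff₀ (by positivity)] at h1 h2
    refine ⟨a, h0, by rwa [abs_of_pos h0], ?_⟩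
    rw [abs_of_pos h0]
    nlinarith [mul_le_mul_of_nonneg_left h2 (sq_nonneg a)]
  have ha2 : 0 < a ^ 2 * (e' / 4) := by positivity
  obtain ⟨k₁, hk₁⟩ := cav1 (J := J) hγ Δ₁ hL ha2
  obtain ⟨k₂, hk₂⟩ := move_val (J := J) hγ Δ₁ ha2
  refine ⟨max k₁ k₂, fun k hk R => ?_⟩
  obtain ⟨δ₁, hδ₁, h₁⟩ := hk₁ k (le_of_max_le_left hk) R
  obtain ⟨δ₂, hδ₂, h₂⟩ := hk₂ k (le_of_max_le_right hk) R
  refine ⟨min δ₁ δ₂, lt_min hδ₁ hδ₂, fun δ S ϑ c q l hT hcl hgap => ?_⟩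
  obtain ⟨α, hα, hlo⟩ := hT.tp.lo
  filter_upwards [h₁ δ S ϑ c q l hT (fun N => ⟨fun j => ((hcl N).1 j).trans (min_le_left _ _),
      fun j s => ((hcl N).2 j s).trans (min_le_left _ _)⟩) hgap,
    h₂ δ S ϑ c q l hT (fun N => ⟨fun j => ((hcl N).1 j).trans (min_le_right _ _),
      fun j s => ((hcl N).2 j s).trans (min_le_right _ _)⟩) hgap, hfat hT.reg,
    sl_approx hγ hT.reg hT.touch hT.pos hT.tp.bϑ hα hlo (half_pos he)] with N h1 h2 h3 h4 j s hs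
  obtain ⟨i, hi⟩ := Finset.card_pos.1 (show 0 < (S N).nb j from lt_of_lt_of_le two_pos (h3 j).2)
  obtain rfl := (Finset.mem_filter.1 hi).2
  have e1 := h1 i a s ha hs
  have e2 := h2 i
  have e3 := gf_test2 (k := k) (π := (S N).π) (E0 := (S N).E0 (ϑ N)) (Λ := (S N).Λ (ϑ N))
    (𝔞 := (S N).A (ϑ N)) (S N).hc (g := fun y _ => gs Lg (y i))
    (fun _ => (measurable_gs Lg).comp (measurable_pi_apply i)) (B := Lg) (a := a)
    (fun _ _ => abs_gs_le (by linarith) _) ha hs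
  have e4 := tree_test (hT.tp.prof N) (m5_gap (hgap N) ((S N).part i)).1 hL ha hs
  have e5 := (m5_gs (S N) (ϑ N) i hg hL (h3 _).1 (h3 _).2 hs).trans hL1
  have e6 := h4 i s hs
  change |(S N).fx k (ϑ N) bLv _ - (S N).f k (ϑ N) - a ^ 2 / 2 * (S N).atl k (ϑ N) s _| ≤ _ at e3
  have e7 := mul_le_mul_of_nonneg_left hL2 (sq_nonneg a)
  generalize (S N).atl k (ϑ N) s (fun y _ => gs Lg (y i)) = u at e3 e5
  generalize (S N).atl k (ϑ N) s (fun y _ => y i) = v at e5 e6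
  generalize ptail k (tq k (l N none - l N ((S N).part i)) (q N)) s = w at e4 ⊢
  have e8 : |u - w| ≤ 3 * e' := by
    refine le_of_mul_le_mul_left ?_ (show 0 < a ^ 2 / 2 by positivity)
    rw [← abs_of_pos (show 0 < a ^ 2 / 2 by positivity), ← abs_mul,
      abs_of_pos (show 0 < a ^ 2 / 2 by positivity)]
    rw [abs_le] at e1 e2 e3 e4 ⊢
    constructor <;> linarith [e1.1, e1.2, e2.1, e2.2, e3.1, e3.2, e4.1, e4.2]
  have e9 : |v - w| ≤ 4 * e' := by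
    rw [abs_le] at e5 e8 ⊢
    constructor <;> linarith [e5.1, e5.2, e8.1, e8.2]
  have e10 : |γ ((S N).part i) * v - γ ((S N).part i) * w| ≤ e / 2 := by
    rw [← mul_sub, abs_mul, abs_of_pos (hγ _)]
    exact (mul_le_mul (hj₁ _) e9 (abs_nonneg _) hΓ.le).trans hee
  rw [abs_le] at e6 e10 ⊢
  constructor <;> linarith [e6.1, e6.2, e10.1, e10.2]

end Crest.Agent.R164
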