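import Crest.Agent.R164.M4
import Crest.Agent.R164.M5
import Crest.Agent.R164.M6
import Crest.Agent.R164.Tree

/-!
# Row 164: M7
**The value of the spin cavity.**  `spin_core`: `Δ j = l none - l j`, `d = dbar`, `G₀ = lam/2 + auxH (fld + a₁)`,
`O'` from `exists_near_frame`, `Q' = ∑ Δ yJ O'²`, `Q = ∑ Δ yJ O²`.
(1) truncate `Q'` (`gf_trunc` with `ψ = pdiff`, `|ψ| ≤ 8κp`; `E Q'² ≤ C` by `sum_sq_yJ`, `gav_y4`);
(2) `gf_tilt` w.r.t. `G₀` replaces `pdiff - chi Q'/2` by `-κp d ε + κp d m + κp d²/2 - chi Q/2` (`pdiff_approx`,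
`TS.mag_av` via `gav_aux`, `TS.abs_dbar_le`; `abs_chi_sub_le`, `|Q'-Q| ≤ 8 Δ₁ √τ (|y_E|²+1)`, `gav_y2`);
(3) now the extra term is `const + auxH (beff + a₁) c + T (y ∘ inr) c` with `T = -chi M Q/2` (`sm2_quad`):
`gf_add_const`, `cav0` with `d = κ`, `E = inr`; (4) untruncate (`trunc_cmp`, `tree_m4`);
(5) `IsDiagO.quad`, `X_add_const`, `tree_val`, `merge_val`.   Order: `e → M → τ, k₀`.
`spin_cav`: `spin_reduce` with `spin_core`, `spin_crude` (`Δ (some a) ≥ Δ₀`), `μ = 2δ₀`; `C₂` is bounded in terms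
of `k, R` (`abs_osT_le`, `abs_Move_le`, `sum_cvar_le`, `TS.abs_dbar_le`).
-/

set_option autoImplicit false
set_option linter.unusedSectionVars false

open MeasureTheory ProbabilityTheory Filter Topology
open scoped ENNReal BigOperators Matrix

noncomputable section

namespace Crest.Agent.R164

variable {κ J : Type} [Fintype κ] [DecidableEq κ] [Fintype J] [DecidableEq J]

variable {γ l : Option κ → ℝ} {O : Orth (Option κ) (Option κ)} {α β : κ → ℝ} {γ' m : J → ℝ} {κp : ℝ}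

theorem heff_nonneg {k : ℕ} (hsp : IsSp γ l) (hO : IsDiagO γ l O α β) (ϑ : PI κ J k → ℝ) {Q : ℝ}
    {q : ℕ → ℝ} (hq : IsProf k Q q) (r : ℕ) : 0 ≤ heff ϑ α β q r :=
  add_nonneg (sq_nonneg _) (cvar_nonneg (IsDiagO.nonneg hsp hO) hq r)

theorem m7_gap (hsp : IsSp γ l) (j : Option κ) :
    0 ≤ l none - l j ∧ l none - l j ≤ ∑ j, (l none - l j) := by
  have h0 : ∀ j, 0 ≤ l none - l j := fun j => by
    cases j with
    | none => simp
    | some a => exact sub_nonneg.2 (hsp.2.2 a).le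
  exact ⟨h0 j, Finset.single_le_sum (f := fun j => l none - l j) (fun j _ => h0 j)
    (Finset.mem_univ j)⟩

theorem m7_Q_nonneg {ρ₀ : Type} {Δ : Option κ → ℝ} {Δ₁ : ℝ} (hΔ : ∀ j, 0 ≤ Δ j ∧ Δ j ≤ Δ₁)
    (O : Orth (Option κ) (Option κ)) (y : ρ₀ ⊕ κ → ℝ) (ε : Bool) :
    0 ≤ ∑ j, Δ j * yJ O y ε j ^ 2 :=
  Finset.sum_nonneg fun j _ => mul_nonneg (hΔ j).1 (sq_nonneg _)

theorem m7_Q_sq_le {ρ₀ : Type} {Δ : Option κ → ℝ} {Δ₁ : ℝ} (hΔ : ∀ j, 0 ≤ Δ j ∧ Δ j ≤ Δ₁)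
    (O : Orth (Option κ) (Option κ)) (y : ρ₀ ⊕ κ → ℝ) (ε : Bool) :
    (∑ j, Δ j * yJ O y ε j ^ 2) ^ 2 ≤
      2 * Δ₁ ^ 2 * Fintype.card κ * ∑ a, y (Sum.inr a) ^ 4 + 2 * Δ₁ ^ 2 := by
  have h1 : ∑ j, Δ j * yJ O y ε j ^ 2 ≤ Δ₁ * (∑ a, y (Sum.inr a) ^ 2 + 1) := by
    rw [← sum_sq_yJ O y ε, Finset.mul_sum]
    exact Finset.sum_le_sum fun j _ => mul_le_mul_of_nonneg_right (hΔ j).2 (sq_nonneg _)
  have h2 := pow_le_pow_left₀ (m7_Q_nonneg hΔ O y ε) h1 2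
  have h3 := sq_sum_le_card_mul_sum_sq (s := (Finset.univ : Finset κ))
    (f := fun a => y (Sum.inr a) ^ 2)
  simp only [← pow_mul, Finset.card_univ] at h3
  refine h2.trans ?_
  rw [mul_pow]
  have h4 : (∑ a, y (Sum.inr a) ^ 2 + 1) ^ 2 ≤
      2 * (Fintype.card κ * ∑ a, y (Sum.inr a) ^ 4) + 2 := by
    nlinarith [sq_nonneg (∑ a, y (Sum.inr a) ^ 2 - 1)]
  nlinarith [mul_le_mul_of_nonneg_left h4 (sq_nonneg Δ₁)]

theorem m7_yJ_eq {ρ₀ : Type} (O : Orth (Option κ) (Option κ)) (y : ρ₀ ⊕ κ → ℝ) (ε : Bool)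
    (j : Option κ) :
    yJ O y ε j = (O.m *ᵥ fun o => o.elim (sgn ε) fun a => y (Sum.inr a)) j := by
  simp only [yJ, Matrix.mulVec, dotProduct, Fintype.sum_option, Option.elim, Orth.m, Matrix.of_apply]
  ring

theorem m7_Q_sub_le {ρ₀ : Type} {Δ : Option κ → ℝ} {Δ₁ : ℝ} (hΔ : ∀ j, 0 ≤ Δ j ∧ Δ j ≤ Δ₁)
    (O O' : Orth (Option κ) (Option κ)) {η : ℝ} (hη : 0 < η)
    (h : ∀ v : Option κ → ℝ, ∑ j, ((O'.m *ᵥ v) j - (O.m *ᵥ v) j) ^ 2 ≤ 16 * η ^ 2 * ∑ j, v j ^ 2)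
    (y : ρ₀ ⊕ κ → ℝ) (ε : Bool) :
    |∑ j, Δ j * yJ O' y ε j ^ 2 - ∑ j, Δ j * yJ O y ε j ^ 2| ≤
      10 * Δ₁ * η * (∑ a, y (Sum.inr a) ^ 2 + 1) := by
  have hΔ1 : 0 ≤ Δ₁ := (hΔ none).1.trans (hΔ none).2
  have h1 := h fun o => o.elim (sgn ε) fun a => y (Sum.inr a)
  simp only [← m7_yJ_eq] at h1
  rw [Fintype.sum_option (f := fun o : Option κ => (o.elim (sgn ε) fun a => y (Sum.inr a)) ^ 2)] at h1
  simp only [Option.elim, sgn_sq] at h1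
  have h2 := sum_sq_yJ O y ε
  have h3 := sum_sq_yJ O' y ε
  rw [← Finset.sum_sub_distrib]
  have h4 : ∀ j, |Δ j * yJ O' y ε j ^ 2 - Δ j * yJ O y ε j ^ 2| ≤
      Δ₁ * ((yJ O' y ε j - yJ O y ε j) ^ 2 / (2 * η) +
        η * (yJ O' y ε j ^ 2 + yJ O y ε j ^ 2)) := fun j => by
    rw [← mul_sub, abs_mul, abs_of_nonneg (hΔ j).1]
    refine mul_le_mul (hΔ j).2 ?_ (abs_nonneg _) hΔ1
    set u := yJ O' y ε j
    set v := yJ O y ε j
    have e : (u - v) ^ 2 / (2 * η) + η * (u ^ 2 + v ^ 2) =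
        ((u - v) ^ 2 + 2 * η ^ 2 * (u ^ 2 + v ^ 2)) / (2 * η) := by field_simp
    rw [e, le_div_iff₀ (by positivity), ← abs_of_pos (show 0 < 2 * η by positivity), ← abs_mul,
      abs_le]
    constructor
    · nlinarith [sq_nonneg ((u - v) + η * (u + v)), mul_nonneg (sq_nonneg η) (sq_nonneg (u - v))]
    · nlinarith [sq_nonneg ((u - v) - η * (u + v)), mul_nonneg (sq_nonneg η) (sq_nonneg (u - v))]
  refine (Finset.abs_sum_le_sum_abs _ _).trans ((Finset.sum_le_sum fun j _ => h4 j).trans ?_)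
  rw [← Finset.mul_sum, Finset.sum_add_distrib, ← Finset.sum_div, ← Finset.mul_sum,
    Finset.sum_add_distrib, h2, h3]
  have h5 : (∑ j, (yJ O' y ε j - yJ O y ε j) ^ 2) / (2 * η) ≤
      8 * η * (∑ a, y (Sum.inr a) ^ 2 + 1) := by
    rw [div_le_iff₀ (by positivity)]
    nlinarith
  nlinarith [mul_le_mul_of_nonneg_left h5 hΔ1]

theorem m7_meas_eps : Measurable fun c : ℕ → (ℝ × Bool) × Bool => (c 0).1.2 := by fun_prop

theorem m7_bdd_eps : Bdd (fun c : ℕ → (ℝ × Bool) × Bool => sgn (c 0).1.2) 1 :=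
  ⟨(measurable_of_countable sgn).comp m7_meas_eps, fun _ => (abs_sgn _).le⟩

theorem m7_loc_eps {δ : Type} (k : ℕ) (φ : Bool → δ) :
    Loc (k + 1) fun c : ℕ → (ℝ × Bool) × Bool => φ (c 0).1.2 := fun c c' h => by
  simp only [h 0 (Nat.succ_pos k)]

/-- steps (4), (5) -/
theorem spin_tree (hsp : IsSp γ l) (hO : IsDiagO γ l O α β) (Q : ℝ) : ∃ C : ℝ,
    ∀ (k : ℕ) (q h : ℕ → ℝ) (b a₂ M : ℝ) (s : ℕ), IsProf k Q q → (∀ r, 0 ≤ h r) → 0 < M → s ≤ k →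
      |val (uz k) ((gLv κ).prod (osL.prod bLv)) (k + 1) (fun x => auxH k b h a₂ s (fun r => (x r).2) +
          -(chi M (∑ j, (l none - l j) * (∑ a, O.1 j (some a) * tree k q x a +
            O.1 j none * sgn (x 0).2.1.2) ^ 2) / 2)) -
        (-(∑ j, γ j * (l none - l j)) / 2 + ∑ a, Move k (α a) q +
          osT k b (fun r => h r + cvar k α β q r) a₂ s)| ≤ C / M := by
  set Δ₁ := ∑ j, (l none - l j) with hΔ₁
  refine ⟨(2 * Δ₁ ^ 2 * Fintype.card κ * (Fintype.card κ * (3 * Q ^ 2)) + 2 * Δ₁ ^ 2) / 2,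
    fun k q h b a₂ M s hq hh hM hs => ?_⟩
  have hζ := isSch_uz k
  have hΔ := m7_gap hsp
  set L := (gLv κ).prod (osL.prod bLv) with hL
  have hHa := lin_auxH k b h a₂ s
  have hH : Lin L (k + 1) fun x => auxH k b h a₂ s fun r => (x r).2 := hHa.snd
  have hε : Lin L (k + 1) fun x => sgn (x 0).2.1.2 := (m7_bdd_eps.lin (L := osL.prod bLv)).snd
  set Qx : (ℕ → (κ → ℝ) × (ℝ × Bool) × Bool) → ℝ := fun x => ∑ j, (l none - l j) *
    (∑ a, O.1 j (some a) * tree k q x a + O.1 j none * sgn (x 0).2.1.2) ^ 2 with hQx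
  have hF : ∀ j, Lin L (k + 1) fun x =>
      ∑ a, O.1 j (some a) * tree k q x a + O.1 j none * sgn (x 0).2.1.2 := fun j =>
    (Lin.sum _ fun a _ => (lin_tree _ k q a).const_mul _).add (hε.const_mul _)
  have hQ : Ham L (k + 1) fun x => -Qx x := by
    simp only [hQx, ← Finset.sum_neg_distrib]
    exact Ham.sum _ fun j _ => (hF j).ham_neg_sq (hΔ j).1
  have hQy : ∀ x, Qx x = ∑ j, (l none - l j) *
      yJ O (Sum.elim (Empty.elim) (tree k q x)) (x 0).2.1.2 j ^ 2 := fun x => rfl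
  have h1 := trunc_cmp (ψ := fun _ => 0) (B := 0) hζ (hH.good hζ (k + 1)) hQ
    (fun x => m7_Q_nonneg hΔ O (Sum.elim (Empty.elim) (tree k q x)) _)
    ⟨measurable_const, fun _ => by simp⟩ hM (x0 L)
  have h2 : Ex (uz k) L (fun x => auxH k b h a₂ s fun r => (x r).2) (k + 1) (fun x => Qx x ^ 2)
      (x0 L) ≤ 2 * Δ₁ ^ 2 * Fintype.card κ * (Fintype.card κ * (3 * Q ^ 2)) + 2 * Δ₁ ^ 2 := by
    have t4 : ∀ a ∈ Finset.univ, Tame L (k + 1) fun x => tree k q x a ^ 4 := fun a _ =>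
      (lin_tree _ k q a).tame.pow 4
    have tQ : Tame L (k + 1) Qx := by simpa only [neg_neg] using hQ.tame.neg
    refine (sy_mono hζ hH (tQ.pow 2) (((Tame.sum _ t4).const_mul
      (2 * Δ₁ ^ 2 * Fintype.card κ)).add (tame_const (2 * Δ₁ ^ 2)))
      (fun x => m7_Q_sq_le hΔ O (Sum.elim (Empty.elim) (tree k q x)) _) _ _).trans ?_
    rw [sy_add hζ hH ((Tame.sum _ t4).const_mul _) (tame_const _), sy_cmul, sy_sum hζ hH _ t4,
      Ex_const hζ hH.ham]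
    refine add_le_add (mul_le_mul_of_nonneg_left ?_ (by positivity)) le_rfl
    refine (Finset.sum_le_sum fun a _ => tree_m4 hHa hq a).trans (le_of_eq ?_)
    simp
  have hα := IsDiagO.nonneg hsp hO
  have h3 := tree_val (β := β) hHa (loc_auxH b h a₂ hs) m7_bdd_eps (m7_loc_eps k sgn) hq hα
  have h4 := merge_val (k := k) hh b a₂ s hs fun r a => β a * √(tinc k (α a) q r)
  have e4 : (fun r => h r + ∑ a, (β a * √(tinc k (α a) q r)) ^ 2) =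
      fun r => h r + cvar k α β q r := by
    funext r
    simp only [cvar, mul_pow, Real.sq_sqrt (hq.tinc_nonneg (hα _) r)]
  rw [e4] at h4
  have hP : Ham L (k + 1) fun x => auxH k b h a₂ s (fun r => (x r).2) -
      (∑ a, α a * tree k q x a ^ 2) / 2 - sgn (x 0).2.1.2 * ∑ a, β a * tree k q x a := by
    have a1 : Ham L (k + 1) fun x => ∑ a, -(α a / 2 * tree k q x a ^ 2) :=
      Ham.sum _ fun a _ => (lin_tree _ k q a).ham_neg_sq (div_nonneg (hα a) zero_le_two)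
    have a2 : Lin L (k + 1) fun x => -((∑ a, β a * tree k q x a) * sgn (x 0).2.1.2) :=
      ((Lin.sum _ fun a _ => (lin_tree _ k q a).const_mul _).mul_bdd (B := 1)
        ⟨hε.measurable, fun _ => (abs_sgn _).le⟩).neg
    convert (hH.ham.add a1).add_lin a2 using 2 with x
    rw [Finset.sum_neg_distrib, Finset.sum_div]
    simp only [div_mul_eq_mul_div]
    ring
  have h5 := X_add_const hζ hP (-(∑ j, γ j * (l none - l j)) / 2) (k + 1) (x0 L)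
  have e5 : (fun x : ℕ → (κ → ℝ) × (ℝ × Bool) × Bool =>
      (auxH k b h a₂ s fun r => (x r).2) - Qx x / 2 + 0) = fun x =>
      auxH k b h a₂ s (fun r => (x r).2) - (∑ a, α a * tree k q x a ^ 2) / 2 -
        sgn (x 0).2.1.2 * ∑ a, β a * tree k q x a + -(∑ j, γ j * (l none - l j)) / 2 := by
    funext x
    simp only [hQx]
    rw [IsDiagO.quad hsp hO _ (sgn_sq _)]
    ring
  rw [e5, h5] at h1
  have e6 : X (uz k) L (fun x => auxH k b h a₂ s (fun r => (x r).2) -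
      (∑ a, α a * tree k q x a ^ 2) / 2 - sgn (x 0).2.1.2 * ∑ a, β a * tree k q x a) (k + 1) (x0 L) =
      ∑ a, Move k (α a) q + osT k b (fun r => h r + cvar k α β q r) a₂ s := by
    rw [← h4]; exact h3
  rw [e6] at h1
  simp only [mul_zero, Real.exp_zero, one_mul, add_zero] at h1
  rw [div_div]
  refine le_trans (le_of_eq ?_) (h1.trans (div_le_div_of_nonneg_right h2 (by positivity)))
  congr 1
  unfold val
  simp only [sub_eq_add_neg, hQx]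
  ring

theorem m7_gok_chi {ρ ς A : Type} [Fintype ρ] [DecidableEq ρ] [Fintype ς] [DecidableEq ς]
    [MeasurableSpace A] {k : ℕ} {La : Lv A} {Q : (ρ → ℝ) → (ς → Bool) → (ℕ → A) → ℝ}
    (hQ : GOK k La Q) (h0 : ∀ y σ c, 0 ≤ Q y σ c) {M : ℝ} (hM : 0 < M) :
    GOK k La fun y σ c => chi M (Q y σ c) := by
  refine gok_of_bdd (C := M) (fun σ => ?_) (fun y σ c c' h => ?_) fun y σ c _ => ?_
  · unfold chi
    exact ((hQ.1 σ).const_mul M).div ((hQ.1 σ).const_add M)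
  · simp only [hQ.2.1 y σ c c' h]
  · rw [abs_of_nonneg (chi_nonneg hM (h0 y σ c))]
    exact chi_le hM (h0 y σ c)

theorem m7_gok_eps {ρ ς : Type} [Fintype ρ] [DecidableEq ρ] [Fintype ς] [DecidableEq ς] (k : ℕ)
    (φ : (ς → Bool) → Bool → ℝ) :
    GOK k (osL.prod bLv) fun (_ : ρ → ℝ) (σ : ς → Bool) c => φ σ (c 0).1.2 :=
  gok_aux (Ha := fun σ (c : ℕ → (ℝ × Bool) × Bool) => φ σ (c 0).1.2)
    (fun σ => Bdd.lin (B := |φ σ true| + |φ σ false|)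
      ⟨(measurable_of_countable (φ σ)).comp m7_meas_eps, fun c : ℕ → (ℝ × Bool) × Bool => by
        have h1 := abs_nonneg (φ σ true)
        have h2 := abs_nonneg (φ σ false)
        rcases Bool.eq_false_or_eq_true (c 0).1.2 with h | h <;> simp only [h] <;> linarith⟩)
    fun σ => m7_loc_eps k (φ σ)

theorem m7_gok_Q (k : ℕ) (D : SD κ J) (Δ : Option κ → ℝ) (O : Orth (Option κ) (Option κ)) :
    GOK k (osL.prod bLv) fun (y : D.ρ₀ ⊕ κ → ℝ) (_ : D.ς → Bool) c =>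
      ∑ j, Δ j * yJ O y (c 0).1.2 j ^ 2 :=
  GOK.sum _ fun j _ => (gok_yJ D O j).const_mul (Δ j)

theorem m7_steps {k : ℕ} (D : SD κ J) {π : Measure (D.ς → Bool)} [IsProbabilityMeasure π]
    {E0 : (D.ς → Bool) → ℝ} {Λ : D.ρ₀ ⊕ κ → ℝ} {𝔞 : D.ρ₀ ⊕ κ → ℕ → ℝ}
    {Ha : (ℕ → (ℝ × Bool) × Bool) → ℝ} (hH : Lin (osL.prod bLv) (k + 1) Ha) (hl : Loc (k + 1) Ha)
    (hκ : 0 ≤ κp) (hm : ∀ a, |m a| ≤ 1) {Δ : Option κ → ℝ} {Δ₁ : ℝ}
    (hΔ : ∀ j, 0 ≤ Δ j ∧ Δ j ≤ Δ₁) (O O' : Orth (Option κ) (Option κ)) {η M d Y2 Y4 e₁ : ℝ}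
    (hη : 0 < η) (hM : 0 < M) (hd : |d| ≤ 3)
    (hO : ∀ v : Option κ → ℝ, ∑ j, ((O'.m *ᵥ v) j - (O.m *ᵥ v) j) ^ 2 ≤ 16 * η ^ 2 * ∑ j, v j ^ 2)
    (hn : 0 < (Finset.univ.filter fun r => D.grp r = D.g0).card)
    (h2 : ∀ a, gav k π (osL.prod bLv) E0 Λ 𝔞 (fun _ _ c => Ha c)
      (fun U x => yv U (x 0).2.1 (Sum.inr a) ^ 2) ≤ Y2)
    (h4 : ∀ a, gav k π (osL.prod bLv) E0 Λ 𝔞 (fun _ _ c => Ha c)
      (fun U x => yv U (x 0).2.1 (Sum.inr a) ^ 4) ≤ Y4)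
    (hmag : gav k π (osL.prod bLv) E0 Λ 𝔞 (fun _ _ c => Ha c) (fun _ x =>
      |(∑ r ∈ Finset.univ.filter (fun r => D.grp r = D.g0), spin (x 0).2.1 r) /
        (Finset.univ.filter fun r => D.grp r = D.g0).card - m D.g0 - d|) ≤ e₁) :
    |gf k π (osL.prod bLv) E0 Λ 𝔞 (fun y σ c => Ha c + pdiff D.grp κp m D.g0 σ (c 0).1.2 -
        (∑ j, Δ j * yJ O' y (c 0).1.2 j ^ 2) / 2) -
      gf k π (osL.prod bLv) E0 Λ 𝔞 (fun y _ c => Ha c +
        ((-(κp * d) * sgn (c 0).1.2 + κp * d * m D.g0 + κp * d ^ 2 / 2) -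
          chi M (∑ j, Δ j * yJ O y (c 0).1.2 j ^ 2) / 2))| ≤
      Real.exp (2 * (8 * κp)) *
          (2 * Δ₁ ^ 2 * Fintype.card κ * (Fintype.card κ * Y4) + 2 * Δ₁ ^ 2) / (2 * M) +
        Real.exp (2 * (11 * κp + M / 2)) * (κp * 5 * e₁ +
          κp * (8 / (Finset.univ.filter fun r => D.grp r = D.g0).card) +
            5 * Δ₁ * η * (Fintype.card κ * Y2 + 1)) := by
  have hc := D.hc
  have hG : GOK k (osL.prod bLv) fun (_ : D.ρ₀ ⊕ κ → ℝ) (_ : D.ς → Bool) c => Ha c :=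
    gok_aux (Ha := fun _ c => Ha c) (fun _ => hH) fun _ => hl
  have hQ := m7_gok_Q k D Δ O
  have hQ' := m7_gok_Q k D Δ O'
  have hP := m7_gok_eps (ρ := D.ρ₀ ⊕ κ) k fun σ ε => pdiff D.grp κp m D.g0 σ ε
  have hA := m7_gok_eps (ρ := D.ρ₀ ⊕ κ) (ς := D.ς) k fun _ ε =>
    -(κp * d) * sgn ε + κp * d * m D.g0 + κp * d ^ 2 / 2
  have hΔ1 : 0 ≤ Δ₁ := (hΔ none).1.trans (hΔ none).2
  have lin : ∀ (p : ℕ) (A B Y : ℝ), 0 ≤ A → (∀ a, gav k π (osL.prod bLv) E0 Λ 𝔞 (fun _ _ c => Ha c)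
      (fun U x => yv U (x 0).2.1 (Sum.inr a) ^ p) ≤ Y) →
      gav k π (osL.prod bLv) E0 Λ 𝔞 (fun _ _ c => Ha c)
        (fun U x => A * ∑ a, yv U (x 0).2.1 (Sum.inr a) ^ p + B) ≤ A * (Fintype.card κ * Y) + B := by
    intro p A B Y hA hY
    rw [gav_add hc hG ((UT.sum _ fun a _ => (ut_y _).pow p).const_mul A) (ut_const B),
      gav_const_mul, gav_sum hc hG _ fun a _ => (ut_y _).pow p, gav_const hc hG]
    refine add_le_add (mul_le_mul_of_nonneg_left ?_ hA) le_rfl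
    refine (Finset.sum_le_sum fun a _ => hY a).trans (le_of_eq ?_)
    simp
  have t1 := gf_trunc (π := π) (E0 := E0) (Λ := Λ) (𝔞 := 𝔞) hc hG hQ'
    (fun y _ c => m7_Q_nonneg hΔ O' y _) hP (fun _ σ c => abs_pdiff_le D.grp hκ hm D.g0 σ _) hM
  have b1 : gav k π (osL.prod bLv) E0 Λ 𝔞 (fun _ _ c => Ha c) (fun U x =>
      obs (fun (y : D.ρ₀ ⊕ κ → ℝ) (_ : D.ς → Bool) (c : ℕ → (ℝ × Bool) × Bool) =>
        ∑ j, Δ j * yJ O' y (c 0).1.2 j ^ 2) U x ^ 2) ≤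
      2 * Δ₁ ^ 2 * Fintype.card κ * (Fintype.card κ * Y4) + 2 * Δ₁ ^ 2 :=
    (gav_mono hc hG (hQ'.ut.pow 2) (((UT.sum _ fun a _ => (ut_y _).pow 4).const_mul _).add
      (ut_const _)) fun U x => m7_Q_sq_le hΔ O' _ _).trans
      (lin 4 _ _ Y4 (by positivity) h4)
  have hψ := hP.sub ((m7_gok_chi hQ' (fun y _ c => m7_Q_nonneg hΔ O' y _) hM).div_const 2)
  have hψ' := hA.sub ((m7_gok_chi hQ (fun y _ c => m7_Q_nonneg hΔ O y _) hM).div_const 2)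
  have hd' := abs_le.1 hd
  have t2 := gf_tilt (π := π) (E0 := E0) (Λ := Λ) (𝔞 := 𝔞) (B := 11 * κp + M / 2) hc hG hψ hψ'
    (fun y σ c => by
      have a1 := abs_le.1 (abs_pdiff_le D.grp hκ hm D.g0 σ (c 0).1.2)
      have a2 := chi_nonneg hM (m7_Q_nonneg hΔ O' y (c 0).1.2)
      have a3 := chi_le hM (m7_Q_nonneg hΔ O' y (c 0).1.2)
      rw [abs_le]; constructor <;> linarith [a1.1, a1.2])
    (fun y σ c => by
      have a2 := chi_nonneg hM (m7_Q_nonneg hΔ O y (c 0).1.2)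
      have a3 := chi_le hM (m7_Q_nonneg hΔ O y (c 0).1.2)
      have a4 : |d * sgn (c 0).1.2| ≤ 3 := by rw [abs_mul, abs_sgn, mul_one]; exact hd
      have a5 : |d * m D.g0| ≤ 3 := by
        rw [abs_mul]; nlinarith [hm D.g0, abs_nonneg d, abs_nonneg (m D.g0)]
      have a6 : d ^ 2 ≤ 9 := by nlinarith
      have a7 := mul_le_mul_of_nonneg_left (abs_le.1 a4).1 hκ
      have a8 := mul_le_mul_of_nonneg_left (abs_le.1 a4).2 hκ
      have a9 := mul_le_mul_of_nonneg_left (abs_le.1 a5).1 hκ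
      have a10 := mul_le_mul_of_nonneg_left (abs_le.1 a5).2 hκ
      have a11 := mul_le_mul_of_nonneg_left a6 hκ
      have a12 := mul_nonneg hκ (sq_nonneg d)
      rw [abs_le]; constructor <;> nlinarith)
  have uM : UT k (mLv (D.ρ₀ ⊕ κ) π (osL.prod bLv)) fun (_ : Orth (D.ρ₀ ⊕ κ) D.ς) x =>
      |(∑ r ∈ Finset.univ.filter (fun r => D.grp r = D.g0), spin (x 0).2.1 r) /
        (Finset.univ.filter fun r => D.grp r = D.g0).card - m D.g0 - d| :=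
    (fok_spin fun σ => |(∑ r ∈ Finset.univ.filter (fun r => D.grp r = D.g0), spin σ r) /
      (Finset.univ.filter fun r => D.grp r = D.g0).card - m D.g0 - d|).gok.ut
  have uY : UT k (mLv (D.ρ₀ ⊕ κ) π (osL.prod bLv)) fun (U : Orth (D.ρ₀ ⊕ κ) D.ς) x =>
      5 * Δ₁ * η * ∑ a, yv U (x 0).2.1 (Sum.inr a) ^ 2 +
        (κp * (8 / (Finset.univ.filter fun r => D.grp r = D.g0).card) + 5 * Δ₁ * η) :=
    ((UT.sum _ fun a _ => (ut_y _).pow 2).const_mul _).add (ut_const _)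
  have b2 := gav_mono (π := π) (E0 := E0) (Λ := Λ) (𝔞 := 𝔞) hc hG (hψ.ut.sub hψ'.ut).abs
    ((uM.const_mul (κp * 5)).add uY) fun U x => by
      have a1 := pdiff_approx D.grp hκ hm D.g0 (x 0).2.1 (x 0).2.2.1.2 hd hn
      have a2 := abs_chi_sub_le hM (m7_Q_nonneg hΔ O' (yv U (x 0).2.1) (x 0).2.2.1.2)
        (m7_Q_nonneg hΔ O (yv U (x 0).2.1) (x 0).2.2.1.2)
      have a3 := m7_Q_sub_le hΔ O O' hη hO (yv U (x 0).2.1) (x 0).2.2.1.2
      have a4 := abs_le.1 a1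
      have a5 := abs_le.1 (a2.trans a3)
      simp only [obs]
      rw [abs_le]
      constructor <;> linarith [a4.1, a4.2, a5.1, a5.2]
  rw [gav_add hc hG (uM.const_mul _) uY, gav_const_mul] at b2
  have b3 := lin 2 (5 * Δ₁ * η)
    (κp * (8 / (Finset.univ.filter fun r => D.grp r = D.g0).card) + 5 * Δ₁ * η) Y2 (by positivity) h2
  have b4 := mul_le_mul_of_nonneg_left hmag (show 0 ≤ κp * 5 by positivity)
  have e1 : (fun (y : D.ρ₀ ⊕ κ → ℝ) (σ : D.ς → Bool) (c : ℕ → (ℝ × Bool) × Bool) =>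
      Ha c - (∑ j, Δ j * yJ O' y (c 0).1.2 j ^ 2) / 2 + pdiff D.grp κp m D.g0 σ (c 0).1.2) =
      fun y σ c => Ha c + pdiff D.grp κp m D.g0 σ (c 0).1.2 -
        (∑ j, Δ j * yJ O' y (c 0).1.2 j ^ 2) / 2 := by funext y σ c; ring
  have e2 : (fun (y : D.ρ₀ ⊕ κ → ℝ) (σ : D.ς → Bool) (c : ℕ → (ℝ × Bool) × Bool) =>
      Ha c - chi M (∑ j, Δ j * yJ O' y (c 0).1.2 j ^ 2) / 2 + pdiff D.grp κp m D.g0 σ (c 0).1.2) =
      fun y σ c => Ha c + (pdiff D.grp κp m D.g0 σ (c 0).1.2 -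
        chi M (∑ j, Δ j * yJ O' y (c 0).1.2 j ^ 2) / 2) := by funext y σ c; ring
  rw [e1, e2, abs_sub_comm] at t1
  refine (abs_sub_le _ _ _).trans (add_le_add (t1.trans ?_) (t2.trans ?_))
  · gcongr
  · refine mul_le_mul_of_nonneg_left (b2.trans ?_) (Real.exp_pos _).le
    linarith

theorem m7_core1 {k : ℕ} (hsp : IsSp γ l) (hm : ∀ a, |m a| ≤ 1) (hκ : 0 ≤ κp) (D : SD κ J)
    (ϑ c : PI κ J k → ℝ) (O' : Orth (Option κ) (Option κ)) {η M g₀ : ℝ} (hη : 0 < η) (hM : 0 < M)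
    (hg : 0 < g₀) (hd : |dbar c γ' m D.g0| ≤ 3)
    (hO : ∀ v : Option κ → ℝ, ∑ j, ((O'.m *ᵥ v) j - (O.m *ᵥ v) j) ^ 2 ≤ 16 * η ^ 2 * ∑ j, v j ^ 2)
    (hn : 8 / η ≤ (D.B κp m).ng D.g0)
    (hfat : g₀ * (D.B κp m).N ≤ (D.B κp m).nb none ∧ 2 ≤ (D.B κp m).nb none)
    (hmag : (D.B κp m).av k ϑ (fun _ x => |(∑ r ∈ Finset.univ.filter
      (fun r => (D.B κp m).grp r = D.g0), spin (x 0).2.1 r) / (D.B κp m).ng D.g0 - m D.g0 -
        dbar c γ' m D.g0|) ≤ η) (a₁ a₂ : ℝ) {s : ℕ} (hs : s ≤ k) :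
    |(D.B κp m).fx k ϑ (osL.prod bLv) (D.G κp m ϑ (fun j => l none - l j) O' a₁ a₂ s) -
      ((D.B κp m).fx k ϑ (osL.prod bLv) (fun y _ x =>
        auxH k (beff ϑ c κp γ' m D.g0 + a₁) (fun r => amp ϑ none r ^ 2) a₂ s x +
          -(chi M (∑ j, (l none - l j) * (∑ a, O.1 j (some a) * y (Sum.inr a) +
            O.1 j none * sgn (x 0).1.2) ^ 2) / 2)) +
        (lam ϑ none / 2 + κp * dbar c γ' m D.g0 * m D.g0 + κp * dbar c γ' m D.g0 ^ 2 / 2))| ≤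
      Real.exp (2 * (8 * κp)) * (2 * (∑ j, (l none - l j)) ^ 2 * Fintype.card κ *
          (Fintype.card κ * (6 / g₀ ^ 2)) + 2 * (∑ j, (l none - l j)) ^ 2) / 2 / M +
        η * (Real.exp (2 * (11 * κp + M / 2)) * (6 * κp +
          5 * (∑ j, (l none - l j)) * (Fintype.card κ * (1 / g₀) + 1))) := by
  have hΔ := m7_gap hsp
  have hH : Lin (osL.prod bLv) (k + 1) fun x => lam ϑ none / 2 +
      auxH k (fld ϑ D.g0 + a₁) (fun r => amp ϑ none r ^ 2) a₂ s x :=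
    (lin_const _).add (lin_auxH _ _ _ _ _)
  have hl : Loc (k + 1) fun x => lam ϑ none / 2 +
      auxH k (fld ϑ D.g0 + a₁) (fun r => amp ϑ none r ^ 2) a₂ s x := fun x x' h => by
    simp only [loc_auxH _ _ a₂ hs x x' h]
  have h8 : (0 : ℝ) < 8 / η := by positivity
  have hn0 : (0 : ℝ) < (D.B κp m).ng D.g0 := h8.trans_le hn
  have hb := fun a : κ => m5_block uLv (D.B κp m) ϑ (Sum.inr a) hg hfat.1 hfat.2
  have key := m7_steps (π := uniformOn (Set.univ : Set (D.ς → Bool))) (E0 := (D.B κp m).E0 ϑ)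
    (Λ := (D.B κp m).Λ ϑ) (𝔞 := (D.B κp m).A ϑ) (Y2 := 1 / g₀) (Y4 := 6 / g₀ ^ 2) (e₁ := η)
    D hH hl hκ hm hΔ O O' hη hM hd hO
    (Nat.cast_pos.1 hn0)
    (fun a => (gav_aux hH hl ((ut_y (Sum.inr a)).pow 2)).trans_le (hb a).1)
    (fun a => (gav_aux hH hl ((ut_y (Sum.inr a)).pow 4)).trans_le (hb a).2)
    ((gav_aux hH hl (fok_spin fun σ => |(∑ r ∈ Finset.univ.filter (fun r => D.grp r = D.g0),
      spin σ r) / (Finset.univ.filter fun r => D.grp r = D.g0).card - m D.g0 -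
        dbar c γ' m D.g0|).gok.ut).trans_le hmag)
  have hG : GOK k (osL.prod bLv) fun (y : D.ρ₀ ⊕ κ → ℝ) (_ : D.ς → Bool) x =>
      auxH k (beff ϑ c κp γ' m D.g0 + a₁) (fun r => amp ϑ none r ^ 2) a₂ s x +
        -(chi M (∑ j, (l none - l j) * yJ O y (x 0).1.2 j ^ 2) / 2) := by
    simp only [← sub_eq_add_neg]
    exact (gok_aux (Ha := fun _ x => auxH k (beff ϑ c κp γ' m D.g0 + a₁)
      (fun r => amp ϑ none r ^ 2) a₂ s x) (fun _ => lin_auxH _ _ _ _ _)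
      fun _ => loc_auxH _ _ _ hs).sub ((m7_gok_chi (m7_gok_Q k D _ O)
        (fun y _ x => m7_Q_nonneg hΔ O y _) hM).div_const 2)
  have e1 := gf_add_const (π := uniformOn (Set.univ : Set (D.ς → Bool))) (E0 := (D.B κp m).E0 ϑ)
    (Λ := (D.B κp m).Λ ϑ) (𝔞 := (D.B κp m).A ϑ) D.hc hG
    (lam ϑ none / 2 + κp * dbar c γ' m D.g0 * m D.g0 + κp * dbar c γ' m D.g0 ^ 2 / 2)
  have e2 : (fun (y : D.ρ₀ ⊕ κ → ℝ) (_ : D.ς → Bool) (x : ℕ → (ℝ × Bool) × Bool) =>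
      lam ϑ none / 2 + auxH k (fld ϑ D.g0 + a₁) (fun r => amp ϑ none r ^ 2) a₂ s x +
        ((-(κp * dbar c γ' m D.g0) * sgn (x 0).1.2 + κp * dbar c γ' m D.g0 * m D.g0 +
          κp * dbar c γ' m D.g0 ^ 2 / 2) -
            chi M (∑ j, (l none - l j) * yJ O y (x 0).1.2 j ^ 2) / 2)) = fun y _ x =>
      auxH k (beff ϑ c κp γ' m D.g0 + a₁) (fun r => amp ϑ none r ^ 2) a₂ s x +
        -(chi M (∑ j, (l none - l j) * yJ O y (x 0).1.2 j ^ 2) / 2) +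
      (lam ϑ none / 2 + κp * dbar c γ' m D.g0 * m D.g0 + κp * dbar c γ' m D.g0 ^ 2 / 2) := by
    funext y σ x
    simp only [auxH, osH, beff]
    ring
  rw [e2] at key
  refine ((congrArg (fun t => |_ - t|) e1).symm.trans_le key).trans (add_le_add (le_of_eq (div_div _ _ _).symm) ?_)
  have h9 : 8 / ((Finset.univ.filter fun r => D.grp r = D.g0).card : ℝ) ≤ η := by
    rw [div_le_iff₀ hη] at hn
    exact (div_le_iff₀' hn0).2 hn
  have h10 := mul_le_mul_of_nonneg_left h9 hκ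
  rw [mul_left_comm]
  refine mul_le_mul_of_nonneg_left ?_ (Real.exp_pos _).le
  linarith

theorem m7_small {W e : ℝ} (hW : 0 ≤ W) (he : 0 < e) : ∃ η : ℝ, 0 < η ∧ η * W ≤ e := by
  refine ⟨e / (W + 1), by positivity, ?_⟩
  rw [div_mul_eq_mul_div, div_le_iff₀ (by positivity)]
  nlinarith

theorem m7_ng {S : ℕ → BS κ J} (h : Reg S γ) (h' : RegG S γ') (hγ' : ∀ a, 0 < γ' a) (x : ℝ) :
    ∀ᶠ N in atTop, ∀ a, x ≤ (S N).ng a := by
  refine eventually_all.2 fun a => ?_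
  have h1 := (tendsto_natCast_atTop_atTop (R := ℝ)).comp h.1
  have h2 := (h1.atTop_mul_pos (hγ' a) (h' a)).eventually_ge_atTop x
  filter_upwards [h2, h1.eventually_gt_atTop 0] with N h3 h4
  simp only [Function.comp] at h3 h4
  rwa [mul_div_cancel₀ _ h4.ne'] at h3

theorem spin_core (hsp : IsSp γ l) (hO : IsDiagO γ l O α β) (hγ' : ∀ a, 0 < γ' a)
    (hm : ∀ a, |m a| ≤ 1) (hκ : 0 ≤ κp) {e : ℝ} (he : 0 < e) : ∃ τ : ℝ, 0 < τ ∧ ∃ k₀ : ℕ, ∀ k ≥ k₀,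
      ∀ (R δ : ℝ) (D : ℕ → SD κ J) (ϑ c : ℕ → PI κ J k → ℝ) (q : ℕ → ℕ → ℝ),
      TS k γ R δ (fun N => (D N).B κp m) ϑ c q → RegG (fun N => (D N).B κp m) γ' → ∀ᶠ N in atTop,
      ∀ (a₁ a₂ : ℝ) (s : ℕ), s ≤ k → ∀ b : Option κ → ℝ, (∀ j, 0 ≤ b j) → ∑ j, b j = 1 →
        ∑ j, |b j - γ j| ≤ τ → ∃ O' : Orth (Option κ) (Option κ), (∀ j, O'.1 j none = √(b j)) ∧
          |((D N).B κp m).fx k (ϑ N) (osL.prod bLv)
              ((D N).G κp m (ϑ N) (fun j => l none - l j) O' a₁ a₂ s) -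
            (((D N).B κp m).f k (ϑ N) + (spinC (ϑ N) (c N) κp γ' m γ l α (q N) (D N).g0 +
              osT k (beff (ϑ N) (c N) κp γ' m (D N).g0 + a₁) (heff (ϑ N) α β (q N)) a₂ s))| ≤ e := by
  have hΔ := m7_gap hsp
  have hγ := hsp.1
  have he5 : 0 < e / 5 := by positivity
  obtain ⟨g₀, hg, hfat⟩ := m5_fat (J := J) hγ
  obtain ⟨CT, hCT⟩ := spin_tree hsp hO (2 / γ none)
  obtain ⟨M, hM, hM1, hM2⟩ := ((eventually_gt_atTop (0 : ℝ)).and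
    (((tendsto_const_nhds (x := Real.exp (2 * (8 * κp)) * (2 * (∑ j, (l none - l j)) ^ 2 *
      Fintype.card κ * (Fintype.card κ * (6 / g₀ ^ 2)) + 2 * (∑ j, (l none - l j)) ^ 2) /
        2)).div_atTop tendsto_id).eventually_le_const he5 |>.and
    (((tendsto_const_nhds (x := CT)).div_atTop tendsto_id).eventually_le_const he5))).exists
  obtain ⟨M', -, hM'⟩ := sm2_quad κ (Option κ) (Δ₁ := ∑ j, (l none - l j)) hM
  obtain ⟨C, hC⟩ := cav0 (κ := κ) (J := J) κ (M / 2) M' (hγ none)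
  have hΔ1 : 0 ≤ ∑ j, (l none - l j) := (hΔ none).1.trans (hΔ none).2
  obtain ⟨η, hη, hηW⟩ := m7_small (W := Real.exp (2 * (11 * κp + M / 2)) * (6 * κp +
    5 * (∑ j, (l none - l j)) * (Fintype.card κ * (1 / g₀) + 1))) (by positivity) he5
  have hk : Tendsto (fun k : ℕ => C / √(k + 1)) atTop (𝓝 0) :=
    tendsto_const_nhds.div_atTop (Real.tendsto_sqrt_atTop.comp
      (tendsto_atTop_add_const_right _ _ tendsto_natCast_atTop_atTop))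
  obtain ⟨k₀, hk₀⟩ := eventually_atTop.1 (hk.eventually_le_const he5)
  refine ⟨η ^ 2, by positivity, k₀, fun k hk R δ D ϑ c q hT hR => ?_⟩
  filter_upwards [hC k γ R δ _ ϑ c q rfl hT (e / 5) he5, hfat hT.reg,
    m7_ng hT.reg hR hγ' (8 / η), hT.mag_av (hγ none) hR hγ' m hη,
    hT.abs_dbar_le (hγ none) hR hγ' hm] with N h1 h2 h3 h4 h5 a₁ a₂ s hs b hb hb1 hbγ
  obtain ⟨O', hO1, hO2⟩ := exists_near_frame (fun j => (hγ j).le) hO.1 hb hb1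
  refine ⟨O', hO1, ?_⟩
  have t1 := m7_core1 (O := O) hsp hm hκ (D N) (ϑ N) (c N) O' hη hM hg (h5 _)
    (fun v => (hO2 v).trans (by gcongr)) (h3 _) (h2 none) (h4 _) a₁ a₂ hs
  have t2 := h1 Sum.inr Sum.inr_injective (fun _ => rfl) _ (osL.prod bLv) _ _
    (lin_auxH k (beff (ϑ N) (c N) κp γ' m (D N).g0 + a₁) (fun r => amp (ϑ N) none r ^ 2) a₂ s)
    (loc_auxH _ _ _ hs)
    (hM' (ℕ → (ℝ × Bool) × Bool) (fun j => l none - l j) (fun j a => O.1 j (some a))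
      (fun j x => O.1 j none * sgn (x 0).1.2) hΔ (fun j a => O.abs_le_one _ _)
      fun j => m7_bdd_eps.1.const_mul _)
    fun y x x' h => by simp only [h 0 (Nat.succ_pos k)]
  have t3 := hCT k (q N) (fun r => amp (ϑ N) none r ^ 2) (beff (ϑ N) (c N) κp γ' m (D N).g0 + a₁)
    a₂ M s (hT.tp.prof N) (fun r => sq_nonneg _) hM hs
  have t4 := hk₀ k hk
  simp only [id] at hM1 hM2
  have a1 := abs_le.1 t1
  have a2 := abs_le.1 t2
  have a3 := abs_le.1 t3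
  unfold spinC heff
  rw [abs_le]
  constructor <;> linarith [a1.1, a1.2, a2.1, a2.2, a3.1, a3.2]

theorem m7_lim {n a a' : ℕ → ℕ} {g K : ℝ} (hn : Tendsto n atTop atTop)
    (h : Tendsto (fun N => (a N : ℝ) / n N) atTop (𝓝 g)) (hK : ∀ N, |(a' N : ℝ) - a N| ≤ K) :
    Tendsto (fun N => (a' N : ℝ) / (n N + 1 : ℕ)) atTop (𝓝 g) := by
  have h1 := (tendsto_natCast_atTop_atTop (R := ℝ)).comp hn
  have h2 : Tendsto (fun N => ((a' N : ℝ) - a N) / n N) atTop (𝓝 0) := by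
    refine squeeze_zero_norm (fun N => ?_) ((tendsto_const_nhds (x := K)).div_atTop h1)
    rw [Real.norm_eq_abs, abs_div, Nat.abs_cast]
    exact div_le_div_of_nonneg_right (hK N) (Nat.cast_nonneg _)
  have h3 := (h.add h2).mul ((tendsto_natCast_div_add_atTop (1 : ℝ)).comp hn)
  rw [add_zero, mul_one] at h3
  refine h3.congr' ?_
  filter_upwards [h1.eventually_gt_atTop 0] with N h4
  simp only [Function.comp] at h4 ⊢
  push_cast
  field_simp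
  ring

theorem m7_reg {D : ℕ → SD κ J} (h : Reg (fun N => (D N).B κp m) γ)
    (h' : RegG (fun N => (D N).B κp m) γ') :
    Reg (fun N => (D N).S κp m) γ ∧ RegG (fun N => (D N).S κp m) γ' := by
  refine ⟨⟨?_, fun j => ?_⟩, fun a => ?_⟩
  · simp only [SD.S_N]
    exact tendsto_atTop_mono (fun N => Nat.le_succ _) h.1
  · simp only [SD.S_N]
    refine m7_lim (K := Fintype.card κ + 1) h.1 (h.2 j) fun N => ?_
    have h1 := (D N).one_le_nb (κp := κp) (m := m) j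
    have h2 : (0 : ℝ) ≤ Fintype.card κ := Nat.cast_nonneg _
    simp only [SD.B_nb, cavN]
    rw [abs_le]
    split_ifs <;> push_cast [h1] <;> constructor <;> linarith
  · simp only [SD.S_N]
    refine m7_lim (K := 1) h.1 (h' a) fun N => ?_
    have h1 := (D N).one_le_ng (κp := κp) (m := m)
    simp only [SD.B_ng, dec]
    rcases eq_or_ne a (D N).g0 with rfl | h2
    · rw [Function.update_self]; push_cast [h1]; simp
    · rw [Function.update_of_ne h2]; simp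

theorem m7_T_bound (hsp : IsSp γ l) (hO : IsDiagO γ l O α β) (hm : ∀ a, |m a| ≤ 1) (hκ : 0 ≤ κp)
    (k : ℕ) (R Q : ℝ) : ∃ C : ℝ, ∀ (ϑ c : PI κ J k → ℝ) (q : ℕ → ℝ) (g : J) (a₁ a₂ : ℝ) (s : ℕ),
      (∀ θ, |ϑ θ| ≤ R) → IsProf k Q q → |dbar c γ' m g| ≤ 3 → |a₁| ≤ 1 → |a₂| ≤ 1 →
      |lam ϑ none / 2 + osT k (fld ϑ g + a₁) (fun r => amp ϑ none r ^ 2) a₂ s -
        (spinC ϑ c κp γ' m γ l α q g + osT k (beff ϑ c κp γ' m g + a₁) (heff ϑ α β q) a₂ s)| ≤ C := by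
  refine ⟨2 * R + 4 + (k + 1) * R ^ 2 + 11 * κp + |∑ j, γ j * (l none - l j)| / 2 +
    ∑ a, α a * Q / 2 + (∑ a, β a ^ 2) * Q / 2, fun ϑ c q g a₁ a₂ s hϑ hq hd h1 h2 => ?_⟩
  have hα := IsDiagO.nonneg hsp hO
  have b1 := abs_osT_le (k := k) (b := fld ϑ g + a₁) (a₂ := a₂)
    (h := fun r => amp ϑ none r ^ 2) (fun r => sq_nonneg _) s
  have b2 := abs_osT_le (k := k) (b := beff ϑ c κp γ' m g + a₁) (a₂ := a₂)
    (heff_nonneg hsp hO ϑ hq) s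
  have b3 : ∑ r ∈ Finset.range (k + 1), amp ϑ none r ^ 2 ≤ (k + 1) * R ^ 2 := by
    refine (Finset.sum_le_sum fun r _ => (sq_abs _).symm.trans_le
      (pow_le_pow_left₀ (abs_nonneg _) (abs_amp_le hϑ none r) 2)).trans (le_of_eq ?_)
    simp
  have b4 : ∑ r ∈ Finset.range (k + 1), heff ϑ α β q r ≤ (k + 1) * R ^ 2 + (∑ a, β a ^ 2) * Q := by
    simp only [heff, Finset.sum_add_distrib]
    exact add_le_add b3 (sum_cvar_le hα hq)
  have b5 : |∑ a, Move k (α a) q| ≤ ∑ a, α a * Q / 2 :=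
    (Finset.abs_sum_le_sum_abs _ _).trans (Finset.sum_le_sum fun a _ => hq.abs_Move_le (hα a))
  have b6 : |fld ϑ g| ≤ R := hϑ _
  have b7 : |κp * dbar c γ' m g| ≤ 3 * κp := by
    rw [abs_mul, abs_of_nonneg hκ, mul_comm]; gcongr
  have b8 : |κp * dbar c γ' m g * m g| ≤ 3 * κp := by
    rw [abs_mul]; exact (mul_le_of_le_one_right (abs_nonneg _) (hm g)).trans b7
  have b9 : κp * dbar c γ' m g ^ 2 ≤ κp * 3 ^ 2 :=
    mul_le_mul_of_nonneg_left ((sq_abs _).symm.trans_le (pow_le_pow_left₀ (abs_nonneg _) hd 2)) hκ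
  have b10 := mul_nonneg hκ (sq_nonneg (dbar c γ' m g))
  have b11 : |fld ϑ g + a₁| ≤ R + 1 := (abs_add_le _ _).trans (add_le_add b6 h1)
  have b12 : |beff ϑ c κp γ' m g + a₁| ≤ R + 3 * κp + 1 :=
    (abs_add_le _ _).trans (add_le_add ((abs_sub _ _).trans (add_le_add b6 b7)) h1)
  have c1 := abs_le.1 b1
  have c2 := abs_le.1 b2
  have c5 := abs_le.1 b5
  have c8 := abs_le.1 b8
  have c9 := le_abs_self (∑ j, γ j * (l none - l j))
  have c10 := neg_abs_le (∑ j, γ j * (l none - l j))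
  unfold spinC
  rw [abs_le]
  constructor <;> linarith [c1.1, c1.2, c2.1, c2.2, c5.1, c5.2, c8.1, c8.2]

theorem m7_C3 {k : ℕ} (hsp : IsSp γ l) (D : SD κ J) (ϑ : PI κ J k → ℝ)
    (O : Orth (Option κ) (Option κ)) (a₁ a₂ : ℝ) {s : ℕ} (hs : s ≤ k) {C : ℝ} (hC : 0 ≤ C)
    (h : (D.B κp m).avx k ϑ (osL.prod bLv) (D.G κp m ϑ (fun j => l none - l j) O a₁ a₂ s)
      (fun y _ c => ∑ j, (l none - l j) * yJ O y (c 0).1.2 j ^ 2) ≤ C) (a : κ) :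
    (D.B κp m).avx k ϑ (osL.prod bLv) (D.G κp m ϑ (fun j => l none - l j) O a₁ a₂ s)
      (fun y _ c => yJ O y (c 0).1.2 (some a) ^ 2) ≤ (∑ a, (l none - l (some a))⁻¹) * C := by
  have hΔ := m7_gap hsp
  have h0 : ∀ a, 0 < l none - l (some a) := fun a => sub_pos.2 (hsp.2.2 a)
  have h1 := gav_mono (π := uniformOn (Set.univ : Set (D.ς → Bool))) (E0 := (D.B κp m).E0 ϑ)
    (Λ := (D.B κp m).Λ ϑ) (𝔞 := (D.B κp m).A ϑ) D.hc
    (D.gok_G (κp := κp) (m := m) ϑ (fun j => l none - l j) O a₁ a₂ hs) (gok_yJ D O (some a)).ut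
    ((m7_gok_Q k D (fun j => l none - l j) O).ut.const_mul (l none - l (some a))⁻¹) fun U x => by
      rw [le_inv_mul_iff₀ (h0 a)]
      exact Finset.single_le_sum (f := fun j => (l none - l j) *
        yJ O (yv U (x 0).2.1) (x 0).2.2.1.2 j ^ 2)
        (fun j _ => mul_nonneg (hΔ j).1 (sq_nonneg _)) (Finset.mem_univ (some a))
  refine h1.trans ((gav_const_mul _).trans_le ?_)
  refine (mul_le_mul_of_nonneg_left h (inv_pos.2 (h0 a)).le).trans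
    (mul_le_mul_of_nonneg_right ?_ hC)
  exact Finset.single_le_sum (f := fun a => (l none - l (some a))⁻¹)
    (fun a _ => (inv_pos.2 (h0 a)).le) (Finset.mem_univ a)

theorem m7_g0 (hγ : ∀ j, 0 < γ j) (hγ' : ∀ a, 0 < γ' a) :
    ∃ g₀ : ℝ, 0 < g₀ ∧ (∀ j, g₀ < γ j) ∧ ∀ a, g₀ < γ' a :=
  (((eventually_all.2 fun j => (eventually_lt_nhds (hγ j))).and
    (eventually_all.2 fun a => (eventually_lt_nhds (hγ' a)))).filter_mono
      (nhdsWithin_le_nhds (s := Set.Ioi 0)) |>.and self_mem_nhdsWithin).exists.imp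
    fun _ h => ⟨h.2, h.1⟩

theorem spin_cav (hsp : IsSp γ l) (hO : IsDiagO γ l O α β) (hγ' : ∀ a, 0 < γ' a)
    (hm : ∀ a, |m a| ≤ 1) (hκ : 0 ≤ κp) {e : ℝ} (he : 0 < e) : ∃ k₀ : ℕ, ∀ k ≥ k₀, ∀ R : ℝ,
      ∃ δ₀ : ℝ, 0 < δ₀ ∧ ∀ (δ : ℝ) (D : ℕ → SD κ J) (ϑ c : ℕ → PI κ J k → ℝ) (q : ℕ → ℕ → ℝ),
      TS k γ R δ (fun N => (D N).B κp m) ϑ c q → RegG (fun N => (D N).B κp m) γ' →
      (∀ N, Close (ϑ N) l δ₀) → ∀ᶠ N in atTop, ∀ (a₁ a₂ : ℝ) (s : ℕ), |a₁| ≤ 1 → |a₂| ≤ 1 → s ≤ k →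
        |((D N).S κp m).fx k (ϑ N) bLv (testG none a₁ a₂ s) -
          (((D N).B κp m).f k (ϑ N) + (spinC (ϑ N) (c N) κp γ' m γ l α (q N) (D N).g0 +
            osT k (beff (ϑ N) (c N) κp γ' m (D N).g0 + a₁) (heff (ϑ N) α β (q N)) a₂ s))| ≤ e := by
  have hΔ := m7_gap hsp
  have hγ := hsp.1
  have he3 : 0 < e / 3 := by positivity
  obtain ⟨τ, hτ, k₀, hk₀⟩ := spin_core (J := J) hsp hO hγ' hm hκ he3
  obtain ⟨g₀, hg, hg1, hg2⟩ := m7_g0 hγ hγ'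
  obtain ⟨Cc, hCc, hc⟩ := spin_crude (κ := κ) (J := J) hg (∑ j, (l none - l j)) hκ
  refine ⟨k₀, fun k hk R => ?_⟩
  have hτ' := lt_min hτ hg
  obtain ⟨C, hC0, hC⟩ := spin_reduce (κ := κ) (J := J) k R hg hτ' (min_le_right _ _)
  obtain ⟨CT, hCT⟩ := m7_T_bound (γ' := γ') hsp hO hm hκ k R (2 / γ none)
  have h3 : 0 ≤ (∑ a, (l none - l (some a))⁻¹) * Cc :=
    mul_nonneg (Finset.sum_nonneg fun a _ => inv_nonneg.2 (hΔ (some a)).1) hCc
  obtain ⟨δ₀, hδ, hδW⟩ := m7_small (W := 2 * C * (1 + (∑ a, (l none - l (some a))⁻¹) * Cc))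
    (by positivity) he3
  refine ⟨δ₀, hδ, fun δ D ϑ c q hT hR hcl => ?_⟩
  obtain ⟨r1, r2⟩ := m7_reg hT.reg hR
  have l1 : Tendsto (fun N => ∑ j, |(((D N).S κp m).nb j : ℝ) / ((D N).S κp m).N - γ j|) atTop
      (𝓝 0) := by
    simpa using tendsto_finsetSum Finset.univ fun j _ => ((r1.2 j).sub_const (γ j)).abs
  have l2 := (tendsto_const_nhds (x := C * (Cc + CT))).div_atTop
    ((tendsto_natCast_atTop_atTop (R := ℝ)).comp r1.1)
  filter_upwards [hk₀ k hk R δ D ϑ c q hT hR, eventually_fat r1 r2 hg1 hg2,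
    l1.eventually_le_const (half_pos hτ'), l2.eventually_le_const he3,
    hT.abs_dbar_le (hγ none) hR hγ' hm] with N h1 h2 h4 h5 h6 a₁ a₂ s ha₁ ha₂ hs
  have hcr := fun O => hc k (D N) m (ϑ N) (fun j => l none - l j) O a₁ a₂ s hm h2 hΔ hs
  refine (hC (D N) κp m (ϑ N) γ (fun j => l none - l j) (2 * δ₀) a₁ a₂ _ (e / 3) (Cc + CT) _ s
    (hT.tp.bϑ N) h2 h4 ha₁ ha₂ hs (by positivity) he3.le h3 (sub_self _) (fun j => ?_)
    (fun j r => ((hcl N).2 j r).trans (by linarith))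
    (fun b hb hb1 hbγ => h1 a₁ a₂ s hs b hb hb1 (hbγ.trans (min_le_left _ _))) (fun O => ?_)
    fun O a => m7_C3 hsp (D N) (ϑ N) O a₁ a₂ hs hCc (hcr O).2.1 a).trans ?_
  · have a1 := abs_le.1 ((hcl N).1 j)
    have a2 := abs_le.1 ((hcl N).1 none)
    rw [abs_le]
    constructor <;> linarith [a1.1, a1.2, a2.1, a2.2]
  · have a1 := abs_le.1 (hcr O).1
    have a2 := abs_le.1 (hCT (ϑ N) (c N) (q N) (D N).g0 a₁ a₂ s (hT.tp.bϑ N) (hT.tp.prof N) (h6 _)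
      ha₁ ha₂)
    rw [abs_le]
    constructor <;> linarith [a1.1, a1.2, a2.1, a2.2]
  · simp only [Function.comp] at h5
    linarith

end Crest.Agent.R164
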