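import Crest.Agent.R164.M5
import Crest.Agent.R164.M6b
import Crest.Agent.R164.M7

/-!
# Row 164: M8
**Penalised touching sequences.**
`pen_cav`: for a fixed group `a` let `D N` be given by `exists_SD` for the counts of `S N` when all blocks and the
group `a` are nonempty (eventually), and any fixed `SD` otherwise (e.g. with empty `ρ₀`, `ς = κ`); `D.B` is `Reg`, `RegG`,
near (`near_of_reg`), hence touching (`TS.near`); `spin_cav`, `pen_fx_congr`, `BS.IsPen.f_eq`.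
`pen_step`: `pen_cav` with `a₁ = a₂ = 0` (`gf_aux`, `osT_zero`) and the chain of counts
`n_t = cavN nb - |t| e_none + 1_t`, `t ⊆ κ` (`move_val` for `can … n_t`, which is near `S`; `Move_zero`).
`pen_mag`: `gf_test1` + `gav_aux` + `os1_test`, `pen_av_spin`, `TS.mag_av`.
`pen_tail`: `gf_test2` + `osT_test` give `atl s σ_r`; `gtl_orth`, `pen_atl_spin`, `BS.atl_congr`, `sl_approx`, `ward`,
`ptail_img`.
-/

set_option autoImplicit false

open MeasureTheory ProbabilityTheory Filter Topology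
open scoped ENNReal BigOperators Matrix

noncomputable section

namespace Crest.Agent.R164

variable {κ J : Type} [Fintype κ] [DecidableEq κ] [Fintype J] [DecidableEq J]

variable {γ l : Option κ → ℝ} {O : Orth (Option κ) (Option κ)} {α β : κ → ℝ} {γ' m : J → ℝ} {κp : ℝ}

theorem M8_ratio {x y z : ℕ → ℝ} {K L : ℝ} (hx : Tendsto x atTop atTop)
    (h : ∀ᶠ N in atTop, |y N - z N| ≤ K) (hz : Tendsto (fun N => z N / x N) atTop (𝓝 L)) :
    Tendsto (fun N => y N / x N) atTop (𝓝 L) := by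
  have h1 : Tendsto (fun N => (y N - z N) / x N) atTop (𝓝 0) := by
    refine squeeze_zero_norm' ?_ (hx.const_div_atTop K)
    filter_upwards [h, hx.eventually_gt_atTop 0] with N h1 h2
    rw [Real.norm_eq_abs, abs_div, abs_of_pos h2]
    gcongr
  have h2 := hz.add h1
  rw [add_zero] at h2
  refine h2.congr fun N => ?_
  ring

theorem M8_large1 {x y : ℕ → ℕ} {L : ℝ} (hL : 0 < L) (hx : Tendsto x atTop atTop)
    (h : Tendsto (fun N => (y N : ℝ) / x N) atTop (𝓝 L)) (n₀ : ℕ) : ∀ᶠ N in atTop, n₀ ≤ y N := by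
  have h1 := h.pos_mul_atTop hL (tendsto_natCast_atTop_atTop.comp hx)
  filter_upwards [h1.eventually_ge_atTop n₀, hx.eventually_gt_atTop 0] with N h2 h3
  have h4 : (x N : ℝ) ≠ 0 := by exact_mod_cast h3.ne'
  simp only [Function.comp_apply, div_mul_cancel₀ _ h4] at h2
  exact_mod_cast h2

theorem M8_large {S : ℕ → BS κ J} (hγ : ∀ j, 0 < γ j) (hγ' : ∀ a, 0 < γ' a) (h : Reg S γ)
    (h' : RegG S γ') (n₀ : ℕ) :
    ∀ᶠ N in atTop, (∀ j, n₀ ≤ (S N).nb j) ∧ ∀ a, n₀ ≤ (S N).ng a :=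
  (eventually_all.2 fun j => M8_large1 (hγ j) h.1 (h.2 j) n₀).and
    (eventually_all.2 fun a => M8_large1 (hγ' a) h.1 (h' a) n₀)

theorem M8_near {k : ℕ} {R δ : ℝ} {S S' : ℕ → BS κ J} {ϑ c : ℕ → PI κ J k → ℝ} {q : ℕ → ℕ → ℝ}
    (hγ : ∀ j, 0 < γ j) (hγ' : ∀ a, 0 < γ' a) (hm : ∀ a, |m a| ≤ 1) (hκ : 0 ≤ κp)
    (h : TS k γ R δ S ϑ c q) (h' : RegG S γ') (hp : ∀ N, (S N).IsPen κp m)
    (hp' : ∀ N, (S' N).IsPen κp m) (K : ℕ)
    (hK : ∀ᶠ N in atTop, (∀ j, (S' N).nb j ≤ (S N).nb j + K ∧ (S N).nb j ≤ (S' N).nb j + K) ∧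
      ∀ a, (S' N).ng a ≤ (S N).ng a + K ∧ (S N).ng a ≤ (S' N).ng a + K) :
    TS k γ R δ S' ϑ c q ∧ RegG S' γ' := by
  have habs : ∀ a b : ℕ, a ≤ b + K ∧ b ≤ a + K → |(a : ℝ) - b| ≤ K := fun a b h => by
    have h1 : (a : ℝ) ≤ b + K := by exact_mod_cast h.1
    have h2 : (b : ℝ) ≤ a + K := by exact_mod_cast h.2
    rw [abs_le]
    constructor <;> linarith
  have hx : Tendsto (fun N => ((S N).N : ℝ)) atTop atTop :=
    tendsto_natCast_atTop_atTop.comp h.reg.1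
  have hNK : ∀ᶠ N in atTop, |((S' N).N : ℝ) - (S N).N| ≤ Fintype.card (Option κ) * K := by
    filter_upwards [hK] with N hN
    rw [← BS.sum_nb, ← BS.sum_nb, Nat.cast_sum, Nat.cast_sum, ← Finset.sum_sub_distrib]
    refine (Finset.abs_sum_le_sum_abs _ _).trans ?_
    refine (Finset.sum_le_sum fun j _ => habs _ _ (hN.1 j)).trans ?_
    simp
  have hN1 : Tendsto (fun N => ((S' N).N : ℝ) / (S N).N) atTop (𝓝 1) := by
    refine M8_ratio hx hNK (tendsto_const_nhds.congr' ?_)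
    filter_upwards [hx.eventually_gt_atTop 0] with N hN
    rw [div_self hN.ne']
  have hdiv : ∀ {y z : ℕ → ℝ} {L : ℝ}, (∀ᶠ N in atTop, |y N - z N| ≤ K) →
      Tendsto (fun N => z N / (S N).N) atTop (𝓝 L) →
      Tendsto (fun N => y N / (S' N).N) atTop (𝓝 L) := fun {y z L} h1 h2 => by
    have h3 := (M8_ratio hx h1 h2).div hN1 one_ne_zero
    rw [div_one] at h3
    refine h3.congr' ?_
    filter_upwards [hx.eventually_gt_atTop 0] with N hN
    simp only [Pi.div_apply]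
    rw [div_div_div_cancel_right₀ hN.ne']
  have hreg : Reg S' γ := by
    refine ⟨?_, fun j => hdiv (hK.mono fun N hN => habs _ _ (hN.1 j)) (h.reg.2 j)⟩
    rw [← tendsto_natCast_atTop_iff (R := ℝ)]
    refine tendsto_atTop_mono' _ ?_
      (tendsto_atTop_add_const_right _ (-(Fintype.card (Option κ) * K : ℝ)) hx)
    filter_upwards [hNK] with N hN
    linarith [(abs_le.1 hN).1]
  have hregG : RegG S' γ' := fun a => hdiv (hK.mono fun N hN => habs _ _ (hN.2 a)) (h' a)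
  exact ⟨h.near (near_of_reg k hγ hγ' hκ hm hp hp' h.reg h' hreg hregG hN1) hreg, hregG⟩

theorem M8_close {k : ℕ} {ϑ : PI κ J k → ℝ} {δ δ' : ℝ} (h : Close ϑ l δ) (hδ : δ ≤ δ') :
    Close ϑ l δ' :=
  ⟨fun j => (h.1 j).trans hδ, fun j s => (h.2 j s).trans hδ⟩

theorem M8_dec_le {ι : Type} [DecidableEq ι] (n : ι → ℕ) (j i : ι) :
    dec n j i ≤ n i ∧ n i ≤ dec n j i + 1 := by
  unfold dec
  by_cases h : i = j
  · subst h
    rw [Function.update_self]
    omega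
  · rw [Function.update_of_ne h]
    omega

theorem pen_cav (hsp : IsSp γ l) (hO : IsDiagO γ l O α β) (hγ' : ∀ a, 0 < γ' a)
    (hm : ∀ a, |m a| ≤ 1) (hκ : 0 ≤ κp) {e : ℝ} (he : 0 < e) : ∃ k₀ : ℕ, ∀ k ≥ k₀, ∀ R : ℝ,
      ∃ δ₀ : ℝ, 0 < δ₀ ∧ ∀ (δ : ℝ) (S : ℕ → BS κ J) (ϑ c : ℕ → PI κ J k → ℝ) (q : ℕ → ℕ → ℝ),
      TS k γ R δ S ϑ c q → RegG S γ' → (∀ N, (S N).IsPen κp m) → (∀ N, Close (ϑ N) l δ₀) →
      ∀ᶠ N in atTop, ∀ (r : (S N).ς) (a₁ a₂ : ℝ) (s : ℕ), |a₁| ≤ 1 → |a₂| ≤ 1 → s ≤ k →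
        |(S N).fx k (ϑ N) bLv (testG r a₁ a₂ s) -
          (cF κp m k (ϑ N) (cavN (S N).nb) (dec (S N).ng ((S N).grp r)) +
            (spinC (ϑ N) (c N) κp γ' m γ l α (q N) ((S N).grp r) +
              osT k (beff (ϑ N) (c N) κp γ' m ((S N).grp r) + a₁) (heff (ϑ N) α β (q N)) a₂ s))| ≤ e := by
  obtain ⟨k₀, hk₀⟩ := spin_cav hsp hO hγ' hm hκ he
  refine ⟨k₀, fun k hk R => ?_⟩
  obtain ⟨δ₀, hδ₀, H⟩ := hk₀ k hk R
  refine ⟨δ₀, hδ₀, fun δ S ϑ c q hT hG hp hcl => ?_⟩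
  have hl := M8_large hsp.1 hγ' hT.reg hG 1
  have key : ∀ a : J, ∀ᶠ N in atTop, ∀ r : (S N).ς, (S N).grp r = a →
      ∀ (a₁ a₂ : ℝ) (s : ℕ), |a₁| ≤ 1 → |a₂| ≤ 1 → s ≤ k →
        |(S N).fx k (ϑ N) bLv (testG r a₁ a₂ s) -
          (cF κp m k (ϑ N) (cavN (S N).nb) (dec (S N).ng a) +
            (spinC (ϑ N) (c N) κp γ' m γ l α (q N) a +
              osT k (beff (ϑ N) (c N) κp γ' m a + a₁) (heff (ϑ N) α β (q N)) a₂ s))| ≤ e := by
    intro a
    have hex : ∀ N, ∃ D : SD κ J, ((∀ j, 1 ≤ (S N).nb j) ∧ ∀ a, 1 ≤ (S N).ng a) →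
        D.g0 = a ∧ (D.S κp m).nb = (S N).nb ∧ (D.S κp m).ng = (S N).ng := fun N => by
      by_cases h : (∀ j, 1 ≤ (S N).nb j) ∧ ∀ a, 1 ≤ (S N).ng a
      · obtain ⟨D, hD⟩ := exists_SD (κp := κp) (m := m) (S N).nb (S N).ng
          (by rw [BS.sum_nb, BS.sum_ng]) h.1 a (h.2 a)
        exact ⟨D, fun _ => hD⟩
      · exact ⟨SD.mk Empty κ (by simp) Empty.elim (fun _ => a) a, fun h' => absurd h' h⟩
    choose D hD using hex
    obtain ⟨h1, h2⟩ := M8_near (S' := fun N => (D N).B κp m) hsp.1 hγ' hm hκ hT hG hp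
      (fun N => (D N).B_isPen) (Fintype.card κ + 1) (by
        filter_upwards [hl] with N hN
        obtain ⟨g1, g2, g3⟩ := hD N hN
        rw [SD.B_nb, SD.B_ng, g2, g3]
        refine ⟨fun j => ?_, fun b => ?_⟩
        · unfold cavN
          split_ifs <;> omega
        · have := M8_dec_le (S N).ng (D N).g0 b
          omega)
    filter_upwards [hl, H δ D ϑ c q h1 h2 hcl] with N hN h3 r hr a₁ a₂ s g4 g5 g6
    obtain ⟨g1, g2, g3⟩ := hD N hN
    have h4 := h3 a₁ a₂ s g4 g5 g6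
    rw [(D N).B_isPen.f_eq, SD.B_nb, SD.B_ng, g2, g3, g1] at h4
    rw [pen_fx_congr (hp N) (D N).S_isPen g2.symm g3.symm (r' := none) (hr.trans g1.symm) _ _ _ g6]
    exact h4
  filter_upwards [eventually_all.2 key] with N hN r
  exact hN _ r rfl

theorem M8_val_zero {A : Type} [MeasurableSpace A] (ζ : ℕ → ℝ) (La : Lv A) (n : ℕ) :
    val ζ La n (fun _ => 0) = 0 := by
  have : ∀ r, X ζ La (fun _ => 0) r = fun _ => 0 := fun r => by
    induction r with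
    | zero => rfl
    | succ r ih =>
      funext x
      simp only [X, ih, pm_const]
  rw [val, this]

theorem M8_fx_zero {k : ℕ} (S : BS κ J) (ϑ : PI κ J k → ℝ) :
    S.fx k ϑ bLv (fun _ _ _ => 0) = S.f k ϑ := by
  have := gf_aux (k := k) (π := S.π) (La := bLv) (E0 := S.E0 ϑ) (Λ := S.Λ ϑ) (𝔞 := S.A ϑ)
    (Ha := fun _ => 0) (lin_const 0) (fun _ _ _ => rfl) S.hc
  rw [M8_val_zero, add_zero] at this
  exact this

theorem M8_testG_zero {ρ ς : Type} (r : ς) (s : ℕ) :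
    testG (ρ := ρ) r 0 0 s = fun _ _ _ => 0 := by
  funext y σ c
  simp [testG]

theorem M8_exists_grp (S : BS κ J) {a : J} (h : 1 ≤ S.ng a) : ∃ r, S.grp r = a := by
  obtain ⟨r, hr⟩ := Finset.card_pos.1 h
  exact ⟨r, (Finset.mem_filter.1 hr).2⟩

theorem M8_exists_part (S : BS κ J) {j : Option κ} (h : 1 ≤ S.nb j) : ∃ i, S.part i = j := by
  obtain ⟨r, hr⟩ := Finset.card_pos.1 h
  exact ⟨r, (Finset.mem_filter.1 hr).2⟩

theorem M8_gaps (hsp : IsSp γ l) : Gaps l 0 (∑ a, (l none - l (some a))) := fun a =>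
  ⟨sub_nonneg.2 (hsp.2.2 a).le, Finset.single_le_sum (f := fun a => l none - l (some a))
    (fun a _ => sub_nonneg.2 (hsp.2.2 a).le) (Finset.mem_univ a)⟩

theorem M8_sum_dec {ι : Type} [Fintype ι] [DecidableEq ι] (n : ι → ℕ) {j : ι} (h : 1 ≤ n j) :
    ∑ i, dec n j i + 1 = ∑ i, n i := by
  rw [dec, Finset.sum_update_of_mem (Finset.mem_univ j), Finset.sdiff_singleton_eq_erase,
    ← Finset.add_sum_erase _ n (Finset.mem_univ j)]
  omega

/-- counts after moving one row of every block in `t` to the top -/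
def M8_n (n : Option κ → ℕ) (t : Finset (Option κ)) (j : Option κ) : ℕ :=
  n j - (if j ∈ t then 1 else 0) + if j = none then t.card else 0

theorem M8_n_empty (n : Option κ → ℕ) : M8_n n ∅ = n := by
  funext j
  simp [M8_n]

theorem M8_n_insert {n : Option κ → ℕ} (h : ∀ j, 1 ≤ n j) {t : Finset (Option κ)} {i : Option κ}
    (hi : i ∉ t) :
    M8_n n (insert i t) = fun j => dec (M8_n n t) i j + if j = none then 1 else 0 := by
  funext j
  have := h j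
  by_cases hj : j = i
  · subst hj
    simp only [M8_n, dec, Function.update_self, Finset.mem_insert_self, if_true, if_neg hi,
      Finset.card_insert_of_notMem hi]
    split_ifs <;> omega
  · simp only [M8_n, dec, Function.update_of_ne hj, Finset.mem_insert, hj, false_or,
      Finset.card_insert_of_notMem hi]
    split_ifs <;> omega

theorem M8_n_sum {n : Option κ → ℕ} (h : ∀ j, 1 ≤ n j) (t : Finset (Option κ)) :
    ∑ j, M8_n n t j = ∑ j, n j := by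
  have h1 : ∀ j, M8_n n t j + (if j ∈ t then 1 else 0) = n j + if j = none then t.card else 0 := by
    intro j
    have := h j
    unfold M8_n
    split_ifs <;> omega
  have h2 := Finset.sum_congr (rfl : (Finset.univ : Finset (Option κ)) = _) fun j _ => h1 j
  simpa [Finset.sum_add_distrib] using h2

theorem M8_n_erase (n : Option κ → ℕ) (j : Option κ) :
    M8_n (dec n j) (Finset.univ.erase j) = cavN n := by
  funext i
  by_cases h : i = j
  · subst h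
    simp [M8_n, dec, cavN]
  · simp [M8_n, dec, cavN, h]

theorem pen_step (hsp : IsSp γ l) (hO : IsDiagO γ l O α β) (hγ' : ∀ a, 0 < γ' a)
    (hm : ∀ a, |m a| ≤ 1) (hκ : 0 ≤ κp) {e : ℝ} (he : 0 < e) : ∃ k₀ : ℕ, ∀ k ≥ k₀, ∀ R : ℝ,
      ∃ δ₀ : ℝ, 0 < δ₀ ∧ ∀ (δ : ℝ) (S : ℕ → BS κ J) (ϑ c : ℕ → PI κ J k → ℝ) (q : ℕ → ℕ → ℝ),
      TS k γ R δ S ϑ c q → RegG S γ' → (∀ N, (S N).IsPen κp m) → (∀ N, Close (ϑ N) l δ₀) →
      ∀ᶠ N in atTop, ∀ (j : Option κ) (a : J),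
        |(S N).f k (ϑ N) - cF κp m k (ϑ N) (dec (S N).nb j) (dec (S N).ng a) -
          stepV (ϑ N) (c N) κp γ' m γ l α β (q N) j a| ≤ e := by
  set C : ℝ := (Fintype.card (Option κ) : ℝ) with hC
  have hC0 : 0 ≤ C := Nat.cast_nonneg _
  have he' : 0 < e / (2 * (C + 1)) := by positivity
  obtain ⟨k₁, hk₁⟩ := pen_cav hsp hO hγ' hm hκ (half_pos he)
  obtain ⟨k₂, hk₂⟩ := move_val (J := J) hsp.1 (∑ a, (l none - l (some a))) he'
  refine ⟨max k₁ k₂, fun k hk R => ?_⟩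
  obtain ⟨δ₁, hδ₁, H₁⟩ := hk₁ k (le_of_max_le_left hk) R
  obtain ⟨δ₂, hδ₂, H₂⟩ := hk₂ k (le_of_max_le_right hk) R
  refine ⟨min δ₁ δ₂, lt_min hδ₁ hδ₂, fun δ S ϑ c q hT hG hp hcl => ?_⟩
  have hl := M8_large hsp.1 hγ' hT.reg hG 2
  have key : ∀ (j : Option κ) (a : J) (t : Finset (Option κ)), ∀ᶠ N in atTop,
      |cF κp m k (ϑ N) (dec (S N).nb j) (dec (S N).ng a) -
        cF κp m k (ϑ N) (M8_n (dec (S N).nb j) t) (dec (S N).ng a) -
        ∑ i ∈ t, Move k (l none - l i) (q N)| ≤ t.card * (e / (2 * (C + 1))) := by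
    intro j a t
    induction t using Finset.induction_on with
    | empty => simp [M8_n_empty]
    | insert i t hi ih =>
      have hex : ∀ N, ∃ S' : BS κ J, S'.IsPen κp m ∧
          (((∀ j, 2 ≤ (S N).nb j) ∧ ∀ a, 2 ≤ (S N).ng a) →
            S'.nb = M8_n (dec (S N).nb j) t ∧ S'.ng = dec (S N).ng a) := fun N => by
        by_cases h : (∀ j, 2 ≤ (S N).nb j) ∧ ∀ a, 2 ≤ (S N).ng a
        · have h1 : ∑ j', M8_n (dec (S N).nb j) t j' = ∑ b, dec (S N).ng a b := by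
            rw [M8_n_sum fun j' => by
              have := M8_dec_le (S N).nb j j'
              have := h.1 j'
              omega]
            have h2 := M8_sum_dec (S N).nb (j := j) (by have := h.1 j; omega)
            have h3 := M8_sum_dec (S N).ng (j := a) (by have := h.2 a; omega)
            rw [BS.sum_nb] at h2
            rw [BS.sum_ng] at h3
            omega
          exact ⟨can κp m _ _ h1, can_isPen _ _ _, fun _ => ⟨can_nb _ _ _, can_ng _ _ _⟩⟩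
        · exact ⟨S N, hp N, fun h' => absurd h' h⟩
      choose S' hp' hS' using hex
      obtain ⟨h1, h2⟩ := M8_near hsp.1 hγ' hm hκ hT hG hp hp' (t.card + 2) (by
        filter_upwards [hl] with N hN
        obtain ⟨g1, g2⟩ := hS' N hN
        rw [g1, g2]
        refine ⟨fun j' => ?_, fun b => ?_⟩
        · have := M8_dec_le (S N).nb j j'
          unfold M8_n
          split_ifs <;> omega
        · have := M8_dec_le (S N).ng a b
          omega)
      filter_upwards [ih, hl, M8_large hsp.1 hγ' h1.reg h2 1, H₂ δ S' ϑ c q (fun _ => l) h1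
        (fun N => M8_close (hcl N) (min_le_right _ _)) fun _ => M8_gaps hsp] with N g1 g2 g3 g4
      obtain ⟨g5, g6⟩ := hS' N g2
      obtain ⟨i₀, hi₀⟩ := M8_exists_part (S' N) (g3.1 i)
      have g7 := g4 i₀
      have g8 : ((S' N).move i₀).nb = M8_n (dec (S N).nb j) (insert i t) := by
        rw [M8_n_insert (fun j' => by
          have := M8_dec_le (S N).nb j j'
          have := g2.1 j'
          omega) hi, ← g5, ← hi₀]
        funext j'
        exact BS.move_nb _ _ _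
      have g9 : ((S' N).move i₀).ng = dec (S N).ng a := g6
      rw [(hp' N).f_eq, ((hp' N).move i₀).f_eq, g5, g6, g8, g9, hi₀] at g7
      rw [Finset.sum_insert hi, Finset.card_insert_of_notMem hi]
      push_cast
      rw [abs_le] at g1 g7 ⊢
      constructor <;> linarith [g1.1, g1.2, g7.1, g7.2]
  filter_upwards [hl, H₁ δ S ϑ c q hT hG hp fun N => M8_close (hcl N) (min_le_left _ _),
    eventually_all.2 fun j => eventually_all.2 fun a => key j a (Finset.univ.erase j)]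
    with N g1 g2 g3 j a
  obtain ⟨r, rfl⟩ := M8_exists_grp (S N) (a := a) (by have := g1.2 a; omega)
  have g4 := g2 r 0 0 0 (by simp) (by simp) (Nat.zero_le _)
  have g5 := g3 j ((S N).grp r)
  rw [M8_testG_zero, M8_fx_zero, add_zero, osT_zero] at g4
  rw [M8_n_erase] at g5
  have g6 : ((Finset.univ.erase j).card : ℝ) * (e / (2 * (C + 1))) ≤ e / 2 := by
    have h1 : ((Finset.univ.erase j).card : ℝ) ≤ C + 1 := by
      have : (Finset.univ.erase j).card ≤ Fintype.card (Option κ) := Finset.card_le_univ _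
      have h2 : ((Finset.univ.erase j).card : ℝ) ≤ C := by rw [hC]; exact_mod_cast this
      linarith
    calc _ ≤ (C + 1) * (e / (2 * (C + 1))) := by gcongr
      _ = e / 2 := by field_simp
  rw [stepV]
  rw [abs_le] at g4 g5 ⊢
  constructor <;> linarith [g4.1, g4.2, g5.1, g5.2]

theorem M8_abs_spin {ς : Type} (σ : ς → Bool) (r : ς) : |spin σ r| ≤ 1 := by
  unfold spin sgn
  split_ifs <;> simp

theorem M8_test1 {k : ℕ} (S : BS κ J) (ϑ : PI κ J k → ℝ) (r : S.ς) {a : ℝ} (ha : |a| ≤ 1) :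
    |S.fx k ϑ bLv (testG r a 0 0) - S.f k ϑ - a * S.av k ϑ (fun _ x => spin (x 0).2.1 r)| ≤
      15 * a ^ 2 := by
  have h1 := gf_test1 (k := k) (π := S.π) (La := bLv) (E0 := S.E0 ϑ) (Λ := S.Λ ϑ) (𝔞 := S.A ϑ)
    S.hc gok_zero (ψ := fun _ σ _ => spin σ r) (fok_spin fun σ => spin σ r).gok (B := 1) (a := a)
    (fun _ σ _ => M8_abs_spin σ r) (by simpa using ha)
  have h2 := gav_aux (k := k) (π := S.π) (La := bLv) (E0 := S.E0 ϑ) (Λ := S.Λ ϑ) (𝔞 := S.A ϑ)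
    (Ha := fun _ => 0) (lin_const 0) (fun _ _ _ => rfl) (F₀ := fun _ x => spin (x 0).2.1 r)
    (ut_Uσ (φ := fun _ σ => spin σ r) (fun _ => measurable_const) fun _ σ => M8_abs_spin σ r)
  have h3 : testG (ρ := S.ρ) r a 0 0 = fun _ σ _ => 0 + a * spin σ r := by
    funext y σ c
    simp [testG]
  rw [mul_one] at h1
  rw [h3, ← M8_fx_zero, BS.av, ← h2]
  exact h1

theorem M8_mag {k : ℕ} {S : BS κ J} (hp : S.IsPen κp m) (ϑ : PI κ J k → ℝ) (r : S.ς) (x₁ x₂ : ℝ) :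
    |S.av k ϑ (fun _ x => spin (x 0).2.1 r) - x₁ - x₂| ≤
      S.av k ϑ (fun _ x => |(∑ r' ∈ Finset.univ.filter (fun r' => S.grp r' = S.grp r),
        spin (x 0).2.1 r') / S.ng (S.grp r) - x₁ - x₂|) := by
  have h0 : (S.ng (S.grp r) : ℝ) ≠ 0 := by
    have : 0 < S.ng (S.grp r) := Finset.card_pos.2 ⟨r, by simp⟩
    exact_mod_cast this.ne'
  have u1 := (S.ut_psi (k := k) (Sum.inr (Sum.inr (S.grp r)))).const_mul (S.ng (S.grp r) : ℝ)⁻¹
  have u2 := u1.sub (ut_const x₁)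
  have h1 := abs_gav_le (E0 := S.E0 ϑ) (Λ := S.Λ ϑ) (𝔞 := S.A ϑ) S.hc gok_zero
    (u2.sub (ut_const x₂))
  rw [gav_sub S.hc gok_zero u2 (ut_const x₂), gav_sub S.hc gok_zero u1 (ut_const x₁),
    gav_const S.hc gok_zero, gav_const S.hc gok_zero, gav_const_mul] at h1
  have h2 := pen_av_spin hp ϑ r
  rw [BS.av] at h2
  rw [h2, inv_mul_cancel_left₀ h0] at h1
  simp only [div_eq_inv_mul]
  exact h1

theorem pen_mag (hsp : IsSp γ l) (hO : IsDiagO γ l O α β) (hγ' : ∀ a, 0 < γ' a)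
    (hm : ∀ a, |m a| ≤ 1) (hκ : 0 ≤ κp) {e : ℝ} (he : 0 < e) : ∃ k₀ : ℕ, ∀ k ≥ k₀, ∀ R : ℝ,
      ∃ δ₀ : ℝ, 0 < δ₀ ∧ ∀ (δ : ℝ) (S : ℕ → BS κ J) (ϑ c : ℕ → PI κ J k → ℝ) (q : ℕ → ℕ → ℝ),
      TS k γ R δ S ϑ c q → RegG S γ' → (∀ N, (S N).IsPen κp m) → (∀ N, Close (ϑ N) l δ₀) →
      ∀ᶠ N in atTop, ∀ a : J, |m a + dbar (c N) γ' m a -
        osM k (beff (ϑ N) (c N) κp γ' m a) (heff (ϑ N) α β (q N))| ≤ e := by
  set a₁ : ℝ := min 1 (e / 90) with ha₁
  have h0 : 0 < a₁ := lt_min one_pos (by positivity)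
  have h1 : |a₁| ≤ 1 := by rw [abs_of_pos h0]; exact min_le_left _ _
  have h2 : a₁ ≤ e / 90 := min_le_right _ _
  obtain ⟨k₀, hk₀⟩ := pen_cav hsp hO hγ' hm hκ (e := a₁ * e / 6) (by positivity)
  refine ⟨k₀, fun k hk R => ?_⟩
  obtain ⟨δ₀, hδ₀, H⟩ := hk₀ k hk R
  refine ⟨δ₀, hδ₀, fun δ S ϑ c q hT hG hp hcl => ?_⟩
  filter_upwards [M8_large hsp.1 hγ' hT.reg hG 1, H δ S ϑ c q hT hG hp hcl,
    hT.mag_av (hsp.1 none) hG hγ' m (e := e / 3) (by positivity)] with N g1 g2 g3 a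
  obtain ⟨r, rfl⟩ := M8_exists_grp (S N) (g1.2 a)
  have g4 := g2 r 0 0 0 (by simp) (by simp) (Nat.zero_le _)
  have g5 := g2 r a₁ 0 0 h1 (by simp) (Nat.zero_le _)
  rw [M8_testG_zero, M8_fx_zero, add_zero, osT_zero] at g4
  rw [osT_zero] at g5
  have g6 := M8_test1 (S N) (ϑ N) r h1
  have g7 := os1_test (k := k) (b := beff (ϑ N) (c N) κp γ' m ((S N).grp r))
    (h := heff (ϑ N) α β (q N)) h1
  have g8 := (M8_mag (hp N) (ϑ N) r _ _).trans (g3 _)
  have g9 : |(S N).av k (ϑ N) (fun _ x => spin (x 0).2.1 r) -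
      osM k (beff (ϑ N) (c N) κp γ' m ((S N).grp r)) (heff (ϑ N) α β (q N))| ≤ 2 * e / 3 := by
    refine le_of_mul_le_mul_left ?_ h0
    rw [← abs_of_pos h0, ← abs_mul, abs_of_pos h0, mul_sub]
    have : 30 * a₁ ^ 2 ≤ a₁ * e / 3 := by nlinarith
    rw [abs_le] at g4 g5 g6 g7 ⊢
    constructor <;> linarith [g4.1, g4.2, g5.1, g5.2, g6.1, g6.2, g7.1, g7.2]
  rw [abs_le] at g8 g9 ⊢
  constructor <;> linarith [g8.1, g8.2, g9.1, g9.2]

theorem M8_test2 {k : ℕ} (S : BS κ J) (ϑ : PI κ J k → ℝ) (r : S.ς) {a : ℝ} (ha : |a| ≤ 1) {s : ℕ}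
    (hs : s ≤ k) :
    |S.fx k ϑ bLv (testG r 0 a s) - S.f k ϑ - a ^ 2 / 2 * S.atl k ϑ s (fun _ σ => spin σ r)| ≤
      200 * |a| ^ 3 := by
  have h1 := gf_test2 (k := k) (π := S.π) (E0 := S.E0 ϑ) (Λ := S.Λ ϑ) (𝔞 := S.A ϑ) S.hc
    (g := fun _ σ => spin σ r) (fun _ => measurable_const) (B := 1) (a := a)
    (fun _ σ => M8_abs_spin σ r) (by simpa using ha) hs
  have h3 : testG (ρ := S.ρ) r 0 a s = fun _ σ c => a * sgn (c s) * spin σ r := by
    funext y σ c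
    simp [testG]
  rw [mul_one] at h1
  rw [h3]
  exact h1

theorem M8_avg {ι T : Type} [Fintype ι] [Fintype T] [DecidableEq T] (p : ι → T) {n : ℕ}
    (hn : Fintype.card ι = n) (h0 : 0 < n) {u : ι → ℝ} {τ w : T → ℝ} {ε ε' Q : ℝ} (hQ : 0 ≤ Q)
    (hu : ∀ i, |u i - τ (p i)| ≤ ε) (hτ : ∀ b, |τ b| ≤ Q)
    (hw : ∑ b, |((Finset.univ.filter fun i => p i = b).card : ℝ) / n - w b| ≤ ε') :
    |(∑ i, u i) / n - ∑ b, w b * τ b| ≤ ε + Q * ε' := by
  have hn' : (0 : ℝ) < n := by exact_mod_cast h0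
  have h1 : ∑ i, τ (p i) = ∑ b, ((Finset.univ.filter fun i => p i = b).card : ℝ) * τ b := by
    rw [← Finset.sum_fiberwise Finset.univ p]
    refine Finset.sum_congr rfl fun b _ => ?_
    rw [Finset.sum_congr rfl fun i hi => congrArg τ (Finset.mem_filter.1 hi).2]
    simp
  have h2 : |(∑ i, u i) / n - (∑ i, τ (p i)) / n| ≤ ε := by
    rw [← sub_div, abs_div, abs_of_pos hn', div_le_iff₀ hn', ← Finset.sum_sub_distrib]
    refine (Finset.abs_sum_le_sum_abs _ _).trans ((Finset.sum_le_sum fun i _ => hu i).trans ?_)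
    simp [hn, mul_comm]
  have h3 : |(∑ i, τ (p i)) / n - ∑ b, w b * τ b| ≤ Q * ε' := by
    rw [h1, Finset.sum_div, ← Finset.sum_sub_distrib]
    refine (Finset.abs_sum_le_sum_abs _ _).trans (le_trans ?_ (mul_le_mul_of_nonneg_left hw hQ))
    rw [Finset.mul_sum]
    refine Finset.sum_le_sum fun b _ => ?_
    rw [mul_div_right_comm, ← sub_mul, abs_mul, mul_comm]
    exact mul_le_mul_of_nonneg_right (hτ b) (abs_nonneg _)
  exact (abs_sub_le _ _ _).trans (add_le_add h2 h3)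

theorem M8_sum_small {T : Type} [Fintype T] {x : ℕ → T → ℝ} {w : T → ℝ}
    (h : ∀ b, Tendsto (fun N => x N b) atTop (𝓝 (w b))) {ε : ℝ} (hε : 0 < ε) :
    ∀ᶠ N in atTop, ∑ b, |x N b - w b| ≤ ε := by
  have h1 : Tendsto (fun N => ∑ b, |x N b - w b|) atTop (𝓝 (∑ b, |w b - w b|)) :=
    tendsto_finsetSum _ fun b _ => ((h b).sub_const _).abs
  simp only [sub_self, abs_zero, Finset.sum_const_zero] at h1
  exact h1.eventually_le_const hε

theorem M8_tau (k : ℕ) (b : ℝ) (h : ℕ → ℝ) {s : ℕ} (hs : s ≤ k) :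
    |1 - ∑ i ∈ Finset.range s, osP k b h (i + 1) / (k + 1)| ≤ 1 := by
  have hk : (0 : ℝ) < k + 1 := by positivity
  have h1 : 0 ≤ ∑ i ∈ Finset.range s, osP k b h (i + 1) / (k + 1) :=
    Finset.sum_nonneg fun i _ => div_nonneg (osP_bounds k b h _).1 hk.le
  have h2 : ∑ i ∈ Finset.range s, osP k b h (i + 1) / (k + 1) ≤
      ∑ _i ∈ Finset.range s, 1 / (k + 1 : ℝ) :=
    Finset.sum_le_sum fun i _ => div_le_div_of_nonneg_right (osP_bounds k b h _).2 hk.le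
  have h3 : ∑ _i ∈ Finset.range s, 1 / (k + 1 : ℝ) ≤ 1 := by
    have : (s : ℝ) ≤ k := by exact_mod_cast hs
    rw [Finset.sum_const, Finset.card_range, nsmul_eq_mul, mul_one_div, div_le_one hk]
    linarith
  rw [abs_le]
  constructor <;> linarith

theorem pen_tail (hsp : IsSp γ l) (hO : IsDiagO γ l O α β) (hγ' : ∀ a, 0 < γ' a)
    (hm : ∀ a, |m a| ≤ 1) (hκ : 0 ≤ κp) {e : ℝ} (he : 0 < e) : ∃ k₀ : ℕ, ∀ k ≥ k₀, ∀ R : ℝ,
      ∃ δ₀ : ℝ, 0 < δ₀ ∧ ∀ (δ : ℝ) (S : ℕ → BS κ J) (ϑ c : ℕ → PI κ J k → ℝ) (q : ℕ → ℕ → ℝ),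
      TS k γ R δ S ϑ c q → RegG S γ' → (∀ N, (S N).IsPen κp m) → (∀ N, Close (ϑ N) l δ₀) →
      ∀ᶠ N in atTop, ∀ s ≤ k, |ptail k (img k γ l (q N)) s - ∑ a, γ' a *
        (1 - ∑ i ∈ Finset.range s,
          osP k (beff (ϑ N) (c N) κp γ' m a) (heff (ϑ N) α β (q N)) (i + 1) / (k + 1))| ≤ e := by
  set a₂ : ℝ := min 1 (e / 6400) with ha₂
  have h0 : 0 < a₂ := lt_min one_pos (by positivity)
  have h1 : |a₂| ≤ 1 := by rw [abs_of_pos h0]; exact min_le_left _ _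
  have h2 : a₂ ≤ e / 6400 := min_le_right _ _
  set Γ : ℝ := ∑ j, (γ j)⁻¹ with hΓ
  have hΓ1 : ∀ j, (γ j)⁻¹ ≤ Γ := fun j => Finset.single_le_sum (f := fun j => (γ j)⁻¹)
    (fun j _ => (inv_pos.2 (hsp.1 j)).le) (Finset.mem_univ j)
  have hΓ0 : 0 < Γ := (inv_pos.2 (hsp.1 none)).trans_le (hΓ1 none)
  have hQ : 0 < 2 / γ none := div_pos two_pos (hsp.1 none)
  have he' : 0 < e / (8 * Γ) := by positivity
  obtain ⟨k₁, hk₁⟩ := pen_cav hsp hO hγ' hm hκ (e := a₂ ^ 2 * e / 32) (by positivity)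
  obtain ⟨k₂, hk₂⟩ := ward (J := J) hsp.1 (∑ a, (l none - l (some a))) he'
  refine ⟨max k₁ k₂, fun k hk R => ?_⟩
  obtain ⟨δ₁, hδ₁, H₁⟩ := hk₁ k (le_of_max_le_left hk) R
  obtain ⟨δ₂, hδ₂, H₂⟩ := hk₂ k (le_of_max_le_right hk) R
  refine ⟨min δ₁ δ₂, lt_min hδ₁ hδ₂, fun δ S ϑ c q hT hG hp hcl => ?_⟩
  obtain ⟨α₀, hα₀, hlo⟩ := hT.tp.lo
  filter_upwards [H₁ δ S ϑ c q hT hG hp fun N => M8_close (hcl N) (min_le_left _ _),
    H₂ δ S ϑ c q (fun _ => l) hT (fun N => M8_close (hcl N) (min_le_right _ _))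
      fun _ => M8_gaps hsp,
    sl_approx hsp.1 hT.reg hT.touch hT.pos hT.tp.bϑ hα₀ hlo he',
    hT.reg.1.eventually_gt_atTop 0,
    M8_sum_small hT.reg.2 (ε := e / 4 / (2 / γ none)) (by positivity),
    M8_sum_small hG (ε := e / 4) (by positivity)] with N g1 g2 g3 g4 g5 g6 s hs
  have a1 := M8_avg (S N).grp (n := (S N).N) rfl g4
    (u := fun r => (S N).atl k (ϑ N) s fun _ σ => spin σ r)
    (τ := fun a => 1 - ∑ i ∈ Finset.range s,
      osP k (beff (ϑ N) (c N) κp γ' m a) (heff (ϑ N) α β (q N)) (i + 1) / (k + 1))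
    (ε := e / 4) zero_le_one (fun r => by
      have g7 := g1 r 0 0 0 (by simp) (by simp) (Nat.zero_le _)
      have g8 := g1 r 0 a₂ s (by simp) h1 hs
      rw [M8_testG_zero, M8_fx_zero, add_zero, osT_zero] at g7
      rw [add_zero] at g8
      have g9 := M8_test2 (S N) (ϑ N) r h1 hs
      have g10 := osT_test (k := k) (b := beff (ϑ N) (c N) κp γ' m ((S N).grp r))
        (h := heff (ϑ N) α β (q N)) h1 hs
      have h3 : 0 < a₂ ^ 2 / 2 := by positivity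
      refine le_of_mul_le_mul_left ?_ h3
      rw [abs_of_pos h0] at g9 g10
      rw [← abs_of_pos h3, ← abs_mul, abs_of_pos h3, mul_sub]
      have : 400 * a₂ ^ 3 ≤ a₂ ^ 2 * e / 16 := by nlinarith [sq_nonneg a₂]
      rw [abs_le] at g7 g8 g9 g10 ⊢
      constructor <;> linarith [g7.1, g7.2, g8.1, g8.2, g9.1, g9.2, g10.1, g10.2])
    (fun a => M8_tau _ _ _ hs) g6
  have a2 := M8_avg (S N).part (n := (S N).N) (S N).hc g4
    (u := fun i => (S N).atl k (ϑ N) s fun y _ => y i)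
    (τ := fun j => ptail k (tq k (l none - l j) (q N)) s)
    (ε := e / 4) hQ.le (fun i => by
      have g7 := g2 ((S N).part i) s hs
      have g8 := g3 i s hs
      have h3 := hsp.1 ((S N).part i)
      refine le_of_mul_le_mul_left ?_ h3
      rw [← abs_of_pos h3, ← abs_mul, abs_of_pos h3, mul_sub]
      have h4 : 2 * (e / (8 * Γ)) ≤ γ ((S N).part i) * (e / 4) := by
        have h5 : 1 ≤ γ ((S N).part i) * Γ := by
          have := mul_le_mul_of_nonneg_left (hΓ1 ((S N).part i)) h3.le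
          rwa [mul_inv_cancel₀ h3.ne'] at this
        rw [← mul_div_assoc, div_le_iff₀ (by positivity)]
        nlinarith
      rw [abs_le] at g7 g8 ⊢
      constructor <;> linarith [g7.1, g7.2, g8.1, g8.2])
    (fun j => by
      have hΔ : 0 ≤ l none - l j := by
        rcases j with _ | a
        · simp
        · exact (M8_gaps hsp a).1
      have h3 := (hT.tp.prof N).tq hΔ
      have h4 := h3.ptail_bounds (s := s) (by omega)
      rw [abs_of_nonneg h4.1]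
      exact h4.2.trans h3.2.2.2) g5
  have a3 := gtl_orth (k := k) (π := (S N).π) (La := uLv) (E0 := (S N).E0 (ϑ N))
    (Λ := (S N).Λ (ϑ N)) (𝔞 := (S N).A (ϑ N)) (S N).hc gok_zero (s := s) (by omega)
  simp only [BS.atl] at a1 a2
  rw [a3] at a1
  rw [mul_div_cancel₀ _ hQ.ne'] at a2
  rw [ptail_img hsp]
  rw [abs_le] at a1 a2 ⊢
  constructor <;> linarith [a1.1, a1.2, a2.1, a2.2]

end Crest.Agent.R164
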