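import Crest.Agent.R164.Max
import Crest.Agent.R164.M8
import Crest.Agent.R164.LowAlg

/-!
# Row 164: Lower
**Lower bound (Aizenman–Sims–Starr).**
`low_step`: `low_alg` fed by `pen_mag`, `pen_tail`, `TS.dbar_small` (`∑ γ'|d| ≤ √(∑ γ' d²) ≤ √((2B+10)/κp)`).
`lower`: take `M` from `exists_period`, enumerations `js, as : Fin M → _`; counts after `t` blocks and `i ≤ M` steps
`n t i j = t * nM j + #{i' < i | js i' = j}`; `S i t = can … (n t i) (g t i)`.  `ϑ₀ = mkP k l α₀ 0` (constant `α₀ > 0`,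
`k (2α₀)² ≤ min 1 e`), `exists_max` with `W = Unit` for `(S 0 t).f k / N` gives `u t`, the maximum `Q t / (tM)`;
`touch_of_max`, `exists_prof`, `near_of_reg` + `TS.near` for each `i`, `pen_step` for `S (i+1)` summed over
`i < M`, `low_step`: `Q (t+1) - Q t ≥ M (v - 3e)` eventually.  Telescope, `Q t ≤ f ϑ₀ + δ L² |P| N` (`f_lip`),
`f_amp_zero`; finally compare an arbitrary `S N` with `S 0 (N/M)` (`near_of_reg` along `t = (S N).N / M`, `f_eq_Z`).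
Order: `e → κ₀`; `κp → k → α₀, R → δ₀ → δ`.
-/

set_option autoImplicit false
set_option linter.unusedSectionVars false

open MeasureTheory ProbabilityTheory Filter Topology
open scoped ENNReal BigOperators Matrix

noncomputable section

namespace Crest.Agent.R164

open Crest.ProbabilityR.InvariantGlass

variable {κ : Type} [Fintype κ] [DecidableEq κ] {γ l : Option κ → ℝ}

theorem low_fibers {ι : Type} [Fintype ι] [DecidableEq ι] (n : ι → ℕ) {M : ℕ} (h : ∑ j, n j = M) :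
    ∃ js : Fin M → ι, ∀ j, (Finset.univ.filter fun i => js i = j).card = n j := by
  have hc : Fintype.card (Σ j, Fin (n j)) = M := by simpa [Fintype.card_sigma] using h
  let e : (Σ j, Fin (n j)) ≃ Fin M := Fintype.equivFinOfCardEq hc
  refine ⟨fun i => (e.symm i).1, fun j => ?_⟩
  rw [Finset.card_filter, Equiv.sum_comp e.symm (fun x : (Σ j, Fin (n j)) => if x.1 = j then 1 else 0),
    Fintype.sum_sigma, Finset.sum_eq_single j (fun b _ hb => by simp [hb]) (by simp)]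
  simp

theorem low_den {ι : Type} [Fintype ι] [DecidableEq ι] {γ₁ : ι → ℚ} (h₁ : ∀ j, 0 ≤ γ₁ j)
    (s₁ : ∑ j, γ₁ j = 1) {M : ℕ} (hM : ∀ j, (γ₁ j).den ∣ M) :
    ∃ js : Fin M → ι, ∀ j, ((Finset.univ.filter fun i => js i = j).card : ℚ) = M * γ₁ j := by
  have hn : ∀ j, ∃ n : ℕ, (n : ℚ) = M * γ₁ j := fun j => by
    obtain ⟨d, hd⟩ := hM j
    refine ⟨d * (γ₁ j).num.toNat, ?_⟩
    have h2 : (((γ₁ j).num.toNat : ℕ) : ℚ) = ((γ₁ j).num : ℚ) := by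
      have := Int.toNat_of_nonneg (Rat.num_nonneg.2 (h₁ j))
      exact_mod_cast congrArg (fun z : ℤ => (z : ℚ)) this
    have h3 : ((γ₁ j).den : ℚ) * γ₁ j = (γ₁ j).num := Rat.den_mul_eq_num _
    rw [hd]; push_cast; rw [h2, ← h3]; ring
  choose n hn using hn
  have hs : ∑ j, n j = M := by
    have : ((∑ j, n j : ℕ) : ℚ) = M := by
      push_cast; simp only [hn, ← Finset.mul_sum, s₁, mul_one]
    exact_mod_cast this
  obtain ⟨js, hjs⟩ := low_fibers n hs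
  exact ⟨js, fun j => by rw [hjs, hn]⟩

theorem exists_period {ι ι' : Type} [Fintype ι] [DecidableEq ι] [Fintype ι'] [DecidableEq ι']
    {γ₁ : ι → ℚ} {γ₂ : ι' → ℚ} (h₁ : ∀ j, 0 ≤ γ₁ j) (h₂ : ∀ j, 0 ≤ γ₂ j) (s₁ : ∑ j, γ₁ j = 1)
    (s₂ : ∑ j, γ₂ j = 1) : ∃ (M : ℕ) (js : Fin M → ι) (as : Fin M → ι'), 0 < M ∧
      (∀ j, ((Finset.univ.filter fun i => js i = j).card : ℚ) = M * γ₁ j) ∧
      ∀ a, ((Finset.univ.filter fun i => as i = a).card : ℚ) = M * γ₂ a := by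
  obtain ⟨js, hjs⟩ := low_den h₁ s₁ (M := (∏ j, (γ₁ j).den) * ∏ a, (γ₂ a).den) fun j =>
    (Finset.dvd_prod_of_mem (fun j => (γ₁ j).den) (Finset.mem_univ j)).mul_right _
  obtain ⟨as, has⟩ := low_den h₂ s₂ (M := (∏ j, (γ₁ j).den) * ∏ a, (γ₂ a).den) fun j =>
    (Finset.dvd_prod_of_mem (fun j => (γ₂ j).den) (Finset.mem_univ j)).mul_left _
  exact ⟨_, js, as, Nat.mul_pos (Finset.prod_pos fun j _ => (γ₁ j).den_pos)
    (Finset.prod_pos fun j _ => (γ₂ j).den_pos), hjs, has⟩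

theorem low_close_mono {J : Type} {k : ℕ} {ϑ : PI κ J k → ℝ} {a b : ℝ} (h : Close ϑ l a) (hab : a ≤ b) :
    Close ϑ l b := ⟨fun j => (h.1 j).trans hab, fun j s => (h.2 j s).trans hab⟩

theorem low_abs_m {J : ℕ} {m : Fin J → ℚ} (hm : ∀ a, (-1 : ℚ) < m a ∧ m a < 1) (a : Fin J) :
    |(m a : ℝ)| ≤ 1 := by
  have h1 : (-1 : ℝ) < m a := by exact_mod_cast (hm a).1
  have h2 : (m a : ℝ) < 1 := by exact_mod_cast (hm a).2
  exact abs_le.2 ⟨h1.le, h2.le⟩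

theorem low_step (hsp : IsSp γ l) {O : Orth (Option κ) (Option κ)} {α β : κ → ℝ}
    (hO : IsDiagO γ l O α β) {J : ℕ} {γ' m : Fin J → ℚ} (hγ' : ∀ a, 0 < γ' a) (h1 : ∑ a, γ' a = 1)
    (hm : ∀ a, (-1 : ℚ) < m a ∧ m a < 1) {v : ℝ}
    (hv : (v : EReal) ≤ ⨅ (p : ℝ → ℝ) (_ : IsTrialPath p), constrainedEntropyPart γ' m p +
      ((spectralPart (disc γ l) (l none) p : ℝ) : EReal)) {e : ℝ} (he : 0 < e) :
    ∃ κ₀ : ℝ, 0 < κ₀ ∧ ∀ κp ≥ κ₀, ∃ k₀ : ℕ, ∀ k ≥ k₀, ∀ R : ℝ, ∃ δ₀ : ℝ, 0 < δ₀ ∧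
      ∀ (δ Am : ℝ) (S : ℕ → BS κ (Fin J)) (ϑ c : ℕ → PI κ (Fin J) k → ℝ) (q : ℕ → ℕ → ℝ),
      TS k γ R δ S ϑ c q → RegG S (fun a => (γ' a : ℝ)) →
      (∀ N, (S N).IsPen κp (fun a => (m a : ℝ))) → (∀ N, Close (ϑ N) l δ₀) →
      (∀ N a, |fld (ϑ N) a| ≤ δ₀) → (∀ N j s, |amp (ϑ N) j s| ≤ Am) → k * Am ^ 2 ≤ 1 →
      ∀ᶠ N in atTop, v - e ≤ ∑ j, ∑ a, γ j * (γ' a : ℝ) *
        stepV (ϑ N) (c N) κp (fun a => (γ' a : ℝ)) (fun a => (m a : ℝ)) γ l α β (q N) j a := by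
  obtain ⟨e', he', H⟩ := low_alg hsp hO hγ' h1 hm hv (2 / γ none) he
  have hγr : ∀ a, (0 : ℝ) < (γ' a : ℝ) := fun a => by exact_mod_cast hγ' a
  have h1r : ∑ a, (γ' a : ℝ) = 1 := by exact_mod_cast h1
  have hmr := low_abs_m hm
  set B : ℝ := ∑ j, |l j| + 1 with hBdef
  have hB0 : 0 < B := by positivity
  refine ⟨(2 * B + 10) / e' ^ 2, by positivity, fun κp hκp => ?_⟩
  have hκ0 : 0 < κp := lt_of_lt_of_le (by positivity) hκp
  obtain ⟨k₁, H1⟩ := pen_mag (γ' := fun a => (γ' a : ℝ)) (m := fun a => (m a : ℝ)) hsp hO hγr hmr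
    hκ0.le he'
  obtain ⟨k₂, H2⟩ := pen_tail (γ' := fun a => (γ' a : ℝ)) (m := fun a => (m a : ℝ)) hsp hO hγr hmr
    hκ0.le he'
  refine ⟨max k₁ k₂, fun k hk R => ?_⟩
  obtain ⟨δ₁, hδ₁, H1⟩ := H1 k (le_of_max_le_left hk) R
  obtain ⟨δ₂, hδ₂, H2⟩ := H2 k (le_of_max_le_right hk) R
  refine ⟨min (min δ₁ δ₂) (min e' 1), by positivity,
    fun δ Am S ϑ c q hTS hG hpen hcl hf hA hkA => ?_⟩
  have l1 : min (min δ₁ δ₂) (min e' 1) ≤ δ₁ := (min_le_left _ _).trans (min_le_left _ _)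
  have l2 : min (min δ₁ δ₂) (min e' 1) ≤ δ₂ := (min_le_left _ _).trans (min_le_right _ _)
  have l3 : min (min δ₁ δ₂) (min e' 1) ≤ e' := (min_le_right _ _).trans (min_le_left _ _)
  have l4 : min (min δ₁ δ₂) (min e' 1) ≤ 1 := (min_le_right _ _).trans (min_le_right _ _)
  have hlam : ∀ N j, |lam (ϑ N) j| ≤ B := fun N j => by
    have a1 := ((hcl N).1 j).trans l4
    have a2 : |l j| ≤ ∑ j, |l j| :=
      Finset.single_le_sum (f := fun j => |l j|) (fun _ _ => abs_nonneg _) (Finset.mem_univ j)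
    have a3 := abs_sub_abs_le_abs_sub (lam (ϑ N) j) (l j)
    linarith
  have E3 := hTS.dbar_small (hsp.1 none) hG hγr hκ0.le hmr hpen hlam
    (fun N a => (hf N a).trans l4) hA hkA
  filter_upwards [H1 δ S ϑ c q hTS hG hpen fun N => low_close_mono (hcl N) l1,
    H2 δ S ϑ c q hTS hG hpen fun N => low_close_mono (hcl N) l2, E3] with N e1 e2 e3
  refine H k (ϑ N) (c N) (q N) κp hκ0.le (hTS.tp.prof N) (((hcl N).1 none).trans l3)
    (fun a => (hf N a).trans l3) ?_ e1 e2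
  set d := dbar (c N) (fun a => (γ' a : ℝ)) (fun a => (m a : ℝ)) with hd
  have e4 : ∑ a, (γ' a : ℝ) * d a ^ 2 ≤ e' ^ 2 := by
    have : 2 * B + 10 ≤ κp * e' ^ 2 := (div_le_iff₀ (by positivity)).1 hκp
    exact le_of_mul_le_mul_left (e3.trans this) hκ0
  have e5 : ∑ a, (γ' a : ℝ) * |d a| ≤ ∑ a, ((γ' a : ℝ) * d a ^ 2 / (2 * e') + γ' a * (e' / 2)) := by
    refine Finset.sum_le_sum fun a _ => ?_
    have : |d a| ≤ d a ^ 2 / (2 * e') + e' / 2 := by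
      rw [div_add' _ _ _ (by positivity), le_div_iff₀ (by positivity), ← sq_abs (d a)]
      nlinarith [sq_nonneg (|d a| - e')]
    calc (γ' a : ℝ) * |d a| ≤ γ' a * (d a ^ 2 / (2 * e') + e' / 2) :=
          mul_le_mul_of_nonneg_left this (hγr a).le
      _ = _ := by ring
  rw [Finset.sum_add_distrib, ← Finset.sum_div, ← Finset.sum_mul, h1r] at e5
  have e6 : (∑ a, (γ' a : ℝ) * d a ^ 2) / (2 * e') ≤ e' / 2 := by
    rw [div_le_iff₀ (by positivity)]; nlinarith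
  linarith

/-! ### Elementary lemmas on sequences -/

theorem low_tele {Q : ℕ → ℝ} {w e : ℝ} (he : 0 < e) (h : ∀ᶠ t in atTop, w ≤ Q (t + 1) - Q t) :
    ∀ᶠ t : ℕ in atTop, t * (w - e) ≤ Q t := by
  obtain ⟨t₀, h⟩ := eventually_atTop.1 h
  have h1 : ∀ n : ℕ, Q t₀ + n * w ≤ Q (t₀ + n) := fun n => by
    induction n with
    | zero => simp
    | succ n ih =>
      have := h (t₀ + n) (Nat.le_add_right _ _)
      rw [← add_assoc]; push_cast; linarith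
  have h2 : ∀ᶠ t : ℕ in atTop, t₀ * w - Q t₀ ≤ t * e :=
    (tendsto_natCast_atTop_atTop.atTop_mul_const he).eventually_ge_atTop _
  filter_upwards [h2, eventually_ge_atTop t₀] with t ht ht'
  obtain ⟨n, rfl⟩ := Nat.exists_eq_add_of_le ht'
  have := h1 n
  push_cast at ht ⊢
  nlinarith

theorem low_ratio {x : ℕ → ℝ} {b : ℕ → ℕ} {c C : ℝ} (hb : Tendsto b atTop atTop)
    (h : ∀ N, |x N - b N * c| ≤ C) : Tendsto (fun N => x N / b N) atTop (𝓝 c) := by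
  have hb' : Tendsto (fun N => (b N : ℝ)) atTop atTop := tendsto_natCast_atTop_atTop.comp hb
  rw [tendsto_iff_norm_sub_tendsto_zero]
  refine squeeze_zero' (Eventually.of_forall fun _ => norm_nonneg _) ?_ (hb'.const_div_atTop C)
  filter_upwards [hb'.eventually_gt_atTop 0] with N hN
  have : x N / b N - c = (x N - b N * c) / b N := by field_simp
  rw [this, Real.norm_eq_abs, abs_div, abs_of_pos hN]
  exact div_le_div_of_nonneg_right (h N) hN.le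

theorem low_bal {a : ℕ → ℝ} {M : ℕ} (hM : 0 < M) (ha : ∀ n, |a n| ≤ 1)
    (h : ∀ t, ∑ i ∈ Finset.range M, a (t * M + i) = 0) (N : ℕ) : |∑ n ∈ Finset.range N, a n| ≤ M := by
  have h1 : ∀ t, ∑ n ∈ Finset.range (t * M), a n = 0 := fun t => by
    induction t with
    | zero => simp
    | succ t ih => rw [Nat.succ_mul, Finset.sum_range_add, ih, h t, add_zero]
  have h2 : N = N / M * M + N % M := (Nat.div_add_mod' N M).symm
  rw [h2, Finset.sum_range_add, h1, zero_add]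
  refine (Finset.abs_sum_le_sum_abs _ _).trans ((Finset.sum_le_sum fun i _ => ha _).trans ?_)
  simp only [Finset.sum_const, Finset.card_range, nsmul_eq_mul, mul_one]
  exact_mod_cast (Nat.mod_lt N hM).le

/-- counts along a sequence of labels -/
def lowCn {ι : Type} [DecidableEq ι] (js : ℕ → ι) (N : ℕ) (j : ι) : ℕ :=
  ∑ i ∈ Finset.range N, if js i = j then 1 else 0

theorem lowCn_sum {ι : Type} [Fintype ι] [DecidableEq ι] (js : ℕ → ι) (N : ℕ) :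
    ∑ j, lowCn js N j = N := by
  unfold lowCn
  rw [Finset.sum_comm]
  simp

theorem lowCn_dec {ι : Type} [DecidableEq ι] (js : ℕ → ι) (N : ℕ) :
    dec (lowCn js (N + 1)) (js N) = lowCn js N := by
  funext j
  by_cases h : j = js N
  · subst h
    rw [dec, Function.update_self, lowCn, lowCn, Finset.sum_range_succ, if_pos rfl,
      Nat.add_sub_cancel]
  · rw [dec, Function.update_of_ne h, lowCn, lowCn, Finset.sum_range_succ, if_neg (Ne.symm h),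
      add_zero]

theorem low_periodic {ι : Type} [Fintype ι] [DecidableEq ι] {M : ℕ} (hM : 0 < M) (js : Fin M → ι)
    {g : ι → ℝ} (h : ∀ j, ((Finset.univ.filter fun i => js i = j).card : ℝ) = M * g j) (t : ℕ)
    (F : ι → ℝ) : ∑ i ∈ Finset.range M, F (js ⟨(t * M + i) % M, Nat.mod_lt _ hM⟩) =
      M * ∑ j, g j * F j := by
  rw [Finset.sum_range]
  have h1 : ∀ i : Fin M, (⟨(t * M + i) % M, Nat.mod_lt _ hM⟩ : Fin M) = i := fun i => by
    ext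
    simp [Nat.mod_eq_of_lt i.2]
  simp only [h1]
  rw [← Finset.sum_fiberwise Finset.univ js, Finset.mul_sum]
  refine Finset.sum_congr rfl fun j _ => ?_
  rw [Finset.sum_congr rfl (g := fun _ => F j) fun i hi => by rw [(Finset.mem_filter.1 hi).2],
    Finset.sum_const, nsmul_eq_mul, h, mul_assoc]

theorem lowCn_tendsto {ι : Type} [Fintype ι] [DecidableEq ι] {M : ℕ} (hM : 0 < M) {js : ℕ → ι}
    {g : ι → ℝ} (hg : ∀ j, 0 ≤ g j) (hs : ∑ j, g j = 1)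
    (h : ∀ (t : ℕ) (F : ι → ℝ), ∑ i ∈ Finset.range M, F (js (t * M + i)) = M * ∑ j, g j * F j)
    (j : ι) : Tendsto (fun N : ℕ => (lowCn js N j : ℝ) / N) atTop (𝓝 (g j)) := by
  have hg1 : g j ≤ 1 := hs ▸ Finset.single_le_sum (fun j _ => hg j) (Finset.mem_univ j)
  refine low_ratio (b := id) (C := M) tendsto_id fun N => ?_
  have := low_bal (a := fun n => (if js n = j then 1 else 0) - g j) hM
    (fun n => by have := hg j; split_ifs <;> rw [abs_le] <;> constructor <;> linarith)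
    (fun t => by
      rw [Finset.sum_sub_distrib, h t (fun j' => if j' = j then 1 else 0)]
      simp) N
  rw [Finset.sum_sub_distrib] at this
  simpa [lowCn] using this

theorem low_seq {J : Type} [Fintype J] [DecidableEq J] {γq : Option κ → ℚ} {γ' : J → ℚ}
    (h₁ : ∀ j, 0 ≤ γq j) (h₂ : ∀ j, 0 ≤ γ' j) (s₁ : ∑ j, γq j = 1) (s₂ : ∑ j, γ' j = 1) (κp : ℝ)
    (m : J → ℝ) : ∃ (M : ℕ) (T : ℕ → BS κ J) (js : ℕ → Option κ) (as : ℕ → J), 0 < M ∧
      (∀ N, (T N).IsPen κp m) ∧ (∀ N, (T N).N = N) ∧ Reg T (fun j => (γq j : ℝ)) ∧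
      RegG T (fun a => (γ' a : ℝ)) ∧ (∀ N, dec (T (N + 1)).nb (js N) = (T N).nb) ∧
      (∀ N, dec (T (N + 1)).ng (as N) = (T N).ng) ∧
      (∀ (t : ℕ) (F : Option κ → ℝ), ∑ i ∈ Finset.range M, F (js (t * M + i)) =
        M * ∑ j, (γq j : ℝ) * F j) ∧
      ∀ (t : ℕ) (F : J → ℝ), ∑ i ∈ Finset.range M, F (as (t * M + i)) =
        M * ∑ a, (γ' a : ℝ) * F a := by
  obtain ⟨M, js, as, hM, hjs, has⟩ := exists_period h₁ h₂ s₁ s₂
  let js' : ℕ → Option κ := fun n => js ⟨n % M, Nat.mod_lt _ hM⟩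
  let as' : ℕ → J := fun n => as ⟨n % M, Nat.mod_lt _ hM⟩
  have hj : ∀ (t : ℕ) (F : Option κ → ℝ), ∑ i ∈ Finset.range M, F (js' (t * M + i)) =
      M * ∑ j, (γq j : ℝ) * F j := low_periodic hM js fun j => by exact_mod_cast hjs j
  have ha : ∀ (t : ℕ) (F : J → ℝ), ∑ i ∈ Finset.range M, F (as' (t * M + i)) =
      M * ∑ j, (γ' j : ℝ) * F j := low_periodic hM as fun j => by exact_mod_cast has j
  have hsum : ∀ N, ∑ j, lowCn js' N j = ∑ a, lowCn as' N a := fun N => by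
    rw [lowCn_sum, lowCn_sum]
  have hN : ∀ N, (can κp m (lowCn js' N) (lowCn as' N) (hsum N)).N = N := fun N => by
    rw [can_N, lowCn_sum]
  refine ⟨M, fun N => can κp m (lowCn js' N) (lowCn as' N) (hsum N), js', as', hM,
    fun N => can_isPen _ _ _, hN, ⟨?_, fun j => ?_⟩, fun a => ?_, fun N => ?_, fun N => ?_, hj, ha⟩
  · simp only [hN]; exact tendsto_id
  · simp only [hN, can_nb]
    exact lowCn_tendsto (g := fun j => (γq j : ℝ)) hM (fun j => by exact_mod_cast h₁ j)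
      (by exact_mod_cast s₁) hj j
  · simp only [hN, can_ng]
    exact lowCn_tendsto (g := fun j => (γ' j : ℝ)) hM (fun j => by exact_mod_cast h₂ j)
      (by exact_mod_cast s₂) ha a
  · simp only [can_nb, lowCn_dec]
  · simp only [can_ng, lowCn_dec]

theorem low_reg_comp {J : Type} [DecidableEq J] {S : ℕ → BS κ J} (h : Reg S γ) {τ : ℕ → ℕ}
    (hτ : Tendsto τ atTop atTop) : Reg (fun N => S (τ N)) γ :=
  ⟨h.1.comp hτ, fun j => (h.2 j).comp hτ⟩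

theorem low_regG_comp {J : Type} [DecidableEq J] {S : ℕ → BS κ J} {γ' : J → ℝ} (h : RegG S γ')
    {τ : ℕ → ℕ} (hτ : Tendsto τ atTop atTop) : RegG (fun N => S (τ N)) γ' :=
  fun j => (h j).comp hτ

theorem low_tendsto_mul {M : ℕ} (hM : 0 < M) (i : ℕ) :
    Tendsto (fun t : ℕ => t * M + i) atTop atTop :=
  tendsto_atTop_mono (fun t => (Nat.le_mul_of_pos_right t hM).trans (Nat.le_add_right _ _))
    tendsto_id

theorem low_sum_stepV {J : Type} [Fintype J] [DecidableEq J] {γ' : J → ℝ} (hγ : ∑ j, γ j = 1)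
    (hγ' : ∑ a, γ' a = 1) {M : ℕ} {js : ℕ → Option κ} {as : ℕ → J}
    (hj : ∀ F : Option κ → ℝ, ∑ i ∈ Finset.range M, F (js i) = M * ∑ j, γ j * F j)
    (ha : ∀ F : J → ℝ, ∑ i ∈ Finset.range M, F (as i) = M * ∑ a, γ' a * F a)
    (A : J → ℝ) (B : Option κ → ℝ) :
    ∑ i ∈ Finset.range M, (A (as i) - B (js i)) = M * ∑ j, ∑ a, γ j * γ' a * (A a - B j) := by
  rw [Finset.sum_sub_distrib, ha, hj, ← mul_sub]
  congr 1
  have h1 : ∀ j, ∑ a, γ j * γ' a * (A a - B j) = γ j * ∑ a, γ' a * A a - γ j * B j := fun j => by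
    have : ∀ a, γ j * γ' a * (A a - B j) = γ j * (γ' a * A a) - γ j * B j * γ' a := fun a => by ring
    simp only [this]
    rw [Finset.sum_sub_distrib, ← Finset.mul_sum, ← Finset.mul_sum, hγ', mul_one]
  simp only [h1]
  rw [Finset.sum_sub_distrib, ← Finset.sum_mul, hγ, one_mul]

theorem low_max {J : Type} [Fintype J] [DecidableEq J] {k : ℕ} (S : BS κ J) {ϑ₀ : PI κ J k → ℝ}
    {R₀ δ : ℝ} (hR : ∀ θ, |ϑ₀ θ| ≤ R₀) (hδ : 0 < δ) :
    ∃ u : PI κ J k → ℝ, (∀ θ, |u θ| ≤ δ * (1 + 2 * (R₀ + 1)) * Fintype.card (PI κ J k)) ∧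
      (∑ θ, u θ ^ 2) / δ ≤ δ * (1 + 2 * (R₀ + 1)) ^ 2 * Fintype.card (PI κ J k) ∧
      ∀ u' : PI κ J k → ℝ, (∀ θ, |u' θ| ≤ 1) →
        S.f k (ϑ₀ + u') / S.N - (∑ θ, u' θ ^ 2) / δ ≤
          S.f k (ϑ₀ + u) / S.N - (∑ θ, u θ ^ 2) / δ := by
  have hR0 : 0 ≤ R₀ := (abs_nonneg _).trans (hR (Sum.inl none))
  obtain ⟨-, -, u, -, h2, h3, h4⟩ := exists_max (W := Unit) (K := Set.univ) isCompact_univ
    ⟨(), trivial⟩ (f := fun x => S.f k x / S.N) (S.continuous_f.div_const _)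
    (φ := fun _ => ϑ₀) continuous_const (g := fun _ => 0) continuous_const
    (L := 1 + 2 * (R₀ + 1)) (R := R₀) hδ (by positivity) (fun _ _ => hR) (fun x y hx hy => by
      rcases Nat.eq_zero_or_pos S.N with h0 | h0
      · rw [h0]; simp only [Nat.cast_zero, div_zero, sub_zero, abs_zero]; positivity
      · have h0' : (0 : ℝ) < S.N := by exact_mod_cast h0
        rw [← sub_div, abs_div, abs_of_pos h0', div_le_iff₀ h0']
        exact (S.f_lip hy hx).trans_eq (by ring))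
  exact ⟨u, h2, h3, fun u' hu' => by simpa using h4 () trivial u' hu'⟩

theorem low_core (hsp : IsSp γ l) {J : ℕ} {γ' m : Fin J → ℚ}
    (hγ' : ∀ a, 0 < γ' a) (h1 : ∑ a, γ' a = 1) (hm : ∀ a, (-1 : ℚ) < m a ∧ m a < 1) {v : ℝ}
    (hv : (v : EReal) ≤ ⨅ (p : ℝ → ℝ) (_ : IsTrialPath p), constrainedEntropyPart γ' m p +
      ((spectralPart (disc γ l) (l none) p : ℝ) : EReal)) {e : ℝ} (he : 0 < e) :
    ∃ κ₀ : ℝ, 0 < κ₀ ∧ ∀ κp ≥ κ₀, ∀ (M : ℕ) (T : ℕ → BS κ (Fin J)) (js : ℕ → Option κ)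
      (as : ℕ → Fin J), 0 < M → (∀ N, (T N).IsPen κp (fun a => (m a : ℝ))) → (∀ N, (T N).N = N) →
      Reg T γ → RegG T (fun a => (γ' a : ℝ)) → (∀ N, dec (T (N + 1)).nb (js N) = (T N).nb) →
      (∀ N, dec (T (N + 1)).ng (as N) = (T N).ng) →
      (∀ (t : ℕ) (F : Option κ → ℝ), ∑ i ∈ Finset.range M, F (js (t * M + i)) =
        M * ∑ j, γ j * F j) →
      (∀ (t : ℕ) (F : Fin J → ℝ), ∑ i ∈ Finset.range M, F (as (t * M + i)) =
        M * ∑ a, (γ' a : ℝ) * F a) →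
      ∀ᶠ t : ℕ in atTop, (t * M : ℝ) * (v - 6 * e) ≤ (T (t * M)).Z l := by
  obtain ⟨O, α, β, hO⟩ := exists_diagO hsp
  have hγr : ∀ a, (0 : ℝ) < (γ' a : ℝ) := fun a => by exact_mod_cast hγ' a
  have h1r : ∑ a, (γ' a : ℝ) = 1 := by exact_mod_cast h1
  have hmr := low_abs_m hm
  obtain ⟨κ₀, hκ₀, H1⟩ := low_step hsp hO hγ' h1 hm hv he
  refine ⟨κ₀, hκ₀, fun κp hκp M T js as hM hpen hTN hreg hregG hdn hdg hsj hsa => ?_⟩
  have hκ0 : 0 ≤ κp := hκ₀.le.trans hκp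
  obtain ⟨k₁, H1⟩ := H1 κp hκp
  obtain ⟨k₂, H2⟩ := pen_step (γ' := fun a => (γ' a : ℝ)) (m := fun a => (m a : ℝ)) hsp hO hγr hmr
    hκ0 he
  obtain ⟨k, hk₁, hk₂⟩ : ∃ k, k₁ ≤ k ∧ k₂ ≤ k := ⟨max k₁ k₂, le_max_left _ _, le_max_right _ _⟩
  obtain ⟨α₀, hα₀, hα₁⟩ : ∃ α₀ : ℝ, 0 < α₀ ∧ k * (2 * α₀) ^ 2 ≤ min 1 e := by
    have a0 : 0 < min 1 e := by positivity
    have a1 : min 1 e ≤ 1 := min_le_left _ _
    refine ⟨min 1 e / (2 * (k + 1)), by positivity, ?_⟩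
    have a2 : (k : ℝ) * (2 * (min 1 e / (2 * (k + 1)))) ^ 2 = min 1 e * (min 1 e * k / (k + 1) ^ 2) := by
      field_simp
    rw [a2]
    refine mul_le_of_le_one_right a0.le ?_
    rw [div_le_one (by positivity)]
    have : (0 : ℝ) ≤ k := by positivity
    nlinarith
  obtain ⟨ϑ₀, hϑ₀⟩ : ∃ ϑ₀ : PI κ (Fin J) k → ℝ, ϑ₀ = mkP k l (fun _ _ => α₀) fun _ => 0 := ⟨_, rfl⟩
  obtain ⟨R₀, hR₀⟩ : ∃ R₀ : ℝ, ∀ θ, |ϑ₀ θ| ≤ R₀ := ⟨∑ θ, |ϑ₀ θ|, fun θ =>
    Finset.single_le_sum (f := fun θ => |ϑ₀ θ|) (fun _ _ => abs_nonneg _) (Finset.mem_univ θ)⟩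
  have hR0 : 0 ≤ R₀ := (abs_nonneg _).trans (hR₀ (Sum.inl none))
  obtain ⟨δ₁, hδ₁, H1⟩ := H1 k hk₁ (R₀ + 1)
  obtain ⟨δ₂, hδ₂, H2⟩ := H2 k hk₂ (R₀ + 1)
  obtain ⟨L, hL⟩ : ∃ L : ℝ, L = 1 + 2 * (R₀ + 1) := ⟨_, rfl⟩
  have hL0 : 0 < L := by rw [hL]; positivity
  obtain ⟨P, hP⟩ : ∃ P : ℝ, P = Fintype.card (PI κ (Fin J) k) := ⟨_, rfl⟩
  have hP1 : 1 ≤ P := by
    rw [hP]; exact_mod_cast Fintype.card_pos_iff.2 ⟨Sum.inl none⟩
  obtain ⟨η, hη0, hη1, hη2, hη3, hη4, hη5⟩ : ∃ η : ℝ, 0 < η ∧ η ≤ 1 / 2 ∧ η ≤ α₀ / 2 ∧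
      η ≤ δ₁ / 2 ∧ η ≤ δ₂ / 2 ∧ η ≤ e / (L * P) :=
    ⟨min (1 / 2) (min (α₀ / 2) (min (δ₁ / 2) (min (δ₂ / 2) (e / (L * P))))), by positivity,
      min_le_left _ _, (min_le_right _ _).trans (min_le_left _ _),
      (min_le_right _ _).trans ((min_le_right _ _).trans (min_le_left _ _)),
      (min_le_right _ _).trans ((min_le_right _ _).trans ((min_le_right _ _).trans
        (min_le_left _ _))),
      (min_le_right _ _).trans ((min_le_right _ _).trans ((min_le_right _ _).trans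
        (min_le_right _ _)))⟩
  have hη6 : L * P * η ≤ e := by
    rw [le_div_iff₀ (by positivity)] at hη5; linarith
  obtain ⟨δ, hδ, hδη⟩ : ∃ δ : ℝ, 0 < δ ∧ δ * L * P = η :=
    ⟨η / (L * P), by positivity, by field_simp⟩
  choose u hu1 hu2 hu3 using fun t : ℕ => low_max (T (t * M)) hR₀ hδ
  simp only [← hL, ← hP, hδη] at hu1
  have hu2' : ∀ t, (∑ θ, u t θ ^ 2) / δ ≤ e := fun t => by
    refine (hu2 t).trans ?_
    rw [← hL, ← hP]
    calc δ * L ^ 2 * P = L * 1 * η := by rw [← hδη]; ring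
      _ ≤ L * P * η := by gcongr
      _ ≤ e := hη6
  have hτ0 : Tendsto (fun t : ℕ => t * M) atTop atTop := low_tendsto_mul hM 0
  have hreg0 := low_reg_comp hreg hτ0
  have hregG0 := low_regG_comp hregG hτ0
  have hT : Touch (fun t => T (t * M)) k (fun t => ϑ₀ + u t) (fun t θ => 2 * u t θ / δ) δ :=
    touch_of_max (S := fun t => T (t * M)) (ϑ₀ := fun _ => ϑ₀) hδ
      (fun t θ => (hu1 t θ).trans hη1) (hreg0.1.eventually_gt_atTop 0) hu3
  have hb : ∀ t θ, |(ϑ₀ + u t) θ| ≤ R₀ + 1 := fun t θ =>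
    (abs_add_le _ _).trans (add_le_add (hR₀ θ) ((hu1 t θ).trans (by linarith)))
  have hamp : ∀ t j s, amp (ϑ₀ + u t) j s = (if 1 ≤ s ∧ s ≤ k then α₀ else 0) + amp (u t) j s :=
    fun t j s => by rw [amp_add, hϑ₀, amp_mkP]
  have hampu : ∀ t j s, |amp (u t) j s| ≤ η := fun t j s => abs_amp_le (hu1 t) j s
  obtain ⟨q, hTS⟩ := exists_prof hsp.1 hreg0 hT hδ hb
    ⟨2 * η / δ, fun t θ => by
      rw [abs_div, abs_mul, abs_two, abs_of_pos hδ]
      gcongr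
      exact hu1 t θ⟩
    ⟨α₀ / 2, by positivity, fun t j s h1 h2 => by
      rw [hamp, if_pos ⟨h1, h2⟩]
      linarith [(abs_le.1 (hampu t j s)).1]⟩
  have hcl : ∀ t, Close (ϑ₀ + u t) l (2 * η) := fun t => by
    refine ⟨fun j => ?_, fun j s => ?_⟩
    · have : lam (ϑ₀ + u t) j - l j = u t (Sum.inl j) := by
        rw [hϑ₀]; simp [lam, mkP]
      rw [this]; linarith [hu1 t (Sum.inl j)]
    · rw [hamp, hamp, add_sub_add_left_eq_sub]
      linarith [abs_sub (amp (u t) j s) (amp (u t) none s), hampu t j s, hampu t none s]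
  have E1 := H1 δ (2 * α₀) _ _ _ q hTS hregG0 (fun t => hpen _)
    (fun t => low_close_mono (hcl t) (by linarith))
    (fun t a => by
      have : fld (ϑ₀ + u t) a = u t (Sum.inr (Sum.inr a)) := by
        rw [hϑ₀]; simp [fld, mkP]
      rw [this]; linarith [hu1 t (Sum.inr (Sum.inr a))])
    (fun t j s => by
      rw [hamp]
      have a1 : |if 1 ≤ s ∧ s ≤ k then α₀ else 0| ≤ α₀ := by
        split_ifs
        · rw [abs_of_pos hα₀]
        · rw [abs_zero]; exact hα₀.le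
      linarith [abs_add_le (if 1 ≤ s ∧ s ≤ k then α₀ else 0) (amp (u t) j s), hampu t j s])
    (hα₁.trans (min_le_left _ _))
  have E2 := fun i : ℕ => H2 δ (fun t => T (t * M + i + 1)) _ _ q
    (hTS.near (near_of_reg k hsp.1 hγr hκ0 hmr (fun t => hpen _) (fun t => hpen _) hreg0 hregG0
      (low_reg_comp hreg (low_tendsto_mul hM (i + 1)))
      (low_regG_comp hregG (low_tendsto_mul hM (i + 1)))
      (low_ratio (C := (i + 1 : ℝ)) hreg0.1 fun t => by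
        simp only [hTN]; push_cast
        rw [mul_one, show (t : ℝ) * M + i + 1 - t * M = i + 1 by ring, abs_of_nonneg (by positivity)]))
      (low_reg_comp hreg (low_tendsto_mul hM (i + 1))))
    (low_regG_comp hregG (low_tendsto_mul hM (i + 1))) (fun t => hpen _)
    (fun t => low_close_mono (hcl t) (by linarith))
  have E3 := (eventually_all_finset (Finset.range M)).2 fun i _ => E2 i
  have hMr : (0 : ℝ) < M := by exact_mod_cast hM
  have E4 : ∀ᶠ t : ℕ in atTop, M * (v - 3 * e) ≤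
      ((T ((t + 1) * M)).f k (ϑ₀ + u (t + 1)) - ((t + 1 : ℕ) * M) * ((∑ θ, u (t + 1) θ ^ 2) / δ)) -
        ((T (t * M)).f k (ϑ₀ + u t) - (t * M) * ((∑ θ, u t θ ^ 2) / δ)) := by
    filter_upwards [E1, E3] with t e1 e3
    have s1 := Finset.sum_range_sub (fun i => (T (t * M + i)).f k (ϑ₀ + u t)) M
    have s2 := low_sum_stepV hsp.2.1 h1r (hsj t) (hsa t)
      (fun a => spinC (ϑ₀ + u t) (fun θ => 2 * u t θ / δ) κp (fun a => (γ' a : ℝ))
        (fun a => (m a : ℝ)) γ l α (q t) a + os1 k (beff (ϑ₀ + u t) (fun θ => 2 * u t θ / δ) κp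
          (fun a => (γ' a : ℝ)) (fun a => (m a : ℝ)) a) (heff (ϑ₀ + u t) α β (q t)))
      (fun j => ∑ j' ∈ Finset.univ.erase j, Move k (l none - l j') (q t))
    have s3 : ∑ i ∈ Finset.range M, (stepV (ϑ₀ + u t) (fun θ => 2 * u t θ / δ) κp
        (fun a => (γ' a : ℝ)) (fun a => (m a : ℝ)) γ l α β (q t) (js (t * M + i)) (as (t * M + i)) - e)
        ≤ ∑ i ∈ Finset.range M, ((T (t * M + (i + 1))).f k (ϑ₀ + u t) -
          (T (t * M + i)).f k (ϑ₀ + u t)) := by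
      refine Finset.sum_le_sum fun i hi => ?_
      have a1 := (abs_le.1 (e3 i hi (js (t * M + i)) (as (t * M + i)))).1
      rw [hdn, hdg, ← (hpen (t * M + i)).f_eq] at a1
      rw [← add_assoc]
      linarith
    rw [s1, Finset.sum_sub_distrib, Finset.sum_const, Finset.card_range, nsmul_eq_mul] at s3
    have s4 : M * (v - e) ≤ ∑ i ∈ Finset.range M, stepV (ϑ₀ + u t) (fun θ => 2 * u t θ / δ) κp
        (fun a => (γ' a : ℝ)) (fun a => (m a : ℝ)) γ l α β (q t) (js (t * M + i))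
          (as (t * M + i)) :=
      (mul_le_mul_of_nonneg_left e1 hMr.le).trans_eq s2.symm
    have s5 := hu3 (t + 1) (u t) fun θ => (hu1 t θ).trans (by linarith)
    have hN : (0 : ℝ) < ((t + 1 : ℕ) : ℝ) * M := by positivity
    rw [hTN, Nat.cast_mul] at s5
    have s6 := mul_le_mul_of_nonneg_left s5 hN.le
    rw [mul_sub, mul_sub, mul_div_cancel₀ _ hN.ne', mul_div_cancel₀ _ hN.ne'] at s6
    have s7 : (T ((t + 1) * M)).f k (ϑ₀ + u t) = (T (t * M + M)).f k (ϑ₀ + u t) := by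
      rw [Nat.succ_mul]
    have s8 := mul_le_mul_of_nonneg_left (hu2' t) hMr.le
    rw [add_zero] at s3
    push_cast at s6 ⊢
    nlinarith
  have E5 := low_tele (Q := fun t => (T (t * M)).f k (ϑ₀ + u t) - (t * M) * ((∑ θ, u t θ ^ 2) / δ))
    (mul_pos hMr he) E4
  filter_upwards [E5] with t e5
  have hN : (0 : ℝ) ≤ t * M := by positivity
  have b1 : 0 ≤ (t * M : ℝ) * ((∑ θ, u t θ ^ 2) / δ) := by positivity
  have b2 := (T (t * M)).f_lip (ϑ := ϑ₀) (ϑ' := ϑ₀ + u t) (fun θ => (hR₀ θ).trans (by linarith)) (hb t)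
  have b3 : ∑ θ, |(ϑ₀ + u t) θ - ϑ₀ θ| ≤ P * η := by
    calc ∑ θ, |(ϑ₀ + u t) θ - ϑ₀ θ| ≤ ∑ _θ : PI κ (Fin J) k, η :=
          Finset.sum_le_sum fun θ _ => by simpa using hu1 t θ
      _ = P * η := by rw [hP]; simp
  rw [hTN, ← hL, Nat.cast_mul] at b2
  have b4 : L * (t * M) * ∑ θ, |(ϑ₀ + u t) θ - ϑ₀ θ| ≤ e * (t * M) :=
    calc L * (t * M) * ∑ θ, |(ϑ₀ + u t) θ - ϑ₀ θ| ≤ L * (t * M) * (P * η) := by gcongr
      _ = L * P * η * (t * M) := by ring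
      _ ≤ e * (t * M) := by gcongr
  have b5 := ((T (t * M)).f_amp_zero (k := k) l (a := fun _ _ => α₀) (Am := 2 * α₀)
    (fun _ _ => by rw [abs_of_pos hα₀]; linarith)).2
  rw [← hϑ₀, hTN, Nat.cast_mul] at b5
  have b6 : k * (2 * α₀) ^ 2 * (t * M : ℝ) ≤ e * (t * M) :=
    mul_le_mul_of_nonneg_right (hα₁.trans (min_le_right _ _)) hN
  have b7 := (abs_le.1 (b2.trans b4)).2
  nlinarith

theorem lower {γq : Option κ → ℚ} (hsp : IsSp (fun j => (γq j : ℝ)) l) {J : ℕ} {γ' m : Fin J → ℚ}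
    (hγ' : ∀ a, 0 < γ' a) (h1 : ∑ a, γ' a = 1) (hm : ∀ a, (-1 : ℚ) < m a ∧ m a < 1) {v : ℝ}
    (hv : (v : EReal) ≤ ⨅ (p : ℝ → ℝ) (_ : IsTrialPath p), constrainedEntropyPart γ' m p +
      ((spectralPart (disc (fun j => (γq j : ℝ)) l) (l none) p : ℝ) : EReal)) {e : ℝ} (he : 0 < e) :
    ∃ κ₀ : ℝ, ∀ κp ≥ κ₀, ∀ S : ℕ → BS κ (Fin J), (∀ N, (S N).IsPen κp (fun a => (m a : ℝ))) →
      Reg S (fun j => (γq j : ℝ)) → RegG S (fun a => (γ' a : ℝ)) →
      ∀ᶠ N in atTop, (S N).N * (v - e) ≤ (S N).Z l := by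
  have he' : 0 < e / 8 := by positivity
  obtain ⟨κ₀, hκ₀, H⟩ := low_core hsp hγ' h1 hm hv he'
  refine ⟨κ₀, fun κp hκp S hpen hreg hregG => ?_⟩
  have hγr : ∀ a, (0 : ℝ) < (γ' a : ℝ) := fun a => by exact_mod_cast hγ' a
  obtain ⟨M, T, js, as, hM, hp, hN, hr, hg, hd1, hd2, hs1, hs2⟩ := low_seq (γq := γq) (γ' := γ')
    (fun j => by have : (0 : ℝ) ≤ γq j := (hsp.1 j).le; exact_mod_cast this) (fun a => (hγ' a).le)
    (by have : ∑ j, (γq j : ℝ) = 1 := hsp.2.1; exact_mod_cast this) h1 κp (fun a => (m a : ℝ))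
  have E := H κp hκp M T js as hM hp hN hr hg hd1 hd2 hs1 hs2
  have hτ : Tendsto (fun N => (S N).N / M) atTop atTop :=
    (Nat.tendsto_div_const_atTop hM.ne').comp hreg.1
  have hτ' : Tendsto (fun N => (S N).N / M * M) atTop atTop := (low_tendsto_mul hM 0).comp hτ
  have hdiff : ∀ N, |(((S N).N / M * M : ℕ) : ℝ) - (S N).N * 1| ≤ M := fun N => by
    have a1 : (((S N).N / M * M : ℕ) : ℝ) + ((S N).N % M : ℕ) = (S N).N := by
      exact_mod_cast Nat.div_add_mod' (S N).N M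
    have a2 : (((S N).N % M : ℕ) : ℝ) < M := by exact_mod_cast Nat.mod_lt _ hM
    have a3 : (0 : ℝ) ≤ ((S N).N % M : ℕ) := by positivity
    rw [abs_le]; constructor <;> linarith
  have hnear := near_of_reg 0 hsp.1 hγr (hκ₀.le.trans hκp) (low_abs_m hm) hpen
    (S' := fun N => T ((S N).N / M * M)) (fun N => hp _) hreg hregG (low_reg_comp hr hτ')
    (low_regG_comp hg hτ') (low_ratio (C := M) hreg.1 fun N => by rw [hN]; exact hdiff N)
  obtain ⟨ϑ₀, hϑ₀⟩ : ∃ ϑ₀ : PI κ (Fin J) 0 → ℝ, ϑ₀ = mkP 0 l (fun _ _ => 0) fun _ => 0 := ⟨_, rfl⟩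
  have E2 := hnear.2 (∑ θ, |ϑ₀ θ|) (e / 8) he'
  have E3 : ∀ᶠ N in atTop, M * |v - 6 * (e / 8)| ≤ ((S N).N : ℝ) * (e / 8) :=
    ((tendsto_natCast_atTop_atTop.comp hreg.1).atTop_mul_const he').eventually_ge_atTop _
  filter_upwards [hτ.eventually E, E2, E3] with N e1 e2 e3
  have e4 := (abs_le.1 (e2 ϑ₀ fun θ => Finset.single_le_sum (f := fun θ => |ϑ₀ θ|)
    (fun _ _ => abs_nonneg _) (Finset.mem_univ θ))).2
  rw [hϑ₀, BS.f_eq_Z, BS.f_eq_Z] at e4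
  have e5 : |((((S N).N / M * M : ℕ) : ℝ) - (S N).N * 1) * (v - 6 * (e / 8))| ≤
      M * |v - 6 * (e / 8)| := by
    rw [abs_mul]; exact mul_le_mul_of_nonneg_right (hdiff N) (abs_nonneg _)
  have e6 := (abs_le.1 e5).1
  rw [Nat.cast_mul] at e6
  nlinarith

end Crest.Agent.R164
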