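import Crest.Agent.R164.FinU
import Crest.Agent.R164.Lower

/-!
# Row 164: FinL
**Lower bound and limits for discrete spectra.**  `c·σ - penE σ = ∑_a n_a (c_a (m_a + w_a) + κp w_a²/2)
≥ ∑_a n_a (c_a m_a - c_a²/(2κp))`, `logZ_mono`, `logZ_add_const`, `lower` for `pen rfl (pp N) (lab N) κp m`.
`disc_limit0`: `variationalValue ≤ magneticValue` for one group with `c = 0` (take `m = 0`, `entropy_one`).
-/

set_option autoImplicit false

open MeasureTheory ProbabilityTheory Filter Topology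
open scoped ENNReal BigOperators Matrix

noncomputable section

namespace Crest.Agent.R164

open Crest.ProbabilityR.InvariantGlass

variable {κ : Type} [Fintype κ] [DecidableEq κ] {γ l : Option κ → ℝ}

theorem finl_point {ς J : Type} [Fintype ς] [Fintype J] [DecidableEq J] (grp : ς → J)
    (c m : J → ℝ) {κp : ℝ} (hκ : 0 < κp) (σ : ς → Bool) :
    penE grp κp m σ + ∑ a, ((Finset.univ.filter fun r => grp r = a).card : ℝ) *
        (c a * m a - c a ^ 2 / (2 * κp)) ≤ ∑ r, c (grp r) * spin σ r := by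
  rw [← Finset.sum_fiberwise (s := Finset.univ) (g := grp) (f := fun r => c (grp r) * spin σ r),
    penE, Finset.mul_sum, ← Finset.sum_add_distrib]
  refine Finset.sum_le_sum fun a _ => ?_
  set T := Finset.univ.filter fun r => grp r = a with hT
  have e1 : ∑ r ∈ T, c (grp r) * spin σ r =
      c a * (∑ r ∈ T, (spin σ r - m a)) + c a * (T.card * m a) := by
    rw [Finset.sum_sub_distrib, Finset.sum_const, nsmul_eq_mul, ← mul_add, sub_add_cancel,
      Finset.mul_sum]
    refine Finset.sum_congr rfl fun r hr => ?_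
    rw [(Finset.mem_filter.1 hr).2]
  rw [e1]
  rcases T.eq_empty_or_nonempty with h | h
  · simp [h]
  · have hn : (0 : ℝ) < T.card := by exact_mod_cast h.card_pos
    generalize (∑ r ∈ T, (spin σ r - m a)) = W
    generalize (T.card : ℝ) = n at hn ⊢
    have : 0 ≤ (κp * W + n * c a) ^ 2 / (2 * κp * n) := by positivity
    have e2 : c a * W + c a * (n * m a) - (-(κp / 2) * (W ^ 2 / n) +
        n * (c a * m a - c a ^ 2 / (2 * κp))) = (κp * W + n * c a) ^ 2 / (2 * κp * n) := by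
      field_simp
      ring
    linarith

omit [Fintype κ] [DecidableEq κ] in
theorem finl_Z {N J : ℕ} (pp : Fin N → Option κ) (l : Option κ → ℝ) (lab : Fin N → Fin J)
    (c m : Fin J → ℝ) {κp : ℝ} (hκ : 0 < κp) :
    (pen rfl pp lab κp m).Z l + ∑ a, ((Finset.univ.filter fun r => lab r = a).card : ℝ) *
        (c a * m a - c a ^ 2 / (2 * κp)) ≤
      (lab1 pp (uniformOn Set.univ) fun σ => ∑ r, c (lab r) * spin σ r).Z l := by
  have := haar_prob (ρ := Fin N) (ς := Fin N) rfl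
  obtain ⟨B, hB⟩ := bdd_logZ (ρ := Fin N) (π := uniformOn (Set.univ : Set (Fin N → Bool)))
    (E0 := penE lab κp m) (Λ := fun i => l (pp i))
  obtain ⟨B', hB'⟩ := bdd_logZ (ρ := Fin N) (π := uniformOn (Set.univ : Set (Fin N → Bool)))
    (E0 := fun σ => ∑ r, c (lab r) * spin σ r) (Λ := fun i => l (pp i))
  set a : ℝ := ∑ a, ((Finset.univ.filter fun r => lab r = a).card : ℝ) *
        (c a * m a - c a ^ 2 / (2 * κp)) with ha
  have key := integral_mono ((hB.integrable' (haar (Fin N) (Fin N))).add (integrable_const a))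
    (hB'.integrable' (haar (Fin N) (Fin N))) fun U => by
      simp only [Pi.add_apply]
      rw [← logZ_add_const]
      exact logZ_mono (fun σ => finl_point lab c m hκ σ) (fun _ => le_rfl) U
  rw [integral_add' (hB.integrable' _) (integrable_const _)] at key
  simp only [integral_const, probReal_univ, smul_eq_mul, one_mul] at key
  exact key

theorem finl_split {v s : ℝ} {I : EReal} (hv : (v : EReal) < s + I) :
    ∃ v' : ℝ, (v' : EReal) ≤ I ∧ v < s + v' := by
  induction I with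
  | bot => simp at hv
  | top => exact ⟨v - s + 1, le_top, by linarith⟩
  | coe x => exact ⟨x, le_rfl, by exact_mod_cast hv⟩

theorem disc_lower {γq : Option κ → ℚ} (hsp : IsSp (fun j => (γq j : ℝ)) l)
    {pp : (N : ℕ) → Fin N → Option κ}
    (hpp : ∀ j, Tendsto (fun N : ℕ => ((Finset.univ.filter fun i => pp N i = j).card : ℝ) / N) atTop
      (𝓝 (γq j : ℝ))) {J : ℕ} (c : Fin J → ℝ) {γ' : Fin J → ℚ} (hγ' : ∀ a, 0 < γ' a)
    (h1 : ∑ a, γ' a = 1) {lab : (N : ℕ) → Fin N → Fin J}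
    (hlab : ∀ a, Tendsto (fun N : ℕ => ((Finset.univ.filter fun r => lab N r = a).card : ℝ) / N) atTop
      (𝓝 (γ' a : ℝ))) {v : ℝ} (hv : (v : EReal) < magneticValue (disc (fun j => (γq j : ℝ)) l) (l none) c γ') :
    ∀ᶠ N in atTop, v ≤ EP (fun i => l (pp N i)) (fun r => c (lab N r)) := by
  unfold magneticValue at hv
  obtain ⟨m, hv⟩ := lt_iSup_iff.1 hv
  obtain ⟨hm, hv⟩ := lt_iSup_iff.1 hv
  set s : ℝ := ∑ j, (γ' j : ℝ) * c j * (m j : ℝ) with hs
  set I : EReal := ⨅ (p : ℝ → ℝ) (_ : IsTrialPath p), constrainedEntropyPart γ' m p +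
    ((spectralPart (disc (fun j => (γq j : ℝ)) l) (l none) p : ℝ) : EReal) with hI
  obtain ⟨v', hv1, hv2⟩ : ∃ v' : ℝ, (v' : EReal) ≤ I ∧ v < s + v' := finl_split hv
  set δ : ℝ := (s + v' - v) / 3 with hδ
  have hδ0 : 0 < δ := by rw [hδ]; linarith
  obtain ⟨κ₀, hκ₀⟩ := lower hsp hγ' h1 hm hv1 hδ0
  set C : ℝ := ∑ a, (γ' a : ℝ) * c a ^ 2 with hC
  have hlim : Tendsto (fun t : ℝ => C / (2 * t)) atTop (𝓝 0) :=
    tendsto_const_nhds.div_atTop (tendsto_id.const_mul_atTop two_pos)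
  obtain ⟨κp, hk1, hk2, hk3⟩ := ((eventually_ge_atTop κ₀).and ((eventually_gt_atTop 0).and
    (hlim.eventually (gt_mem_nhds hδ0)))).exists
  have hN : ∀ N : ℕ, (pen (κ := κ) rfl (pp N) (lab N) κp fun a => (m a : ℝ)).N = N := fun N =>
    Fintype.card_fin N
  have hlow := hκ₀ κp hk1 (fun N => pen rfl (pp N) (lab N) κp fun a => (m a : ℝ))
    (fun N => ⟨rfl, rfl⟩)
    ⟨by simp only [hN]; exact tendsto_id, fun j => by simp only [hN]; exact hpp j⟩
    (fun a => by simp only [hN]; exact hlab a)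
  have hsum : Tendsto (fun N : ℕ => ∑ a, ((Finset.univ.filter fun r => lab N r = a).card : ℝ) / N *
      (c a * (m a : ℝ) - c a ^ 2 / (2 * κp))) atTop
      (𝓝 (∑ a, (γ' a : ℝ) * (c a * (m a : ℝ) - c a ^ 2 / (2 * κp)))) :=
    tendsto_finsetSum _ fun a _ => (hlab a).mul_const _
  have e : ∑ a, (γ' a : ℝ) * (c a * (m a : ℝ) - c a ^ 2 / (2 * κp)) = s - C / (2 * κp) := by
    rw [hs, hC, Finset.sum_div, ← Finset.sum_sub_distrib]
    exact Finset.sum_congr rfl fun a _ => by ring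
  rw [e] at hsum
  have hlt : s - 2 * δ < s - C / (2 * κp) := by linarith
  filter_upwards [hlow, hsum.eventually (lt_mem_nhds hlt), eventually_gt_atTop (0 : ℕ)] with N h2 h3 h4
  have hN0 : (0 : ℝ) < (N : ℝ) := by exact_mod_cast h4
  rw [hN] at h2
  rw [EP_eq_Z, le_div_iff₀ hN0]
  have h5 := finl_Z (pp N) l (lab N) c (fun a => (m a : ℝ)) hk2
  have e2 : (∑ a, ((Finset.univ.filter fun r => lab N r = a).card : ℝ) *
      (c a * (m a : ℝ) - c a ^ 2 / (2 * κp)) : ℝ) =
      (∑ a, ((Finset.univ.filter fun r => lab N r = a).card : ℝ) / (N : ℝ) *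
      (c a * (m a : ℝ) - c a ^ 2 / (2 * κp))) * (N : ℝ) := by
    rw [Finset.sum_mul]
    exact Finset.sum_congr rfl fun a _ => by field_simp
  rw [e2] at h5
  have h6 := mul_le_mul_of_nonneg_right h3.le hN0.le
  have e3 : v * N = N * (v' - δ) + (s - 2 * δ) * N := by rw [hδ]; ring
  linarith

/-- a bounded real sequence squeezed by an extended real -/
theorem limit_of_squeeze {V V' : EReal} {x : ℕ → ℝ} {B : ℝ} (hB : ∀ᶠ N in atTop, |x N| ≤ B)
    (hVV : V ≤ V') (hu : ∀ v : ℝ, V < v → ∀ᶠ N in atTop, x N ≤ v)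
    (hl : ∀ v : ℝ, (v : EReal) < V' → ∀ᶠ N in atTop, v ≤ x N) :
    ∃ F : ℝ, V = F ∧ Tendsto x atTop (𝓝 F) := by
  have h1 : (-(B + 1) : ℝ) ≤ V := by
    by_contra h
    obtain ⟨N, h2, h3⟩ := (hB.and (hu _ (not_le.1 h))).exists
    have := (abs_le.1 h2).1
    linarith
  have h2 : V' ≤ (B + 1 : ℝ) := by
    by_contra h
    obtain ⟨N, h2, h3⟩ := (hB.and (hl _ (not_le.1 h))).exists
    have := (abs_le.1 h2).2
    linarith
  have hb : V ≠ ⊥ := fun h => by rw [h] at h1; exact EReal.coe_ne_bot _ (le_bot_iff.1 h1)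
  have ht : V ≠ ⊤ := fun h => by
    rw [h] at hVV
    exact EReal.coe_ne_top _ (top_le_iff.1 (hVV.trans h2))
  lift V to ℝ using ⟨ht, hb⟩
  refine ⟨V, rfl, tendsto_order.2 ⟨fun a ha => ?_, fun a ha => ?_⟩⟩
  · obtain ⟨b, hab, hbV⟩ := exists_between ha
    exact (hl b ((EReal.coe_lt_coe_iff.2 hbV).trans_le hVV)).mono fun N h => hab.trans_le h
  · obtain ⟨b, hVb, hba⟩ := exists_between ha
    exact (hu b (EReal.coe_lt_coe_iff.2 hVb)).mono fun N h => h.trans_lt hba

theorem disc_limit {γq : Option κ → ℚ} (hsp : IsSp (fun j => (γq j : ℝ)) l)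
    {pp : (N : ℕ) → Fin N → Option κ}
    (hpp : ∀ j, Tendsto (fun N : ℕ => ((Finset.univ.filter fun i => pp N i = j).card : ℝ) / N) atTop
      (𝓝 (γq j : ℝ))) {J : ℕ} (c : Fin J → ℝ) {γ' : Fin J → ℚ} (hγ' : ∀ a, 0 < γ' a)
    (h1 : ∑ a, γ' a = 1) {lab : (N : ℕ) → Fin N → Fin J}
    (hlab : ∀ a, Tendsto (fun N : ℕ => ((Finset.univ.filter fun r => lab N r = a).card : ℝ) / N) atTop
      (𝓝 (γ' a : ℝ))) :
    ∃ F : ℝ, magneticValue (disc (fun j => (γq j : ℝ)) l) (l none) c γ' = F ∧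
      Tendsto (fun N => EP (fun i => l (pp N i)) (fun r => c (lab N r))) atTop (𝓝 F) := by
  refine limit_of_squeeze (B := (∑ j, |l j|) / 2 + ∑ a, |c a|) (Eventually.of_forall fun N => ?_)
    le_rfl (fun v hv => disc_upper hsp hpp c hγ' h1 hlab hv)
    (fun v hv => disc_lower hsp hpp c hγ' h1 hlab hv)
  exact abs_EP_le (Finset.sum_nonneg fun _ _ => abs_nonneg _)
    (Finset.sum_nonneg fun _ _ => abs_nonneg _)
    (fun i => Finset.single_le_sum (f := fun j => |l j|) (fun _ _ => abs_nonneg _)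
      (Finset.mem_univ _))
    (fun r => Finset.single_le_sum (f := fun a => |c a|) (fun _ _ => abs_nonneg _)
      (Finset.mem_univ _))

theorem disc_limit0 {γq : Option κ → ℚ} (hsp : IsSp (fun j => (γq j : ℝ)) l)
    {pp : (N : ℕ) → Fin N → Option κ}
    (hpp : ∀ j, Tendsto (fun N : ℕ => ((Finset.univ.filter fun i => pp N i = j).card : ℝ) / N) atTop
      (𝓝 (γq j : ℝ))) :
    ∃ F : ℝ, variationalValue (disc (fun j => (γq j : ℝ)) l) (l none) = F ∧
      Tendsto (fun N => EP (fun i => l (pp N i)) (fun _ => 0)) atTop (𝓝 F) := by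
  have hVV : variationalValue (disc (fun j => (γq j : ℝ)) l) (l none) ≤
      magneticValue (disc (fun j => (γq j : ℝ)) l) (l none) (fun _ : Fin 1 => (0 : ℝ))
        (fun _ => (1 : ℚ)) := by
    unfold magneticValue variationalValue
    refine le_iSup₂_of_le (fun _ => (0 : ℚ)) (fun _ => ⟨by norm_num, by norm_num⟩) ?_
    simp only [entropy_one, mul_zero, Rat.cast_zero, Finset.sum_const_zero, EReal.coe_zero, zero_add,
      le_refl]
  have hlab : ∀ a : Fin 1, Tendsto (fun N : ℕ =>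
      ((Finset.univ.filter fun _ : Fin N => (0 : Fin 1) = a).card : ℝ) / N) atTop
      (𝓝 ((1 : ℚ) : ℝ)) := by
    intro a
    refine tendsto_const_nhds.congr' ?_
    filter_upwards [eventually_gt_atTop 0] with N hN
    have hN0 : (N : ℝ) ≠ 0 := by exact_mod_cast hN.ne'
    rw [Finset.filter_true_of_mem fun _ _ => Subsingleton.elim _ _]
    simp [hN0]
  refine limit_of_squeeze (B := (∑ j, |l j|) / 2 + 0) (Eventually.of_forall fun N => ?_)
    hVV (fun v hv => disc_upper0 hsp hpp hv)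
    (fun v hv => disc_lower hsp hpp (fun _ : Fin 1 => (0 : ℝ)) (γ' := fun _ => 1)
      (fun _ => one_pos) (by simp) (lab := fun _ _ => 0) hlab hv)
  exact abs_EP_le (Finset.sum_nonneg fun _ _ => abs_nonneg _) le_rfl
    (fun i => Finset.single_le_sum (f := fun j => |l j|) (fun _ _ => abs_nonneg _)
      (Finset.mem_univ _)) (fun r => by simp)

end Crest.Agent.R164
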