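import Crest.Agent.R164.UpperAux

/-!
# Row 164: Upper
**Upper bound.**  `W = ℝ × (Fin k → ℝ)`, `K = [t₀,1] × [α₀,A]^k`, `φ (t,α) = mkP k (t l) (α) 0`,
`g (t,α) = ½ ∑ α_s² ptail p s + ½ Gd (cR (t·)) p + ε t`, `f = (S N).f k / N`; `exists_max`, `touch_of_max`,
`exists_prof`, `ward` (with `l N = t_N l`), `sum_sl_zero`.
* cap: `f_coercive`, `f_lam`, `f_lip`, `ptail p s ≥ uz k s + η/(k+1)` and the comparison with `(1, α₀, u = 0)` give
  `α_s < A`.
* first-order condition in `α_s` (change `α_s ↦ α_s + τ`, `u_{(j,s)} ↦ u_{(j,s)} - τ`, so `φ + u` is fixed):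
  `∑_j c_{(j,s)} ≤ α_s ptail p s`, hence `ptail (img q) s ≤ ptail p s + e'` (`ptail_img`).
* if `t > t₀`, the condition in `t` gives `∑_j c_j l_j ≥ Gd (kap (t·)) p/(2t) + ε` (`hasDerivAt_Gd`), contradicting
  `energy_img` + `Gd_cmp`.  So `t = t₀`, and the maximum is `≤ Bd + O(ε + t₀)`.
Order: `e → ε, t₀, e' → k₀`; `k, η → A → R → δ₀ → α₀ → δ`.
-/

set_option autoImplicit false

open MeasureTheory ProbabilityTheory Filter Topology
open scoped ENNReal BigOperators Matrix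

noncomputable section

namespace Crest.Agent.R164

open Crest.ProbabilityR.InvariantGlass

variable {κ : Type} [Fintype κ] [DecidableEq κ] {γ l : Option κ → ℝ}

theorem up_val (hsp : IsSp γ l) {k : ℕ} {p : ℕ → ℝ} (hp : IsProf k 1 p) {ε α₀ R₀ B D : ℝ}
    (hε : 0 ≤ ε) (hα₀ : 0 ≤ α₀) (hB : ∀ j, |l j| ≤ B) (hBR : B ≤ R₀) (S : BS κ Unit) (hN : 0 < S.N)
    {w : ℝ × (Fin k → ℝ)} {u : PI κ Unit k → ℝ} (h0 : 0 ≤ w.1) (h1 : w.1 ≤ 1)
    (hw : ∀ s, |w.2 s| ≤ R₀) (hu : ∀ θ, |u θ| ≤ D) (hD : D ≤ 1)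
    (hv : S.f k (phiU k l (1, fun _ => α₀)) / S.N - gU k γ l p ε (1, fun _ => α₀) ≤
      S.f k (phiU k l w + u) / S.N - gU k γ l p ε w) :
    S.Z l / S.N - k * α₀ ^ 2 / 2 - Gd k (cR γ l) p / 2 - ε ≤
      S.f k (mkP k (fun _ => 0) (fun _ => extA w.2) fun _ => 0) / S.N +
        (1 + 2 * (R₀ + 1)) * (Fintype.card (PI κ Unit k) * D) + w.1 * B -
        (1 / 2) * ∑ s ∈ Finset.Icc 1 k, extA w.2 s ^ 2 * ptail k p s := by
  have hNr : (0 : ℝ) < S.N := by exact_mod_cast hN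
  have hB0 : 0 ≤ B := (abs_nonneg _).trans (hB none)
  have hφ : ∀ θ, |phiU k l w θ| ≤ R₀ := by
    intro θ
    rcases θ with j | q | g
    · show |w.1 * l j| ≤ R₀
      rw [abs_mul, abs_of_nonneg h0]
      calc w.1 * |l j| ≤ 1 * B := mul_le_mul h1 (hB j) (abs_nonneg _) zero_le_one
        _ ≤ R₀ := by linarith
    · exact hw q.2
    · show |(0 : ℝ)| ≤ R₀
      simpa using hB0.trans hBR
  -- (V1)
  have e1 := S.f_lip (ϑ := phiU k l w) (ϑ' := phiU k l w + u) (R := R₀ + 1)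
    (fun θ => (hφ θ).trans (by linarith)) (fun θ => by
      calc |(phiU k l w + u) θ| ≤ |phiU k l w θ| + |u θ| := abs_add_le _ _
        _ ≤ R₀ + 1 := add_le_add (hφ θ) ((hu θ).trans hD))
  have e2 : ∑ θ, |(phiU k l w + u) θ - phiU k l w θ| ≤ Fintype.card (PI κ Unit k) * D := by
    calc ∑ θ, |(phiU k l w + u) θ - phiU k l w θ| ≤ ∑ _θ : PI κ Unit k, D :=
          Finset.sum_le_sum fun θ _ => by simpa using hu θ
      _ = _ := by simp
  have hL : 0 ≤ 1 + 2 * (R₀ + 1) := by linarith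
  have e3 : S.f k (phiU k l w + u) ≤ S.f k (phiU k l w) +
      (1 + 2 * (R₀ + 1)) * (Fintype.card (PI κ Unit k) * D) * S.N := by
    have := mul_le_mul_of_nonneg_left e2 (mul_nonneg hL hNr.le)
    have h3 := (le_abs_self _).trans e1
    nlinarith
  have e4 := S.f_lam (k := k) (fun _ => 0) (fun j => w.1 * l j) (fun _ => extA w.2) (fun _ => 0)
    (B := w.1 * B) (fun j => by
      rw [sub_zero, abs_mul, abs_of_nonneg h0]; exact mul_le_mul_of_nonneg_left (hB j) h0)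
  rw [← phiU_eq] at e4
  have e5 := (le_abs_self _).trans e4
  have V1 : S.f k (phiU k l w + u) / S.N ≤
      S.f k (mkP k (fun _ => 0) (fun _ => extA w.2) fun _ => 0) / S.N +
        (1 + 2 * (R₀ + 1)) * (Fintype.card (PI κ Unit k) * D) + w.1 * B / 2 := by
    rw [div_le_iff₀ hNr, add_mul, add_mul, div_mul_cancel₀ _ hNr.ne']
    linarith
  -- (V2)
  have V2 : S.Z l / S.N ≤ S.f k (phiU k l (1, fun _ => α₀)) / S.N := by
    refine div_le_div_of_nonneg_right ?_ hNr.le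
    rw [phiU_eq]
    simp only [one_mul]
    refine (S.f_amp_zero l (Am := α₀) fun j s => ?_).1
    have := extA_bounds (a := fun _ : Fin k => α₀) hα₀ (fun _ => ⟨hα₀, le_rfl⟩) s
    rw [abs_of_nonneg this.1]; exact this.2
  -- (V3)
  have V3 : gU k γ l p ε (1, fun _ => α₀) ≤ k * α₀ ^ 2 / 2 + Gd k (cR γ l) p / 2 + ε := by
    unfold gU
    simp only [one_mul, mul_one]
    have : ∑ s : Fin k, α₀ ^ 2 * ptail k p (s + 1) ≤ k * α₀ ^ 2 := by
      calc ∑ s : Fin k, α₀ ^ 2 * ptail k p (s + 1) ≤ ∑ _s : Fin k, α₀ ^ 2 :=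
            Finset.sum_le_sum fun s _ => by
              have h2 := (hp.ptail_bounds (s := s + 1) (by have := s.2; omega)).2
              have h3 := hp.2.2.2
              nlinarith [sq_nonneg α₀]
        _ = _ := by simp
    linarith
  -- (V4)
  have V4 : (1 / 2) * ∑ s ∈ Finset.Icc 1 k, extA w.2 s ^ 2 * ptail k p s - w.1 * B / 2 ≤
      gU k γ l p ε w := by
    unfold gU
    rw [sum_extA w.2 (fun a s => a ^ 2 * ptail k p s)]
    have h2 := abs_Gd_le hsp hp hB h0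
    have h3 := neg_abs_le (Gd k (fun x => cR γ l (w.1 * x)) p)
    have h4 := mul_nonneg hε h0
    linarith
  linarith

theorem ptail_ge_uz {k : ℕ} {p : ℕ → ℝ} {η : ℝ} (hη : 0 < η) (h0 : p 0 = 1)
    (hp : ∀ r, 1 ≤ r → p r ≤ 1 - η) {s : ℕ} (h1 : 1 ≤ s) (hs : s ≤ k) :
    uz k s + η / (k + 1) ≤ ptail k p s := by
  unfold ptail uz
  have hk : (0 : ℝ) < k + 1 := by positivity
  have h2 : ∑ i ∈ Finset.range s, p (i + 1) / (k + 1) ≤ s * ((1 - η) / (k + 1)) := by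
    calc ∑ i ∈ Finset.range s, p (i + 1) / (k + 1) ≤ ∑ _i ∈ Finset.range s, (1 - η) / (k + 1 : ℝ) :=
          Finset.sum_le_sum fun i _ => div_le_div_of_nonneg_right (hp _ (by omega)) hk.le
      _ = _ := by simp
  have h3 : ((k + 1 - s : ℕ) : ℝ) = k + 1 - s := by
    rw [Nat.cast_sub (by omega)]; push_cast; ring
  have h4 : (1 : ℝ) ≤ s := by exact_mod_cast h1
  rw [h0, h3]
  have h5 : (k + 1 - s) / (k + 1 : ℝ) + η / (k + 1) ≤ 1 - s * ((1 - η) / (k + 1)) := by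
    rw [← sub_nonneg]
    have : 1 - s * ((1 - η) / (k + 1 : ℝ)) - ((k + 1 - s) / (k + 1 : ℝ) + η / (k + 1)) =
        (s - 1) * η / (k + 1) := by field_simp; ring
    rw [this]
    exact div_nonneg (mul_nonneg (by linarith) hη.le) hk.le
  linarith

theorem up_cap (hsp : IsSp γ l) {k : ℕ} {p : ℕ → ℝ} (hp : IsProf k 1 p) {η B E : ℝ} (hη : 0 < η)
    (hp0 : p 0 = 1) (hpη : ∀ r, 1 ≤ r → p r ≤ 1 - η) (hB : ∀ j, |l j| ≤ B) (S : BS κ Unit)
    (hN : 0 < S.N) (hE : ∀ σ, S.E1 σ = 0) {a : Fin k → ℝ} (ha : ∀ s, 0 ≤ a s)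
    (hv : S.Z l / S.N - Gd k (cR γ l) p / 2 - E ≤
      S.f k (mkP k (fun _ => 0) (fun _ => extA a) fun _ => 0) / S.N -
        (1 / 2) * ∑ s ∈ Finset.Icc 1 k, extA a s ^ 2 * ptail k p s) (s : Fin k) :
    η / (k + 1) * a s ^ 2 / 2 ≤ 1 + (k + 1) ^ 2 + B + E := by
  have hNr : (0 : ℝ) < S.N := by exact_mod_cast hN
  have h1 := S.f_coercive (k := k) hE (extA_zero a) (fun s => by
    unfold extA; split_ifs; exacts [ha _, le_rfl])
  have h2 : S.f k (mkP k (fun _ => 0) (fun _ => extA a) fun _ => 0) / S.N ≤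
      1 + (k + 1) ^ 2 + (1 / 2) * ∑ s ∈ Finset.Icc 1 k, uz k s * extA a s ^ 2 := by
    rw [div_le_iff₀ hNr]; linarith
  have h3 := S.abs_Z_le hE hB
  have h4 : -(B / 2) ≤ S.Z l / S.N := by
    rw [le_div_iff₀ hNr]; linarith [neg_abs_le (S.Z l)]
  have h5 := abs_Gd_le hsp hp hB (t := 1) zero_le_one
  simp only [one_mul, mul_one] at h5
  have h6 := le_abs_self (Gd k (cR γ l) p)
  have h7 : η / (k + 1) * a s ^ 2 ≤ ∑ s ∈ Finset.Icc 1 k, extA a s ^ 2 * ptail k p s -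
      ∑ s ∈ Finset.Icc 1 k, uz k s * extA a s ^ 2 := by
    rw [← Finset.sum_sub_distrib,
      sum_extA a (fun x s => x ^ 2 * ptail k p s - uz k s * x ^ 2)]
    have hk : (0 : ℝ) ≤ η / (k + 1) := by positivity
    have h8 : ∀ s' : Fin k, η / (k + 1) * a s' ^ 2 ≤
        a s' ^ 2 * ptail k p (s' + 1) - uz k (s' + 1) * a s' ^ 2 := fun s' => by
      have := ptail_ge_uz (k := k) hη hp0 hpη (s := s' + 1) (by omega) s'.2
      nlinarith [sq_nonneg (a s')]
    calc η / (k + 1) * a s ^ 2 ≤ ∑ s' : Fin k, η / (k + 1) * a s' ^ 2 :=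
          Finset.single_le_sum (f := fun s' : Fin k => η / (k + 1) * a s' ^ 2)
            (fun s' _ => mul_nonneg hk (sq_nonneg _)) (Finset.mem_univ s)
      _ ≤ _ := Finset.sum_le_sum fun s' _ => h8 s'
  have h9 : Gd k (fun x => cR γ l x) p = Gd k (cR γ l) p := rfl
  linarith

/-- the first-order conditions contradict the Ward identities unless `t = t₀` -/
theorem up_foc (hsp : IsSp γ l) {k : ℕ} {p q : ℕ → ℝ} {Q ε e₁ e₂ B D α₀ t : ℝ} (hp : IsProf k Q p)
    (hq : IsProf k Q q) (hp0 : p 0 = 1) (ht0 : 0 < t) (ht1 : t ≤ 1) (hB : ∀ j, |l j| ≤ B)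
    (hcmp : ∀ (k : ℕ) (q q' : ℕ → ℝ) (t : ℝ), 0 ≤ t → t ≤ 1 → IsProf k Q q → IsProf k Q q' →
      |q' 0 - q 0| ≤ e₁ → (∀ s ≤ k, ptail k q' s ≤ ptail k q s + e₁) →
      Gd k (fun x => kap γ l (t * x)) q' ≤ Gd k (fun x => kap γ l (t * x)) q + t * ε)
    (hε : 0 < ε) (he₂ : 0 ≤ e₂) (h1 : Fintype.card (Option κ) * e₂ ≤ e₁ / 2)
    (h2 : Fintype.card (Option κ) * e₂ * B ≤ ε / 2) (hα₀ : 0 < α₀) (hD : D ≤ α₀ / 2)
    (hD' : D * (Q + e₁) ≤ α₀ * (e₁ / 2)) {a : Fin k → ℝ} (ha : ∀ s, α₀ ≤ a s)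
    {u c : PI κ Unit k → ℝ} (hu : ∀ θ, |u θ| ≤ D)
    (hward : ∀ j, ∀ s ≤ k, |sl (phiU k l (t, a) + u) c j s -
      γ j * ptail k (tq k (t * l none - t * l j) q) s| ≤ e₂)
    (hsum : |∑ j, sl (phiU k l (t, a) + u) c j 0 - 1| ≤ e₁ / 2)
    (hα : ∀ s : Fin k, ∑ j, c (Sum.inr (Sum.inl (j, s))) ≤ a s * ptail k p (s + 1)) :
    ∑ j, l j * c (Sum.inl j) < Gd k (fun x => kap γ l (t * x)) p / t / 2 + ε := by
  have hsp' : IsSp γ (fun j => t * l j) := hsp.smul ht0
  have hp' := img_prof hsp' hq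
  set p' := img k γ (fun j => t * l j) q with hp'def
  set ϑ := phiU k l (t, a) + u with hϑ
  have hD0 : 0 ≤ D := (abs_nonneg _).trans (hu (Sum.inl none))
  have hB0 : 0 ≤ B := (abs_nonneg _).trans (hB none)
  have hn0 : (0 : ℝ) ≤ Fintype.card (Option κ) * e₂ := by positivity
  have hW : ∀ s ≤ k, |∑ j, sl ϑ c j s - ptail k p' s| ≤ Fintype.card (Option κ) * e₂ := by
    intro s hs
    rw [hp'def, ptail_img hsp', ← Finset.sum_sub_distrib]
    calc _ ≤ ∑ j, |sl ϑ c j s - γ j * ptail k (tq k (t * l none - t * l j) q) s| :=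
          Finset.abs_sum_le_sum_abs _ _
      _ ≤ ∑ _j : Option κ, e₂ := Finset.sum_le_sum fun j _ => hward j s hs
      _ = _ := by simp
  have hpt0 : ∀ r : ℕ → ℝ, ptail k r 0 = r 0 := fun r => by simp [ptail]
  have h0 : |p' 0 - p 0| ≤ e₁ := by
    have h3 := hW 0 (Nat.zero_le _)
    rw [hpt0] at h3
    rw [hp0, abs_le] at *
    constructor <;> linarith [h3.1, h3.2, hsum.1, hsum.2]
  have htail : ∀ s ≤ k, ptail k p' s ≤ ptail k p s + e₁ := by
    intro s hs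
    rcases Nat.eq_zero_or_pos s with rfl | hs0
    · rw [hpt0, hpt0]; linarith [le_abs_self (p' 0 - p 0)]
    obtain ⟨s', rfl⟩ : ∃ s' : Fin k, s = s'.val + 1 := ⟨⟨s - 1, by omega⟩, by simp; omega⟩
    have hr : 1 ≤ s'.val + 1 ∧ s'.val + 1 ≤ k := ⟨by omega, hs⟩
    have hamp : ∀ j, amp ϑ j (s' + 1) = a s' + u (Sum.inr (Sum.inl (j, s'))) := fun j => by
      simp [hϑ, amp, hr, phiU]
    have hc : ∀ j, c (Sum.inr (Sum.inl (j, s'))) =
        (a s' + u (Sum.inr (Sum.inl (j, s')))) * sl ϑ c j (s' + 1) := fun j => by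
      have hpos : 0 < a s' + u (Sum.inr (Sum.inl (j, s'))) := by
        have := neg_abs_le (u (Sum.inr (Sum.inl (j, s'))))
        linarith [hu (Sum.inr (Sum.inl (j, s'))), ha s']
      have : amp c j (s' + 1) = c (Sum.inr (Sum.inl (j, s'))) := by simp [amp, hr]
      rw [sl, if_neg (by omega), this, hamp]
      field_simp
    have hslb : ∑ j, |sl ϑ c j (s' + 1)| ≤ Q + e₁ := by
      have h3 : ∀ j, |sl ϑ c j (s' + 1)| ≤ γ j * Q + e₂ := fun j => by
        have h4 := hward j _ hs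
        have hq' := hq.tq (Δ := t * l none - t * l j) (hsp'.gap_nonneg j)
        have h5 := hq'.ptail_bounds (s := s' + 1) (by omega)
        have h6 := hq'.2.2.2
        have h7 := hsp.1 j
        have h8 : 0 ≤ γ j * ptail k (tq k (t * l none - t * l j) q) (s' + 1) :=
          mul_nonneg h7.le h5.1
        have h9 : γ j * ptail k (tq k (t * l none - t * l j) q) (s' + 1) ≤ γ j * Q :=
          mul_le_mul_of_nonneg_left (h5.2.trans h6) h7.le
        rw [abs_le] at h4 ⊢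
        constructor <;> linarith [h4.1, h4.2]
      calc ∑ j, |sl ϑ c j (s' + 1)| ≤ ∑ j, (γ j * Q + e₂) := Finset.sum_le_sum fun j _ => h3 j
        _ = Q + Fintype.card (Option κ) * e₂ := by
          rw [Finset.sum_add_distrib, ← Finset.sum_mul, hsp.2.1]; simp
        _ ≤ Q + e₁ := by linarith
    have h3 : a s' * ∑ j, sl ϑ c j (s' + 1) ≤ a s' * ptail k p (s' + 1) + D * (Q + e₁) := by
      have h4 := hα s'
      simp only [hc, add_mul, Finset.sum_add_distrib, ← Finset.mul_sum] at h4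
      have h5 : -(D * ∑ j, |sl ϑ c j (s' + 1)|) ≤
          ∑ j, u (Sum.inr (Sum.inl (j, s'))) * sl ϑ c j (s' + 1) := by
        rw [Finset.mul_sum, ← Finset.sum_neg_distrib]
        refine Finset.sum_le_sum fun j _ => ?_
        have h6 := neg_abs_le (u (Sum.inr (Sum.inl (j, s'))) * sl ϑ c j (s' + 1))
        rw [abs_mul] at h6
        have h7 := mul_le_mul_of_nonneg_right (hu (Sum.inr (Sum.inl (j, s'))))
          (abs_nonneg (sl ϑ c j (s' + 1)))
        linarith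
      have h6 := mul_le_mul_of_nonneg_left hslb hD0
      linarith
    have has : 0 < a s' := hα₀.trans_le (ha s')
    have he₁ : 0 ≤ e₁ := by linarith
    have h4 : ∑ j, sl ϑ c j (s' + 1) ≤ ptail k p (s' + 1) + e₁ / 2 := by
      refine le_of_mul_le_mul_left ?_ has
      have := mul_le_mul_of_nonneg_right (ha s') (show 0 ≤ e₁ / 2 by linarith)
      linarith
    have h5 := abs_le.1 (hW _ hs)
    linarith [h5.1]
  have hG := hcmp k p p' t ht0.le ht1 hp hp' h0 htail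
  have hE := energy_img hsp hq ht0
  have h3 : ∑ j, l j * c (Sum.inl j) ≤ (∑ j, γ j * l j * tq k (t * l none - t * l j) q 0) / 2 +
      Fintype.card (Option κ) * e₂ * B / 2 := by
    have h4 : ∀ j, l j * c (Sum.inl j) ≤ γ j * l j * tq k (t * l none - t * l j) q 0 / 2 +
        e₂ * B / 2 := fun j => by
      have h5 := hward j 0 (Nat.zero_le _)
      rw [hpt0] at h5
      have h6 : sl ϑ c j 0 = 2 * c (Sum.inl j) := by simp [sl, lam]
      rw [h6] at h5
      have h7 := le_abs_self (l j * (2 * c (Sum.inl j) - γ j * tq k (t * l none - t * l j) q 0))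
      rw [abs_mul] at h7
      have h8 := mul_le_mul (hB j) h5 (abs_nonneg _) hB0
      nlinarith
    calc ∑ j, l j * c (Sum.inl j) ≤ ∑ j, (γ j * l j * tq k (t * l none - t * l j) q 0 / 2 +
          e₂ * B / 2) := Finset.sum_le_sum fun j _ => h4 j
      _ = _ := by
        rw [Finset.sum_add_distrib, ← Finset.sum_div]
        simp only [Finset.sum_const, Finset.card_univ, nsmul_eq_mul]; ring
  have h4 : ∑ j, γ j * l j * tq k (t * l none - t * l j) q 0 ≤
      Gd k (fun x => kap γ l (t * x)) p / t + ε := by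
    refine le_of_mul_le_mul_left ?_ ht0
    rw [hE, mul_add, mul_div_cancel₀ _ ht0.ne']
    exact hG
  linarith

set_option maxHeartbeats 4000000 in
theorem upper (hsp : IsSp γ l) {e : ℝ} (he : 0 < e) : ∃ k₀ : ℕ, ∀ k ≥ k₀, ∀ η : ℝ, 0 < η →
    ∃ A : ℝ, 0 ≤ A ∧ ∀ p : ℕ → ℝ, IsProf k 1 p → p 0 = 1 → (∀ r, 1 ≤ r → p r ≤ 1 - η) →
      ∀ S : ℕ → BS κ Unit, Reg S γ → (∀ N σ, (S N).E1 σ = 0) → ∀ᶠ N in atTop, ∀ Bd : ℝ,
        (∀ α : ℕ → ℝ, α 0 = 0 → (∀ s, 0 ≤ α s ∧ α s ≤ A) →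
          (S N).f k (mkP k (fun _ => 0) (fun _ => α) fun _ => 0) ≤
            (S N).N * (Bd + (1 / 2) * ∑ s ∈ Finset.Icc 1 k, α s ^ 2 * ptail k p s)) →
        (S N).Z l ≤ (S N).N * (Bd + Gd k (cR γ l) p / 2 + e) := by
  classical
  obtain ⟨Δ₀, Δ₁, hΔ₀, hgap⟩ := hsp.exists_gaps
  set B : ℝ := ∑ j, |l j| with hBdef
  have hB : ∀ j, |l j| ≤ B := fun j =>
    Finset.single_le_sum (f := fun j => |l j|) (fun _ _ => abs_nonneg _) (Finset.mem_univ j)
  have hB0 : 0 ≤ B := (abs_nonneg _).trans (hB none)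
  set ε : ℝ := e / 10 with hεdef
  have hε : 0 < ε := by positivity
  set Q : ℝ := max 1 (2 / γ none) with hQ
  have hQ1 : 1 ≤ Q := le_max_left _ _
  obtain ⟨e₁, he₁, hcmp⟩ := Gd_cmp hsp.hasDerivAt_kap hsp.continuous_kap1 hsp.monotone_kap1 Q hε
  set n : ℝ := (Fintype.card (Option κ) : ℝ) with hn
  have hn0 : 0 < n := by rw [hn]; exact_mod_cast Fintype.card_pos
  set e₂ : ℝ := min e₁ ε / (2 * n * (1 + B)) with he₂
  have he₂0 : 0 < e₂ := by positivity
  have hne : n * e₂ * (1 + B) = min e₁ ε / 2 := by rw [he₂]; field_simp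
  have hne0 : 0 ≤ n * e₂ * B := by positivity
  have hne1 : n * e₂ ≤ e₁ / 2 := by
    have := min_le_left e₁ ε
    nlinarith
  have hne2 : n * e₂ * B ≤ ε / 2 := by
    have := min_le_right e₁ ε
    have h2 : 0 ≤ n * e₂ := by positivity
    nlinarith
  obtain ⟨k₀, hward⟩ := ward (J := Unit) hsp.1 Δ₁ he₂0
  refine ⟨k₀, fun k hk η hη => ?_⟩
  set t₀ : ℝ := min 1 (ε / (B + 1)) with ht₀
  have ht₀0 : 0 < t₀ := by positivity
  have ht₀1 : t₀ ≤ 1 := min_le_left _ _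
  have ht₀B : t₀ * B ≤ ε := by
    have h1 : t₀ ≤ ε / (B + 1) := min_le_right _ _
    rw [le_div_iff₀ (by positivity)] at h1
    nlinarith
  set C₀ : ℝ := 1 + (k + 1) ^ 2 + B + (3 * ε + B) with hC₀
  have hC₀0 : 0 < C₀ := by positivity
  set A : ℝ := 1 + 2 * C₀ * (k + 1) / η with hA
  have hA1 : 1 ≤ A := by rw [hA]; exact le_add_of_nonneg_right (by positivity)
  refine ⟨A, by linarith, fun p hp hp0 hpη S hS hE => ?_⟩
  set R₀ : ℝ := B + A with hR₀
  obtain ⟨δ₀, hδ₀, hward⟩ := hward k hk (R₀ + 1)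
  set α₀ : ℝ := min 1 (ε / (k + 1)) with hα₀
  have hα₀0 : 0 < α₀ := by positivity
  have hα₀1 : α₀ ≤ 1 := min_le_left _ _
  have hkα : k * α₀ ^ 2 ≤ ε := by
    have h1 : α₀ ≤ ε / (k + 1) := min_le_right _ _
    rw [le_div_iff₀ (by positivity)] at h1
    have h2 : (0 : ℝ) ≤ k := Nat.cast_nonneg k
    have h3 : k * α₀ ^ 2 ≤ k * α₀ := mul_le_mul_of_nonneg_left (by nlinarith) h2
    nlinarith
  set L : ℝ := 1 + 2 * (R₀ + 1) with hL
  have hL0 : 0 < L := by rw [hL, hR₀]; linarith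
  set P : ℝ := (Fintype.card (PI κ Unit k) : ℝ) with hP
  have hP0 : 0 < P := by rw [hP]; exact_mod_cast Fintype.card_pos
  set D : ℝ := min (min (δ₀ / 2) (α₀ / 2)) (min (ε / (L * P)) (α₀ * (e₁ / 2) / (Q + e₁))) with hD
  have hD0 : 0 < D := by positivity
  have hD1 : D ≤ δ₀ / 2 := (min_le_left _ _).trans (min_le_left _ _)
  have hD2 : D ≤ α₀ / 2 := (min_le_left _ _).trans (min_le_right _ _)
  have hD3 : L * (P * D) ≤ ε := by
    have h1 : D ≤ ε / (L * P) := (min_le_right _ _).trans (min_le_left _ _)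
    rw [le_div_iff₀ (by positivity)] at h1
    linarith
  have hD4 : D * (Q + e₁) ≤ α₀ * (e₁ / 2) := by
    have h1 : D ≤ α₀ * (e₁ / 2) / (Q + e₁) := (min_le_right _ _).trans (min_le_right _ _)
    rwa [le_div_iff₀ (by positivity)] at h1
  set δ : ℝ := D / (L * P) with hδ
  have hδ0 : 0 < δ := by positivity
  have hδD : δ * L * P = D := by rw [hδ]; field_simp
  have hpt := fun N => up_point hsp hp (ε := ε) ht₀0 ht₀1 hα₀0 (hα₀1.trans hA1) (R₀ := R₀)
    (fun j => (hB j).trans (by linarith)) (by linarith) hδ0 (by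
      show δ * L * P ≤ 1 / 2
      rw [hδD]; linarith) (S N)
  choose w u hw1 hw2 hu hmax hfα hft hval using hpt
  have hu' : ∀ N θ, |u N θ| ≤ D := fun N θ => by rw [← hδD]; exact hu N θ
  have hNpos : ∀ᶠ N in atTop, 0 < (S N).N := hS.1.eventually_gt_atTop 0
  have hT := touch_of_max (S := S) (ϑ₀ := fun N => phiU k l (w N)) (u := u) hδ0
    (fun N θ => (hu' N θ).trans (by linarith)) hNpos hmax
  have hw0 : ∀ N, 0 < (w N).1 := fun N => ht₀0.trans_le (hw1 N).1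
  have hb : ∀ N θ, |(phiU k l (w N) + u N) θ| ≤ R₀ + 1 := by
    intro N θ
    have h1 : |phiU k l (w N) θ| ≤ R₀ := by
      rcases θ with j | q | g
      · show |(w N).1 * l j| ≤ R₀
        rw [abs_mul, abs_of_pos (hw0 N)]
        calc (w N).1 * |l j| ≤ 1 * B := mul_le_mul (hw1 N).2 (hB j) (abs_nonneg _) zero_le_one
          _ ≤ R₀ := by linarith
      · show |(w N).2 q.2| ≤ R₀
        rw [abs_of_pos (hα₀0.trans_le (hw2 N q.2).1)]
        linarith [(hw2 N q.2).2]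
      · show |(0 : ℝ)| ≤ R₀
        rw [abs_zero]; linarith
    calc |(phiU k l (w N) + u N) θ| ≤ |phiU k l (w N) θ| + |u N θ| := abs_add_le _ _
      _ ≤ R₀ + 1 := add_le_add h1 ((hu' N θ).trans (by linarith))
  obtain ⟨q, hTS⟩ := exists_prof hsp.1 hS hT hδ0 hb ⟨2 * D / δ, fun N θ => by
      rw [abs_div, abs_mul, abs_of_pos hδ0, abs_two]
      exact div_le_div_of_nonneg_right (by linarith [hu' N θ]) hδ0.le⟩
    ⟨α₀ / 2, by positivity, fun N j s h1 h2 => by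
      rw [amp_add, amp_phiU]
      have h3 : α₀ ≤ extA (w N).2 s := by
        unfold extA; rw [dif_pos ⟨h1, h2⟩]; exact (hw2 N _).1
      have h4 := abs_amp_le (hu' N) j s
      linarith [neg_abs_le (amp (u N) j s)]⟩
  have hW := hward δ S _ _ q (fun N j => (w N).1 * l j) hTS (fun N => ⟨fun j => by
      show |(w N).1 * l j + u N (Sum.inl j) - (w N).1 * l j| ≤ δ₀
      rw [add_sub_cancel_left]; linarith [hu' N (Sum.inl j)], fun j s => by
      rw [amp_add, amp_add, amp_phiU, amp_phiU, add_sub_add_left_eq_sub]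
      have h1 := abs_amp_le (hu' N) j s
      have h2 := abs_amp_le (hu' N) none s
      linarith [abs_sub (amp (u N) j s) (amp (u N) none s)]⟩) (fun N a => by
      have h1 := hgap a
      have h2 : (w N).1 * l none - (w N).1 * l (some a) = (w N).1 * (l none - l (some a)) := by ring
      show 0 ≤ (w N).1 * l none - (w N).1 * l (some a) ∧
        (w N).1 * l none - (w N).1 * l (some a) ≤ Δ₁
      rw [h2]
      have h3 := hw0 N
      have h4 := (hw1 N).2
      constructor <;> nlinarith [h1.1, h1.2])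
  have hsum := (sum_sl_zero (hsp.1 none) hS hT hδ0 hb).eventually
    (Metric.closedBall_mem_nhds 1 (show 0 < e₁ / 2 by positivity))
  filter_upwards [hNpos, hW, hsum] with N hN hWN hsN Bd hBd
  have hNr : (0 : ℝ) < (S N).N := by exact_mod_cast hN
  have hv := up_val hsp hp hε.le hα₀0.le hB (show B ≤ R₀ by linarith) (S N) hN (hw0 N).le (hw1 N).2
    (fun s => by
      rw [abs_of_pos (hα₀0.trans_le (hw2 N s).1)]; linarith [(hw2 N s).2]) (hu' N) (by linarith)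
    (hval N)
  have htB : (w N).1 * B ≤ B := by nlinarith [(hw1 N).2]
  have hcap : ∀ s, (w N).2 s < A := by
    intro s
    have h1 := up_cap hsp hp hη hp0 hpη hB (S N) hN (hE N) (a := (w N).2) (E := 3 * ε + B)
      (fun s => (hα₀0.trans_le (hw2 N s).1).le) (by linarith) s
    by_contra hcon
    have h2 : (w N).2 s = A := le_antisymm (hw2 N s).2 (not_lt.1 hcon)
    rw [h2] at h1
    have h3 : η / (k + 1) * A = η / (k + 1) + 2 * C₀ := by rw [hA]; field_simp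
    have h4 : 0 < η / (k + 1) := by positivity
    have h5 : η / (k + 1) * A ≤ η / (k + 1) * A ^ 2 :=
      mul_le_mul_of_nonneg_left (by nlinarith) h4.le
    linarith
  have ht : (w N).1 = t₀ := by
    by_contra hcon
    have h1 : t₀ < (w N).1 := lt_of_le_of_ne (hw1 N).1 (Ne.symm hcon)
    have h2 := up_foc hsp (hp.mono hQ1) ((hTS.tp.prof N).mono (le_max_right _ _)) hp0 (hw0 N)
      (hw1 N).2 hB hcmp hε he₂0.le hne1 hne2 hα₀0 hD2 hD4 (a := (w N).2) (fun s => (hw2 N s).1)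
      (u := u N) (c := fun θ => 2 * u N θ / δ) (hu' N) hWN (by
        simpa [Real.dist_eq] using hsN) (fun s => hfα N s (hcap s))
    linarith [hft N h1]
  have h1 := hBd (extA (w N).2) (extA_zero _) (extA_bounds (by linarith) fun s =>
    ⟨(hα₀0.trans_le (hw2 N s).1).le, (hw2 N s).2⟩)
  have h2 : (S N).f k (mkP k (fun _ => 0) (fun _ => extA (w N).2) fun _ => 0) / (S N).N ≤
      Bd + (1 / 2) * ∑ s ∈ Finset.Icc 1 k, extA (w N).2 s ^ 2 * ptail k p s := by
    rw [div_le_iff₀ hNr]; linarith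
  rw [ht] at hv
  have h3 : (S N).Z l / (S N).N ≤ Bd + Gd k (cR γ l) p / 2 + e := by linarith
  rw [div_le_iff₀ hNr] at h3
  linarith

end Crest.Agent.R164
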