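import Crest.Agent.R164.FinB
import Crest.Agent.R164.Upper

/-!
# Row 164: FinU
**Upper bounds for discrete spectra.**
`disc_upper`: fix `v' ∈ (value, v)`, a large `L`; a cell is `z : Fin J → Fin L × Bool`: for `z a = (i, true)` require
`i/L ≤ M_a/n_a ≤ (i+1)/L`, anchor `m a = i/L`; for `(i, false)` require `-(i+1)/L ≤ M_a/n_a ≤ -i/L`, anchor `-i/L`
(`M_a` = sum of the spins of group `a`; cells may overlap, they cover).  For each cell pick a trial path `p` with
`S_m(p) + G(p) < v' - ∑ γ' c m`.  Apply `upper` to `lab1 (pp N) π_N 0`, `π_N = uniformOn cell` if nonempty (else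
uniform), `p̄ = pbar k η p` (`Gd_pbar_le`, `pbar_prof`).  The hypothesis of `upper` follows from `gz_init` with the
fields `b a` of `exists_osM` (their sign is that of `m a`, so `b a (M_a - n_a m a) ≥ 0` on the cell),
`c₀ = log (2^N/|cell|) - ∑ n_a b_a m_a`, `le_entropy`, and `-1 ≤ os1 b - b m ≤ k A²/2`.
Finally `logZ ≤ log #cells + max_cell (…)`, bound the max by the max of the means plus
`∑_cells |logZ_cell - mean|` (`logZ_conc`).
-/

set_option autoImplicit false

open MeasureTheory ProbabilityTheory Filter Topology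
open scoped ENNReal BigOperators Matrix

noncomputable section

namespace Crest.Agent.R164

open Crest.ProbabilityR.InvariantGlass

variable {κ : Type} [Fintype κ] [DecidableEq κ] {γ l : Option κ → ℝ}

theorem fu_sqrt_max (x : ℝ) : √(max x 0) = √x := by
  rcases le_total x 0 with hx | hx
  · rw [max_eq_right hx, Real.sqrt_zero, Real.sqrt_eq_zero'.2 hx]
  · rw [max_eq_left hx]

theorem fu_lc_ge (z : ℝ) : |z| - 1 ≤ lc z := by
  rw [lc, Real.le_log_iff_exp_le (Real.cosh_pos z), ← Real.cosh_abs, Real.cosh_eq, Real.exp_sub,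
    div_le_div_iff₀ (Real.exp_pos 1) two_pos]
  have h1 := Real.add_one_le_exp 1
  have h2 := Real.exp_pos |z|
  have h3 := Real.exp_pos (-|z|)
  nlinarith

theorem fu_Ph_ge (k : ℕ) {h : ℕ → ℝ} (hh : ∀ r, 0 ≤ h r) (j : ℕ) (z : ℝ) :
    |z| - 1 ≤ Ph (uz1 k) (su k h) lc j z := by
  induction j generalizing z with
  | zero => exact fu_lc_ge z
  | succ j ih =>
    obtain ⟨L, hL⟩ := ob_c11 k hh j
    have hs := ob_sch k hh
    have h1 := ob_int hL.continuous hL.lip (uz1 k j) √(su k h j) z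
    rw [Ph, gaussOp_eq_pm]
    refine le_trans ?_ (integral_le_pm (hs.2.1 j) h1.1 h1.2)
    have hid : Integrable (fun g : ℝ => g) (gaussianReal 0 1) :=
      (memLp_id_gaussianReal (μ := 0) (v := 1) 1).integrable (by simp)
    have h2 : ∀ s : ℝ, |s| = 1 →
        s * z - 1 ≤ ∫ g, Ph (uz1 k) (su k h) lc j (z + √(su k h j) * g) ∂(gaussianReal 0 1) := by
      intro s hs1
      have h3 : ∫ g, (s * z - 1 + s * √(su k h j) * g) ∂(gaussianReal 0 1) = s * z - 1 := by
        rw [integral_add (integrable_const _) (hid.const_mul _), integral_const_mul,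
          integral_id_gaussianReal]
        simp
      rw [← h3]
      refine integral_mono ((integrable_const _).add (hid.const_mul _)) h1.1 fun g => ?_
      have h4 := ih (z + √(su k h j) * g)
      have h5 : s * (z + √(su k h j) * g) ≤ |z + √(su k h j) * g| := by
        refine (le_abs_self _).trans ?_
        rw [abs_mul, hs1, one_mul]
      simp only
      linarith
    rcases abs_cases z with hz | hz
    · have := h2 1 abs_one
      rw [hz.1]
      linarith
    · have := h2 (-1) (by simp)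
      rw [hz.1]
      linarith

theorem os1_ge (k : ℕ) (b : ℝ) (h : ℕ → ℝ) : |b| - 1 ≤ os1 k b h := by
  have e : os1 k b h = os1 k b (fun r => max (h r) 0) := by
    unfold os1
    congr 1
    funext x
    simp only [osH, fu_sqrt_max]
  have hh : ∀ r, 0 ≤ max (h r) 0 := fun r => le_max_right _ _
  rw [e, ob_os1 hh]
  linarith [fu_Ph_ge k hh (k + 1) b, hh 0]

theorem osM_sign {k : ℕ} {b : ℝ} {h : ℕ → ℝ} (hh : ∀ r, 0 ≤ h r) :
    (0 ≤ osM k b h → 0 ≤ b) ∧ (osM k b h ≤ 0 → b ≤ 0) := by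
  have hs := strictMono_deriv_Ph (ob_sch k hh) (k + 1)
  have h0 : deriv (Ph (uz1 k) (su k h) lc (k + 1)) 0 = 0 := by
    have h1 := deriv_comp_neg (Ph (uz1 k) (su k h) lc (k + 1)) 0
    simp only [Ph_neg, neg_zero] at h1
    change deriv (Ph (uz1 k) (su k h) lc (k + 1)) 0 = _ at h1
    linarith
  rw [osM_eq hh]
  exact ⟨fun h1 => hs.le_iff_le.1 (h0.trans_le h1), fun h1 => hs.le_iff_le.1 (h1.trans_eq h0.symm)⟩

theorem reg_lab1 {pp : (N : ℕ) → Fin N → Option κ}
    (hpp : ∀ j, Tendsto (fun N : ℕ => ((Finset.univ.filter fun i => pp N i = j).card : ℝ) / N) atTop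
      (𝓝 (γ j))) (π : (N : ℕ) → Measure (Fin N → Bool)) [∀ N, IsProbabilityMeasure (π N)]
    (E : (N : ℕ) → (Fin N → Bool) → ℝ) : Reg (fun N => lab1 (pp N) (π N) (E N)) γ := by
  have hN : ∀ N, (lab1 (pp N) (π N) (E N)).N = N := fun N => Fintype.card_fin N
  refine ⟨?_, fun j => ?_⟩
  · simp only [hN]
    exact tendsto_id
  · simp only [hN]
    exact hpp j

omit [Fintype κ] [DecidableEq κ] in
theorem fu_N {N : ℕ} (pp : Fin N → Option κ) (π : Measure (Fin N → Bool)) [IsProbabilityMeasure π]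
    (E : (Fin N → Bool) → ℝ) : (lab1 pp π E).N = N := Fintype.card_fin N

/-- The amplitudes that the model sees. -/
def fuA (k : ℕ) (α : ℕ → ℝ) (s : ℕ) : ℝ := if 1 ≤ s ∧ s ≤ k then α s else 0

/-- The variances that the model sees. -/
def fuH (k : ℕ) (α : ℕ → ℝ) (s : ℕ) : ℝ := fuA k α s ^ 2

theorem fuH_nonneg (k : ℕ) (α : ℕ → ℝ) (s : ℕ) : 0 ≤ fuH k α s := sq_nonneg _

theorem fu_ent (k : ℕ) (α P : ℕ → ℝ) (x : ℝ) :
    x - (1 / 2) * ∑ r ∈ Finset.range (k + 1), fuH k α r +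
      (1 / 2) * ∑ r ∈ Finset.Icc 1 k, fuH k α r * (1 - P r) =
      x - (1 / 2) * ∑ r ∈ Finset.Icc 1 k, α r ^ 2 * P r := by
  have h1 : ∑ r ∈ Finset.range (k + 1), fuH k α r = ∑ r ∈ Finset.Icc 1 k, α r ^ 2 := by
    rw [Finset.range_eq_Ico, Finset.sum_eq_sum_Ico_succ_bot (Nat.succ_pos k)]
    have h0 : fuH k α 0 = 0 := by simp [fuH, fuA]
    rw [h0, zero_add, Nat.succ_eq_add_one, Finset.Ico_add_one_right_eq_Icc]
    exact Finset.sum_congr rfl fun r hr => by rw [fuH, fuA, if_pos (Finset.mem_Icc.1 hr)]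
  have h2 : ∑ r ∈ Finset.Icc 1 k, fuH k α r * (1 - P r) =
      ∑ r ∈ Finset.Icc 1 k, α r ^ 2 - ∑ r ∈ Finset.Icc 1 k, α r ^ 2 * P r := by
    rw [← Finset.sum_sub_distrib]
    exact Finset.sum_congr rfl fun r hr => by rw [fuH, fuA, if_pos (Finset.mem_Icc.1 hr)]; ring
  rw [h1, h2]
  ring

theorem fu_sumH {k : ℕ} {α : ℕ → ℝ} {A : ℝ} (hα : ∀ s, 0 ≤ α s ∧ α s ≤ A) :
    ∑ r ∈ Finset.range (k + 1), fuH k α r ≤ (k + 1) * A ^ 2 := by
  have h1 : ∀ r ∈ Finset.range (k + 1), fuH k α r ≤ A ^ 2 := fun r _ => by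
    unfold fuH fuA
    split_ifs
    · exact pow_le_pow_left₀ (hα r).1 (hα r).2 2
    · simpa using sq_nonneg A
  simpa using Finset.sum_le_card_nsmul _ _ _ h1

omit [Fintype κ] [DecidableEq κ] in
theorem fu_init {N : ℕ} (pp : Fin N → Option κ) (π : Measure (Fin N → Bool))
    [IsProbabilityMeasure π] {E : (Fin N → Bool) → ℝ} (hE : ∀ σ, E σ = 0) (k : ℕ) {α : ℕ → ℝ}
    (hα : ∀ s, 0 ≤ α s) {c₀ : ℝ} {b : Fin N → ℝ}
    (hπ : ∀ σ, π.real {σ} ≤ Real.exp (c₀ + ∑ r, b r * spin σ r) / 2 ^ N) :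
    (lab1 pp π E).f k (mkP k (fun _ => 0) (fun _ => α) fun _ => 0) ≤
      c₀ + ∑ r, os1 k (b r) (fuH k α) := by
  have h1 : (lab1 pp π E).E0 (mkP k (fun _ => 0) (fun _ => α) fun _ => 0) = fun _ => 0 := by
    funext σ
    simp [BS.E0, fld, mkP, lab1, hE]
  have h2 : (lab1 pp π E).Λ (mkP k (fun _ => 0) (fun _ => α) fun _ => 0) = fun _ => 0 := rfl
  have h3 : (lab1 pp π E).A (mkP k (fun _ => 0) (fun _ => α) fun _ => 0) = fun _ => fuA k α := by
    funext i s
    unfold BS.A amp fuA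
    split_ifs with hs
    · simp only [mkP]
      rw [Nat.sub_add_cancel hs.1]
    · rfl
  unfold BS.f BS.fx gf
  rw [h1, h2, h3]
  have := haar_prob (ρ := Fin N) (ς := Fin N) rfl
  obtain ⟨B, hB⟩ := bdd_gz (ρ := Fin N) (ς := Fin N) (k := k) (π := π) (La := uLv)
    (E0 := fun _ => 0) (Λ := fun _ => 0) (𝔞 := fun _ => fuA k α) gok_zero
  have h4 : ∀ U : Orth (Fin N) (Fin N), gz k π uLv (fun _ => 0) (fun _ => 0) (fun _ => fuA k α)
      (fun _ _ _ => 0) U ≤ c₀ + ∑ r, os1 k (b r) (fuH k α) := fun U =>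
    gz_init (by simp [fuA]) (fun s => by unfold fuA; split_ifs; exacts [hα s, le_rfl])
      (by simpa only [Fintype.card_fin] using hπ) U
  have h5 := integral_mono (μ := haar (Fin N) (Fin N)) (hB.integrable' _) (integrable_const _) h4
  rw [integral_const, probReal_univ, one_smul] at h5
  exact h5

theorem fu_unif_real {N : ℕ} (σ : Fin N → Bool) :
    (uniformOn (Set.univ : Set (Fin N → Bool))).real {σ} = 1 / 2 ^ N := by
  simp [Measure.real, uniformOn_univ]

theorem disc_upper0 (hsp : IsSp γ l) {pp : (N : ℕ) → Fin N → Option κ}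
    (hpp : ∀ j, Tendsto (fun N : ℕ => ((Finset.univ.filter fun i => pp N i = j).card : ℝ) / N) atTop
      (𝓝 (γ j))) {v : ℝ} (hv : variationalValue (disc γ l) (l none) < v) :
    ∀ᶠ N in atTop, EP (fun i => l (pp N i)) (fun _ => 0) ≤ v := by
  obtain ⟨v', h1, h2⟩ := EReal.lt_iff_exists_real_btwn.1 hv
  have h2' : v' < v := EReal.coe_lt_coe_iff.1 h2
  obtain ⟨p, hp⟩ := iInf_lt_iff.1 h1
  obtain ⟨hp, hlt⟩ := iInf_lt_iff.1 hp
  have he : 0 < (v - v') / 2 := by linarith
  obtain ⟨k₀, η, hη0, hη1, hG⟩ := Gd_pbar_le hsp he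
  obtain ⟨k₁, hU⟩ := upper hsp he
  obtain ⟨A, hA, hU⟩ := hU (max k₀ k₁) (le_max_right _ _) η hη0
  set k := max k₀ k₁
  obtain ⟨q1, q2, q3⟩ := pbar_prof k hη0.le hη1 hp
  have hU' := hU _ q1 q2 q3 _ (reg_lab1 hpp (fun N => uniformOn Set.univ)
    (fun N σ => ∑ r, (0 : ℝ) * spin σ r)) (fun N σ => by simp [lab1])
  filter_upwards [hU', eventually_gt_atTop 0] with N hN hN0
  have hNr : (0 : ℝ) < N := Nat.cast_pos.2 hN0
  have hc : ((lab1 (pp N) (uniformOn Set.univ) (fun σ => ∑ r, (0 : ℝ) * spin σ r)).N : ℝ) = N := by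
    rw [fu_N]
  have h3 := hN (v' - spectralPart (disc γ l) (l none) p) fun α _ hα => by
    have h4 := fu_init (pp N) (uniformOn Set.univ) (E := fun σ => ∑ r, (0 : ℝ) * spin σ r)
      (fun σ => by simp) k (fun s => (hα s).1) (c₀ := 0) (b := fun _ => 0) fun σ => by
        rw [fu_unif_real]; simp
    have h5 := le_entropy0 k (fuH_nonneg k α) hη0.le hη1 hp
    have h6 := EReal.coe_lt_coe_iff.1 (lt_of_le_of_lt
      (by rw [EReal.coe_add]; exact add_le_add_left h5 _) hlt)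
    rw [fu_ent] at h6
    rw [Finset.sum_const, Finset.card_univ, Fintype.card_fin, nsmul_eq_mul, zero_add] at h4
    rw [hc]
    exact h4.trans (mul_le_mul_of_nonneg_left (by linarith) hNr.le)
  rw [EP_eq_Z, div_le_iff₀ hNr]
  rw [hc] at h3
  have h7 := hG k (le_max_left _ _) p hp
  refine h3.trans ?_
  rw [mul_comm]
  exact mul_le_mul_of_nonneg_right (by linarith) hNr.le

/-- A nonempty replacement of a set of configurations. -/
def fuS {N : ℕ} (s : Finset (Fin N → Bool)) : Finset (Fin N → Bool) :=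
  if s.Nonempty then s else Finset.univ

theorem fuS_nonempty {N : ℕ} (s : Finset (Fin N → Bool)) : (fuS s).Nonempty := by
  unfold fuS
  split_ifs with h
  exacts [h, Finset.univ_nonempty]

/-- The uniform law on a cell. -/
def fuP {N : ℕ} (s : Finset (Fin N → Bool)) : Measure (Fin N → Bool) := uniformOn (fuS s : Set _)

instance fuP_prob {N : ℕ} (s : Finset (Fin N → Bool)) : IsProbabilityMeasure (fuP s) :=
  isProbabilityMeasure_uniformOn (Finset.finite_toSet _) (Finset.coe_nonempty.2 (fuS_nonempty s))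

theorem fuP_real {N : ℕ} {s : Finset (Fin N → Bool)} (hs : s.Nonempty) (σ : Fin N → Bool) :
    (fuP s).real {σ} = if σ ∈ s then 1 / (s.card : ℝ) else 0 := by
  have h1 := uniformOn_apply_finset (s := s) (t := {σ})
  rw [Finset.coe_singleton] at h1
  rw [fuP, fuS, if_pos hs, Measure.real, h1]
  split_ifs with h
  · rw [Finset.inter_singleton_of_mem h]
    simp
  · rw [Finset.inter_singleton_of_notMem h]
    simp

theorem fu_integral {N : ℕ} {s : Finset (Fin N → Bool)} (hs : s.Nonempty)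
    (f : (Fin N → Bool) → ℝ) : ∫ σ, f σ ∂(fuP s) = (∑ σ ∈ s, f σ) / s.card := by
  rw [integral_fintype Integrable.of_finite]
  simp only [fuP_real hs, smul_eq_mul, ite_mul, zero_mul]
  rw [← Finset.sum_filter, Finset.filter_mem_eq_inter, Finset.univ_inter, Finset.sum_div]
  exact Finset.sum_congr rfl fun σ _ => by ring

theorem fu_cover {N : ℕ} {Z : Type} [Fintype Z] (cell : Z → Finset (Fin N → Bool))
    (hcov : ∀ σ, ∃ z, σ ∈ cell z) {E : (Fin N → Bool) → ℝ} {t : Z → ℝ}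
    (ht : ∀ z, ∀ σ ∈ cell z, E σ ≤ t z) (Λ : Fin N → ℝ) (U : Orth (Fin N) (Fin N)) {w : ℝ}
    (hw : ∀ z, (cell z).Nonempty → t z + Real.log ((cell z).card / 2 ^ N) +
      logZ (fuP (cell z)) (fun _ => 0) Λ U ≤ w) :
    logZ (uniformOn Set.univ) E Λ U ≤ Real.log (Fintype.card Z) + w := by
  classical
  set H : (Fin N → Bool) → ℝ := fun σ => (1 / 2) * ∑ i, Λ i * yv U σ i ^ 2 with hH
  have hZ : (0 : ℝ) < Fintype.card Z := by
    obtain ⟨z, _⟩ := hcov fun _ => true
    exact Nat.cast_pos.2 (Fintype.card_pos_iff.2 ⟨z⟩)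
  have h1 : ∀ z, ∑ σ ∈ cell z, 1 / 2 ^ N * Real.exp (t z + H σ) ≤ Real.exp w := fun z => by
    rcases (cell z).eq_empty_or_nonempty with h0 | h0
    · rw [h0, Finset.sum_empty]
      exact (Real.exp_pos w).le
    · have hc : (0 : ℝ) < (cell z).card := Nat.cast_pos.2 h0.card_pos
      have hs : 0 < ∑ σ ∈ cell z, Real.exp (0 + H σ) :=
        Finset.sum_pos (fun _ _ => Real.exp_pos _) h0
      refine le_trans (le_of_eq ?_) (Real.exp_le_exp.2 (hw z h0))
      rw [logZ, fu_integral h0, Real.exp_add, Real.exp_add, Real.exp_log (by positivity),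
        Real.exp_log (div_pos hs hc)]
      simp only [Real.exp_add, Real.exp_zero, one_mul, ← Finset.mul_sum, hH]
      field_simp
  rw [logZ, ← Real.log_exp w, ← Real.log_mul hZ.ne' (Real.exp_pos w).ne']
  refine Real.log_le_log (integral_exp_pos Integrable.of_finite) ?_
  rw [integral_fintype Integrable.of_finite]
  simp only [fu_unif_real, smul_eq_mul]
  calc ∑ σ, 1 / 2 ^ N * Real.exp (E σ + H σ)
      ≤ ∑ σ, ∑ z, if σ ∈ cell z then 1 / 2 ^ N * Real.exp (t z + H σ) else 0 := by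
        refine Finset.sum_le_sum fun σ _ => ?_
        obtain ⟨z, hz⟩ := hcov σ
        refine le_trans ?_ (Finset.single_le_sum (f := fun z => if σ ∈ cell z then
          1 / 2 ^ N * Real.exp (t z + H σ) else 0) (fun z' _ => by positivity) (Finset.mem_univ z))
        simp only [if_pos hz]
        have := ht z σ hz
        gcongr
    _ = ∑ z, ∑ σ ∈ cell z, 1 / 2 ^ N * Real.exp (t z + H σ) := by
        rw [Finset.sum_comm]
        refine Finset.sum_congr rfl fun z _ => ?_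
        rw [← Finset.sum_filter, Finset.filter_mem_eq_inter, Finset.univ_inter]
    _ ≤ ∑ _z : Z, Real.exp w := Finset.sum_le_sum fun z _ => h1 z
    _ = Fintype.card Z * Real.exp w := by simp

omit [Fintype κ] [DecidableEq κ] in
theorem fu_cover_mean {N : ℕ} {Z : Type} [Fintype Z] (cell : Z → Finset (Fin N → Bool))
    (hcov : ∀ σ, ∃ z, σ ∈ cell z) {E : (Fin N → Bool) → ℝ} {t : Z → ℝ}
    (ht : ∀ z, ∀ σ ∈ cell z, E σ ≤ t z) (pp : Fin N → Option κ) (l : Option κ → ℝ) {w D : ℝ}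
    (hw : ∀ z, (cell z).Nonempty → t z + Real.log ((cell z).card / 2 ^ N) +
      (lab1 pp (fuP (cell z)) fun _ => 0).Z l ≤ w)
    (hD : ∀ z, ∫ U, |logZ (fuP (cell z)) (fun _ => 0) (fun i => l (pp i)) U -
      (lab1 pp (fuP (cell z)) fun _ => 0).Z l| ∂(haar (Fin N) (Fin N)) ≤ D) :
    (lab1 pp (uniformOn Set.univ) E).Z l ≤ Real.log (Fintype.card Z) + w + Fintype.card Z * D := by
  have := haar_prob (ρ := Fin N) (ς := Fin N) rfl
  set F : Z → Orth (Fin N) (Fin N) → ℝ := fun z U =>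
    |logZ (fuP (cell z)) (fun _ => 0) (fun i => l (pp i)) U -
      (lab1 pp (fuP (cell z)) fun _ => 0).Z l| with hF
  have hi : ∀ z, Integrable (F z) (haar (Fin N) (Fin N)) := fun z => by
    obtain ⟨B, hB⟩ := bdd_logZ (ρ := Fin N) (π := fuP (cell z)) (E0 := fun _ => 0)
      (Λ := fun i => l (pp i))
    exact ((hB.integrable' _).sub (integrable_const _)).abs
  have h1 : ∀ U, logZ (uniformOn Set.univ) E (fun i => l (pp i)) U ≤
      Real.log (Fintype.card Z) + w + ∑ z, F z U := fun U => by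
    rw [add_assoc]
    refine fu_cover cell hcov ht _ U fun z hz => ?_
    have h2 := hw z hz
    have h3 : F z U ≤ ∑ z, F z U :=
      Finset.single_le_sum (f := fun z => F z U) (fun _ _ => abs_nonneg _) (Finset.mem_univ z)
    have h4 := le_abs_self (logZ (fuP (cell z)) (fun _ => 0) (fun i => l (pp i)) U -
      (lab1 pp (fuP (cell z)) fun _ => 0).Z l)
    simp only [hF] at h3 ⊢
    linarith
  obtain ⟨B, hB⟩ := bdd_logZ (ρ := Fin N) (π := uniformOn Set.univ) (E0 := E)
    (Λ := fun i => l (pp i))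
  have h5 := integral_mono (μ := haar (Fin N) (Fin N)) (hB.integrable' _)
    ((integrable_const _).add (integrable_finsetSum _ fun z _ => hi z)) h1
  rw [integral_add' (integrable_const _) (integrable_finsetSum _ fun z _ => hi z), integral_const,
    probReal_univ, one_smul, integral_finsetSum _ fun z _ => hi z] at h5
  refine h5.trans ?_
  have h6 : ∑ z, ∫ U, F z U ∂(haar (Fin N) (Fin N)) ≤ ∑ _z : Z, D :=
    Finset.sum_le_sum fun z _ => hD z
  simp only [Finset.sum_const, Finset.card_univ, nsmul_eq_mul] at h6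
  linarith

theorem fu_fiber {N J : ℕ} (lab : Fin N → Fin J) (f : Fin J → ℝ) (g : Fin N → ℝ) :
    ∑ r, f (lab r) * g r = ∑ a, f a * ∑ r ∈ Finset.univ.filter (fun r => lab r = a), g r := by
  rw [← Finset.sum_fiberwise Finset.univ lab]
  refine Finset.sum_congr rfl fun a _ => ?_
  rw [Finset.mul_sum]
  refine Finset.sum_congr rfl fun r hr => ?_
  rw [(Finset.mem_filter.1 hr).2]

/-- Group sizes. -/
def fuN {N J : ℕ} (lab : Fin N → Fin J) (a : Fin J) : ℝ :=
  ((Finset.univ.filter fun r => lab r = a).card : ℝ)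

/-- Group magnetisations. -/
def fuMag {N J : ℕ} (lab : Fin N → Fin J) (σ : Fin N → Bool) (a : Fin J) : ℝ :=
  ∑ r ∈ Finset.univ.filter (fun r => lab r = a), spin σ r

theorem fu_fiber1 {N J : ℕ} (lab : Fin N → Fin J) (f : Fin J → ℝ) :
    ∑ r, f (lab r) = ∑ a, fuN lab a * f a := by
  have := fu_fiber lab f fun _ => 1
  simpa [fuN, mul_comm] using this

theorem fu_mag_le {N J : ℕ} (lab : Fin N → Fin J) (σ : Fin N → Bool) (a : Fin J) :
    |fuMag lab σ a| ≤ fuN lab a := by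
  refine (Finset.abs_sum_le_sum_abs _ _).trans_eq ?_
  simp [spin, abs_sgn, fuN]

theorem fuN_le {N J : ℕ} (lab : Fin N → Fin J) (a : Fin J) : 0 ≤ fuN lab a ∧ fuN lab a ≤ N := by
  refine ⟨Nat.cast_nonneg _, ?_⟩
  have := Finset.card_filter_le (Finset.univ : Finset (Fin N)) fun r => lab r = a
  rw [Finset.card_univ, Fintype.card_fin] at this
  exact Nat.cast_le.2 this

/-- The anchor of a cell. -/
def fuM {J L : ℕ} (z : Fin J → Fin L × Bool) (a : Fin J) : ℚ :=
  (if (z a).2 then 1 else -1) * ((((z a).1 : ℕ) : ℚ) / L)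

theorem fuM_cast {J L : ℕ} (z : Fin J → Fin L × Bool) (a : Fin J) :
    (fuM z a : ℝ) = sgn (z a).2 * ((((z a).1 : ℕ) : ℝ) / L) := by
  unfold fuM sgn
  split_ifs <;> simp

theorem fuM_abs {J L : ℕ} (z : Fin J → Fin L × Bool) (a : Fin J) : |(fuM z a : ℝ)| < 1 := by
  have h1 : (((z a).1 : ℕ) : ℝ) < L := Nat.cast_lt.2 (z a).1.2
  have h2 : (0 : ℝ) ≤ ((z a).1 : ℕ) := Nat.cast_nonneg _
  rw [fuM_cast, abs_mul, abs_sgn, one_mul, abs_of_nonneg (by positivity)]
  exact (div_lt_one (h2.trans_lt h1)).2 h1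

theorem fuM_mem {J L : ℕ} (z : Fin J → Fin L × Bool) (a : Fin J) :
    (-1 : ℚ) < fuM z a ∧ fuM z a < 1 := by
  have := abs_lt.1 (fuM_abs z a)
  exact ⟨by exact_mod_cast this.1, by exact_mod_cast this.2⟩

open Classical in
/-- The cells. -/
def fuCell {N J L : ℕ} (lab : Fin N → Fin J) (z : Fin J → Fin L × Bool) : Finset (Fin N → Bool) :=
  Finset.univ.filter fun σ => ∀ a, 0 ≤ sgn (z a).2 * (fuMag lab σ a - fuN lab a * fuM z a) ∧
    |fuMag lab σ a - fuN lab a * fuM z a| ≤ fuN lab a / L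

theorem fu_slot {d : ℝ} (L : ℕ) {x : ℝ} (h0 : 0 ≤ x) (h1 : x ≤ (L + 1 : ℕ) * d) :
    ∃ i : ℕ, i < L + 1 ∧ i * d ≤ x ∧ x ≤ (i + 1) * d := by
  induction L with
  | zero => exact ⟨0, one_pos, by simpa using h0, by simpa using h1⟩
  | succ L ih =>
    rcases le_total x ((L + 1 : ℕ) * d) with h | h
    · obtain ⟨i, a1, a2⟩ := ih h
      exact ⟨i, by omega, a2⟩
    · exact ⟨L + 1, by omega, h, by exact_mod_cast h1⟩

theorem fu_cov {N J L : ℕ} (lab : Fin N → Fin J) (σ : Fin N → Bool) :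
    ∃ z : Fin J → Fin (L + 1) × Bool, σ ∈ fuCell lab z := by
  have hL : (0 : ℝ) < (L + 1 : ℕ) := Nat.cast_pos.2 (Nat.succ_pos L)
  have h1 : ∀ a, ∃ y : Fin (L + 1) × Bool,
      0 ≤ sgn y.2 * (fuMag lab σ a - fuN lab a * (sgn y.2 * (((y.1 : ℕ) : ℝ) / (L + 1 : ℕ)))) ∧
      |fuMag lab σ a - fuN lab a * (sgn y.2 * (((y.1 : ℕ) : ℝ) / (L + 1 : ℕ)))| ≤
        fuN lab a / (L + 1 : ℕ) := fun a => by
    obtain ⟨i, a1, a2, a3⟩ := fu_slot (d := fuN lab a / (L + 1 : ℕ)) L (abs_nonneg (fuMag lab σ a))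
      ((fu_mag_le lab σ a).trans_eq (by field_simp))
    have e1 : fuN lab a * ((i : ℝ) / (L + 1 : ℕ)) = i * (fuN lab a / (L + 1 : ℕ)) := by ring
    rcases abs_cases (fuMag lab σ a) with h | h
    · rw [h.1] at a2 a3
      refine ⟨(⟨i, a1⟩, true), ?_, ?_⟩
      · simp only [sgn, if_true, one_mul, e1]
        linarith
      · simp only [sgn, if_true, one_mul, e1]
        rw [abs_le]
        constructor <;> linarith
    · rw [h.1] at a2 a3
      refine ⟨(⟨i, a1⟩, false), ?_, ?_⟩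
      · simp only [sgn, Bool.false_eq_true, if_false, neg_mul, one_mul, mul_neg, e1]
        linarith
      · simp only [sgn, Bool.false_eq_true, if_false, neg_mul, one_mul, mul_neg, e1]
        rw [abs_le]
        constructor <;> linarith
  choose z hz using h1
  refine ⟨z, ?_⟩
  simp only [fuCell, Finset.mem_filter, Finset.mem_univ, true_and, fuM_cast]
  exact hz

theorem fu_energy {N J L : ℕ} (lab : Fin N → Fin J) (c : Fin J → ℝ) (z : Fin J → Fin L × Bool)
    {σ : Fin N → Bool} (hσ : σ ∈ fuCell lab z) :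
    ∑ r, c (lab r) * spin σ r ≤ ∑ a, c a * (fuN lab a * fuM z a) + (∑ a, |c a|) / L * N := by
  simp only [fuCell, Finset.mem_filter, Finset.mem_univ, true_and] at hσ
  rw [fu_fiber, Finset.sum_div, Finset.sum_mul, ← Finset.sum_add_distrib]
  refine Finset.sum_le_sum fun a _ => ?_
  have h1 := (hσ a).2
  have h2 : c a * (fuMag lab σ a - fuN lab a * fuM z a) ≤ |c a| * (fuN lab a / L) := by
    refine (le_abs_self _).trans ?_
    rw [abs_mul]
    exact mul_le_mul_of_nonneg_left h1 (abs_nonneg _)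
  have h3 : |c a| * (fuN lab a / L) ≤ |c a| / L * N := by
    rw [show |c a| / L * N = |c a| * (N / L) by ring]
    have := (fuN_le lab a).2
    gcongr
  change c a * fuMag lab σ a ≤ _
  linarith

theorem fu_prior {N J L : ℕ} (lab : Fin N → Fin J) (z : Fin J → Fin L × Bool)
    (hne : (fuCell lab z).Nonempty) {k : ℕ} {h : ℕ → ℝ} (hh : ∀ r, 0 ≤ h r) {b : Fin J → ℝ}
    (hb : ∀ a, osM k (b a) h = fuM z a) (σ : Fin N → Bool) :
    (fuP (fuCell lab z)).real {σ} ≤
      Real.exp (-Real.log ((fuCell lab z).card / 2 ^ N) - ∑ a, b a * (fuN lab a * fuM z a) +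
        ∑ r, b (lab r) * spin σ r) / 2 ^ N := by
  rw [fuP_real hne]
  split_ifs with hσ
  · have hc : (0 : ℝ) < (fuCell lab z).card := Nat.cast_pos.2 hne.card_pos
    simp only [fuCell, Finset.mem_filter, Finset.mem_univ, true_and] at hσ
    have h1 : ∑ a, b a * (fuN lab a * fuM z a) ≤ ∑ r, b (lab r) * spin σ r := by
      rw [fu_fiber lab b]
      refine Finset.sum_le_sum fun a _ => ?_
      have h2 := (hσ a).1
      have h3 := osM_sign (k := k) (b := b a) hh
      have h4 : (0 : ℝ) ≤ (((z a).1 : ℕ) : ℝ) / L := by positivity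
      rw [hb a, fuM_cast] at h3
      change _ ≤ b a * fuMag lab σ a
      cases hz : (z a).2
      · rw [hz] at h2 h3
        simp only [sgn, Bool.false_eq_true, if_false] at h2 h3
        have := h3.2 (by linarith)
        nlinarith
      · rw [hz] at h2 h3
        simp only [sgn, if_true] at h2 h3
        have := h3.1 (by linarith)
        nlinarith
    have h5 : 1 / ((fuCell lab z).card : ℝ) =
        Real.exp (-Real.log ((fuCell lab z).card / 2 ^ N)) / 2 ^ N := by
      rw [Real.exp_neg, Real.exp_log (by positivity)]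
      field_simp
    rw [h5]
    gcongr
    linarith
  · positivity

theorem fu_u_bound {k : ℕ} {h : ℕ → ℝ} (hh : ∀ r, 0 ≤ h r) {b m S : ℝ} (hb : osM k b h = m)
    (hm : |m| < 1) (hS : ∑ r ∈ Finset.range (k + 1), h r ≤ S) : |os1 k b h - b * m| ≤ 1 + S := by
  have h1 := os1_ge k b h
  have h2 := os1_tangent (k := k) (b := b) hh 0
  have h3 := (os1_bounds (k := k) (b := 0) hh).2
  have h4 : 0 ≤ ∑ r ∈ Finset.range (k + 1), h r := Finset.sum_nonneg fun r _ => hh r
  have h5 : b * m ≤ |b| := by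
    refine (le_abs_self _).trans ?_
    rw [abs_mul]
    exact mul_le_of_le_one_right (abs_nonneg _) hm.le
  rw [hb] at h2
  rw [abs_zero] at h3
  rw [abs_le]
  constructor <;> linarith

theorem fu_prop {J : ℕ} {γ' : Fin J → ℝ} {lab : (N : ℕ) → Fin N → Fin J}
    (hlab : ∀ a, Tendsto (fun N : ℕ => ((Finset.univ.filter fun r => lab N r = a).card : ℝ) / N) atTop
      (𝓝 (γ' a))) (K : ℝ) {e : ℝ} (he : 0 < e) :
    ∀ᶠ N : ℕ in atTop, ∀ u : Fin J → ℝ, (∀ a, |u a| ≤ K) →
      ∑ a, fuN (lab N) a * u a ≤ N * (∑ a, γ' a * u a + e) := by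
  have h1 : Tendsto (fun N : ℕ => ∑ a, |fuN (lab N) a / N - γ' a| * K) atTop (𝓝 0) := by
    have := tendsto_finsetSum Finset.univ fun a _ =>
      (((hlab a).sub_const (γ' a)).abs.mul_const K)
    simpa [fuN] using this
  filter_upwards [h1.eventually (gt_mem_nhds he), eventually_gt_atTop 0] with N hN hN0 u hu
  have hNr : (0 : ℝ) < N := Nat.cast_pos.2 hN0
  have h2 : ∑ a, fuN (lab N) a * u a =
      N * (∑ a, γ' a * u a + ∑ a, (fuN (lab N) a / N - γ' a) * u a) := by
    rw [← Finset.sum_add_distrib, Finset.mul_sum]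
    refine Finset.sum_congr rfl fun a _ => ?_
    field_simp
    ring
  rw [h2]
  refine mul_le_mul_of_nonneg_left (add_le_add_right (le_trans ?_ hN.le) _) hNr.le
  refine Finset.sum_le_sum fun a _ => (le_abs_self _).trans ?_
  rw [abs_mul]
  exact mul_le_mul_of_nonneg_left (hu a) (abs_nonneg _)

theorem fu_cell (hsp : IsSp γ l) {pp : (N : ℕ) → Fin N → Option κ}
    (hpp : ∀ j, Tendsto (fun N : ℕ => ((Finset.univ.filter fun i => pp N i = j).card : ℝ) / N) atTop
      (𝓝 (γ j))) {J : ℕ} {γ' : Fin J → ℚ} (h1 : ∑ a, γ' a = 1) {lab : (N : ℕ) → Fin N → Fin J}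
    (hlab : ∀ a, Tendsto (fun N : ℕ => ((Finset.univ.filter fun r => lab N r = a).card : ℝ) / N) atTop
      (𝓝 (γ' a : ℝ))) {L : ℕ} (z : Fin J → Fin L × Bool) {w e : ℝ} (he : 0 < e) {p : ℝ → ℝ}
    (hp : IsTrialPath p) (hlt : constrainedEntropyPart γ' (fuM z) p +
      ((spectralPart (disc γ l) (l none) p : ℝ) : EReal) < w) :
    ∀ᶠ N : ℕ in atTop, (fuCell (lab N) z).Nonempty →
      Real.log ((fuCell (lab N) z).card / 2 ^ N) +
        (lab1 (pp N) (fuP (fuCell (lab N) z)) fun _ => 0).Z l ≤ N * (w + 3 * e) := by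
  obtain ⟨k₀, η, hη0, hη1, hG⟩ := Gd_pbar_le hsp he
  obtain ⟨k₁, hU⟩ := upper hsp he
  obtain ⟨A, hA, hU⟩ := hU (max k₀ k₁) (le_max_right _ _) η hη0
  set k := max k₀ k₁
  obtain ⟨q1, q2, q3⟩ := pbar_prof k hη0.le hη1 hp
  have hU' := hU _ q1 q2 q3 _ (reg_lab1 hpp (fun N => fuP (fuCell (lab N) z))
    (fun N σ => 0)) (fun N σ => rfl)
  have h1' : ∑ a, (γ' a : ℝ) = 1 := by exact_mod_cast h1
  filter_upwards [hU', eventually_gt_atTop 0,
    fu_prop hlab (1 + (k + 1) * A ^ 2) he] with N hN hN0 hK hne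
  have hNr : (0 : ℝ) < N := Nat.cast_pos.2 hN0
  have hc : ((lab1 (pp N) (fuP (fuCell (lab N) z)) (fun _ => 0)).N : ℝ) = N := by rw [fu_N]
  set T := Real.log ((fuCell (lab N) z).card / 2 ^ N) with hT
  have h3 := hN (-T / N + w - spectralPart (disc γ l) (l none) p + e) fun α _ hα => by
    have hh := fuH_nonneg k α
    choose b hb using fun a => exists_osM k hh (fuM_abs z a)
    have h4 := fu_init (pp N) (fuP (fuCell (lab N) z)) (E := fun _ => 0) (fun _ => rfl) k
      (fun s => (hα s).1) (fu_prior (lab N) z hne hh hb)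
    have h5 := le_entropy (γ := γ') k hh hb hη0.le hη1 hp
    have h6 := EReal.coe_lt_coe_iff.1 (lt_of_le_of_lt
      (by rw [EReal.coe_add]; exact add_le_add_left h5 _) hlt)
    have h7 : ∑ g, (γ' g : ℝ) * (os1 k (b g) (fuH k α) -
        (1 / 2) * ∑ r ∈ Finset.range (k + 1), fuH k α r - b g * fuM z g) =
        ∑ g, (γ' g : ℝ) * (os1 k (b g) (fuH k α) - b g * fuM z g) -
          (1 / 2) * ∑ r ∈ Finset.range (k + 1), fuH k α r := by
      generalize (1 / 2) * ∑ r ∈ Finset.range (k + 1), fuH k α r = X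
      have e1 : ∑ g, (γ' g : ℝ) * X = X := by rw [← Finset.sum_mul, h1', one_mul]
      rw [eq_sub_iff_add_eq, ← e1, ← Finset.sum_add_distrib, e1]
      exact Finset.sum_congr rfl fun g _ => by ring
    rw [h7, fu_ent] at h6
    have h8 := hK (fun a => os1 k (b a) (fuH k α) - b a * fuM z a) fun a =>
      fu_u_bound hh (hb a) (fuM_abs z a) (fu_sumH hα)
    rw [fu_fiber1 (lab N) fun a => os1 k (b a) (fuH k α), ← hT] at h4
    have h9 : ∑ a, fuN (lab N) a * (os1 k (b a) (fuH k α) - b a * fuM z a) =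
        ∑ a, fuN (lab N) a * os1 k (b a) (fuH k α) - ∑ a, b a * (fuN (lab N) a * fuM z a) := by
      rw [← Finset.sum_sub_distrib]
      exact Finset.sum_congr rfl fun a _ => by ring
    rw [hc]
    refine h4.trans ?_
    have h10 : (N : ℝ) * (-T / N) = -T := by field_simp
    have h11 := mul_le_mul_of_nonneg_left h6.le hNr.le
    rw [h9] at h8
    nlinarith
  rw [hc] at h3
  have h7 := hG k (le_max_left _ _) p hp
  have h10 : (N : ℝ) * (-T / N) = -T := by field_simp
  have h11 := mul_le_mul_of_nonneg_left h7 hNr.le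
  nlinarith

theorem fu_small (a b : ℝ) {e : ℝ} (he : 0 < e) : ∀ᶠ N : ℕ in atTop, a + b * √N ≤ e * N := by
  have h1 : Tendsto (fun N : ℕ => √(N : ℝ)) atTop atTop :=
    Real.tendsto_sqrt_atTop.comp tendsto_natCast_atTop_atTop
  filter_upwards [h1.eventually_ge_atTop ((|a| + |b|) / e), h1.eventually_ge_atTop 1] with N h2 h3
  have h4 : √(N : ℝ) * √(N : ℝ) = N := Real.mul_self_sqrt (Nat.cast_nonneg N)
  rw [div_le_iff₀ he] at h2
  have h5 := le_abs_self a
  have h6 := le_abs_self b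
  have h7 := abs_nonneg a
  have h8 := abs_nonneg b
  have h9 := mul_le_mul_of_nonneg_right h2 (zero_le_one.trans h3)
  have h10 := mul_le_mul_of_nonneg_right h6 (zero_le_one.trans h3)
  have h11 := mul_le_mul_of_nonneg_left h3 h7
  have h12 : √(N : ℝ) * e * √(N : ℝ) = e * N := by rw [mul_comm _ e, mul_assoc, h4]
  linarith

theorem disc_upper (hsp : IsSp γ l) {pp : (N : ℕ) → Fin N → Option κ}
    (hpp : ∀ j, Tendsto (fun N : ℕ => ((Finset.univ.filter fun i => pp N i = j).card : ℝ) / N) atTop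
      (𝓝 (γ j))) {J : ℕ} (c : Fin J → ℝ) {γ' : Fin J → ℚ} (hγ' : ∀ a, 0 < γ' a)
    (h1 : ∑ a, γ' a = 1) {lab : (N : ℕ) → Fin N → Fin J}
    (hlab : ∀ a, Tendsto (fun N : ℕ => ((Finset.univ.filter fun r => lab N r = a).card : ℝ) / N) atTop
      (𝓝 (γ' a : ℝ))) {v : ℝ} (hv : magneticValue (disc γ l) (l none) c γ' < v) :
    ∀ᶠ N in atTop, EP (fun i => l (pp N i)) (fun r => c (lab N r)) ≤ v := by
  obtain ⟨v', hv1, hv2⟩ := EReal.lt_iff_exists_real_btwn.1 hv
  have hv2' : v' < v := EReal.coe_lt_coe_iff.1 hv2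
  have he : 0 < (v - v') / 6 := by linarith
  set e := (v - v') / 6 with he'
  obtain ⟨L, hL⟩ := exists_nat_ge ((∑ a, |c a|) / e)
  have hL1 : (0 : ℝ) < (L + 1 : ℕ) := Nat.cast_pos.2 (Nat.succ_pos L)
  have hL2 : (∑ a, |c a|) / (L + 1 : ℕ) ≤ e := by
    rw [div_le_iff₀ he] at hL
    rw [div_le_iff₀ hL1]
    push_cast
    nlinarith
  have hp : ∀ z : Fin J → Fin (L + 1) × Bool, ∃ p, IsTrialPath p ∧
      constrainedEntropyPart γ' (fuM z) p + ((spectralPart (disc γ l) (l none) p : ℝ) : EReal) <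
        ((v' - ∑ a, (γ' a : ℝ) * c a * fuM z a : ℝ) : EReal) := fun z => by
    by_contra hcon
    push Not at hcon
    have h2 : ((v' - ∑ a, (γ' a : ℝ) * c a * fuM z a : ℝ) : EReal) ≤
        ⨅ (p : ℝ → ℝ) (_ : IsTrialPath p), constrainedEntropyPart γ' (fuM z) p +
          ((spectralPart (disc γ l) (l none) p : ℝ) : EReal) := le_iInf₂ hcon
    have h3 : ((∑ a, (γ' a : ℝ) * c a * fuM z a : ℝ) : EReal) +
        ⨅ (p : ℝ → ℝ) (_ : IsTrialPath p), constrainedEntropyPart γ' (fuM z) p +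
          ((spectralPart (disc γ l) (l none) p : ℝ) : EReal) ≤
        magneticValue (disc γ l) (l none) c γ' :=
      le_iSup₂_of_le (f := fun (m : Fin J → ℚ) (_ : ∀ j, (-1 : ℚ) < m j ∧ m j < 1) =>
        ((∑ j : Fin J, ((γ' j : ℚ) : ℝ) * c j * ((m j : ℚ) : ℝ) : ℝ) : EReal) +
          ⨅ (p : ℝ → ℝ) (_ : IsTrialPath p), constrainedEntropyPart γ' m p +
            ((spectralPart (disc γ l) (l none) p : ℝ) : EReal)) (fuM z) (fuM_mem z) le_rfl
    have h4 := ((add_le_add_right h2 _).trans h3).trans_lt hv1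
    rw [← EReal.coe_add, EReal.coe_lt_coe_iff] at h4
    linarith
  choose p hp1 hp2 using hp
  have hg : 0 < γ none / 2 := half_pos (hsp.1 none)
  obtain ⟨C, c', hC, -, hconc⟩ := logZ_conc l hg
  have hcell := eventually_all.2 fun z : Fin J → Fin (L + 1) × Bool =>
    fu_cell hsp hpp h1 hlab z he (hp1 z) (hp2 z)
  filter_upwards [hcell, eventually_gt_atTop 0,
    fu_prop hlab (∑ a, |c a|) he,
    (hpp none).eventually (lt_mem_nhds (half_lt_self (hsp.1 none))),
    fu_small (Real.log (Fintype.card (Fin J → Fin (L + 1) × Bool)))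
      (Fintype.card (Fin J → Fin (L + 1) × Bool) * C) he] with N hN hN0 hK hfat hsm
  have hNr : (0 : ℝ) < N := Nat.cast_pos.2 hN0
  rw [lt_div_iff₀ hNr] at hfat
  have h2 := fu_cover_mean (fun z : Fin J → Fin (L + 1) × Bool => fuCell (lab N) z)
    (fu_cov (lab N)) (fun z σ hσ => fu_energy (lab N) c z hσ) (pp N) l (w := N * (v' + 5 * e))
    (D := C * √N) (fun z hz => ?_) fun z => (hconc N (pp N) _ _ hN0 hfat.le).1
  · rw [EP_eq_Z, div_le_iff₀ hNr]
    have h3 : v * N = N * (v' + 5 * e) + e * N := by rw [he']; ring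
    linarith
  · have h3 := hN z hz
    have h4 := hK (fun a => c a * fuM z a) fun a => by
      rw [abs_mul]
      exact (mul_le_of_le_one_right (abs_nonneg _) (fuM_abs z a).le).trans
        (Finset.single_le_sum (f := fun a => |c a|) (fun _ _ => abs_nonneg _) (Finset.mem_univ a))
    have h5 : ∑ a, c a * (fuN (lab N) a * fuM z a) = ∑ a, fuN (lab N) a * (c a * fuM z a) :=
      Finset.sum_congr rfl fun a _ => by ring
    have h6 : ∑ a, (γ' a : ℝ) * c a * fuM z a = ∑ a, (γ' a : ℝ) * (c a * fuM z a) :=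
      Finset.sum_congr rfl fun a _ => by ring
    have h7 := mul_le_mul_of_nonneg_right hL2 hNr.le
    rw [h6] at h3
    rw [h5]
    nlinarith

end Crest.Agent.R164
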