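import Crest.Agent.R164.Gen
import Crest.Agent.R164.Transport

/-!
# Row 164: the three statements
-/

set_option autoImplicit false

open MeasureTheory ProbabilityTheory Filter Topology
open scoped ENNReal BigOperators Matrix

noncomputable section

namespace Crest.Agent.R164

open Crest.ProbabilityR.InvariantGlass

section
variable (μ : Measure ℝ) [IsProbabilityMeasure μ] (lamMinus lamPlus : ℝ) (hle : lamMinus ≤ lamPlus)
  (hsupp : μ (Set.Icc lamMinus lamPlus) = 1)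
  (hedge : ∀ ε : ℝ, 0 < ε →
    0 < μ (Set.Icc lamMinus (lamMinus + ε)) ∧ 0 < μ (Set.Icc (lamPlus - ε) lamPlus))
  (eig : (N : ℕ) → Fin N → ℝ)
  (hweak : ∀ φ : ℝ → ℝ, Continuous φ → (∃ C : ℝ, ∀ x, |φ x| ≤ C) →
    Tendsto (fun N : ℕ => (1 / (N : ℝ)) * ∑ i : Fin N, φ (eig N i)) atTop (𝓝 (∫ x, φ x ∂μ)))
  (hext : ∀ ε : ℝ, 0 < ε → ∀ᶠ N : ℕ in atTop, ∀ i : Fin N,
    lamMinus - ε ≤ eig N i ∧ eig N i ≤ lamPlus + ε)
  {Ω : Type} [MeasurableSpace Ω] (P : Measure Ω) [IsProbabilityMeasure P]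
  (Us : (N : ℕ) → Ω → (Fin N → Fin N → ℝ)) (hmeas : ∀ N, Measurable (Us N))
  (horth : ∀ N, ∀ᵐ ω ∂P, Matrix.of (Us N ω) ∈ Matrix.orthogonalGroup (Fin N) ℝ)
  (hHaar : ∀ (N : ℕ) (O : Matrix (Fin N) (Fin N) ℝ), O ∈ Matrix.orthogonalGroup (Fin N) ℝ →
    P.map (fun ω => fun i j => (Matrix.of (Us N ω) * O) i j) = P.map (Us N))
include hle hsupp hedge hweak hext hmeas horth hHaar

theorem both_of_EP (c : (N : ℕ) → Fin N → ℝ) {F : ℝ}
    (hF : Tendsto (fun N => EP (eig N) (c N)) atTop (𝓝 F)) :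
    Tendsto (fun N : ℕ => ∫ ω, pressureFieldN (eig N) (Matrix.of (Us N ω)) (c N) ∂P) atTop (𝓝 F) ∧
      ∀ᵐ ω ∂P, Tendsto (fun N : ℕ => pressureFieldN (eig N) (Matrix.of (Us N ω)) (c N)) atTop
        (𝓝 F) := by
  constructor
  · refine hF.congr fun N => ?_
    exact (integral_pressure P (Us N) (hmeas N) (horth N) (hHaar N) (eig N) (c N)).symm
  · filter_upwards [gen_conc μ lamMinus lamPlus hle hsupp hedge eig hweak hext c P Us hmeas horth
      hHaar] with ω hω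
    have := hω.add hF
    simpa using this

theorem main247 : ∃ F : ℝ, variationalValue μ lamPlus = (F : EReal) ∧
    Tendsto (fun N : ℕ => ∫ ω, pressureN (eig N) (Matrix.of (Us N ω)) ∂P) atTop (𝓝 F) ∧
      ∀ᵐ ω ∂P, Tendsto (fun N : ℕ => pressureN (eig N) (Matrix.of (Us N ω))) atTop (𝓝 F) := by
  obtain ⟨F, h1, h2⟩ := gen_limit0 μ lamMinus lamPlus hle hsupp hedge eig hweak hext
  refine ⟨F, h1, ?_⟩
  simp only [pressureN_eq]
  exact both_of_EP μ lamMinus lamPlus hle hsupp hedge eig hweak hext P Us hmeas horth hHaar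
    (fun _ _ => 0) h2

theorem main248 (J : ℕ) (cval : Fin J → ℝ) (γ : Fin J → ℚ) (hγpos : ∀ j, 0 < γ j)
    (hγsum : ∑ j, γ j = 1) (lab : (N : ℕ) → Fin N → Fin J)
    (hprop : ∀ j : Fin J, Tendsto
      (fun N : ℕ => ((Finset.univ.filter fun r : Fin N => lab N r = j).card : ℝ) / (N : ℝ))
      atTop (𝓝 ((γ j : ℚ) : ℝ))) :
    ∃ F : ℝ, magneticValue μ lamPlus cval γ = (F : EReal) ∧
      Tendsto (fun N : ℕ => ∫ ω, pressureFieldN (eig N) (Matrix.of (Us N ω))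
        (fun r => cval (lab N r)) ∂P) atTop (𝓝 F) ∧
      ∀ᵐ ω ∂P, Tendsto (fun N : ℕ => pressureFieldN (eig N) (Matrix.of (Us N ω))
        (fun r => cval (lab N r))) atTop (𝓝 F) := by
  obtain ⟨F, h1, h2⟩ := gen_limit μ lamMinus lamPlus hle hsupp hedge eig hweak hext cval hγpos
    hγsum hprop
  exact ⟨F, h1, both_of_EP μ lamMinus lamPlus hle hsupp hedge eig hweak hext P Us hmeas horth hHaar
    (fun N r => cval (lab N r)) h2⟩

theorem main249 (ν : Measure ℝ) [IsProbabilityMeasure ν] (c : (N : ℕ) → Fin N → ℝ)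
    (hW : Tendsto (fun N : ℕ => transportCost (empiricalLaw (c N)) ν) atTop (𝓝 0)) :
    ∃ F : ℝ,
      (∀ (Jq : ℕ → ℕ) (cq : (q : ℕ) → Fin (Jq q) → ℝ) (γq : (q : ℕ) → Fin (Jq q) → ℚ),
        (∀ q, Function.Injective (cq q) ∧ (∀ j, 0 < γq q j) ∧ ∑ j, γq q j = 1) →
        Tendsto (fun q : ℕ => transportCost
          (∑ j : Fin (Jq q), ENNReal.ofReal ((γq q j : ℚ) : ℝ) • Measure.dirac (cq q j)) ν)
          atTop (𝓝 0) →
        Tendsto (fun q : ℕ => magneticValue μ lamPlus (cq q) (γq q)) atTop (𝓝 (F : EReal))) ∧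
      Tendsto (fun N : ℕ => ∫ ω, pressureFieldN (eig N) (Matrix.of (Us N ω)) (c N) ∂P) atTop (𝓝 F) ∧
      ∀ᵐ ω ∂P, Tendsto (fun N : ℕ => pressureFieldN (eig N) (Matrix.of (Us N ω)) (c N)) atTop
        (𝓝 F) := by
  let ι : Type := Σ J : ℕ, {a : (Fin J → ℝ) × (Fin J → ℚ) // (∀ j, 0 < a.2 j) ∧ ∑ j, a.2 j = 1}
  have key : ∀ i : ι, ∃ (V : ℝ) (lab : (N : ℕ) → Fin N → Fin i.1),
      magneticValue μ lamPlus i.2.1.1 i.2.1.2 = (V : EReal) ∧
      Tendsto (fun N => EP (eig N) (fun r => i.2.1.1 (lab N r))) atTop (𝓝 V) ∧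
      Tendsto (fun N => dF (empiricalLaw fun r => i.2.1.1 (lab N r)) (alaw i.2.1.1 i.2.1.2)) atTop
        (𝓝 0) := by
    intro i
    obtain ⟨lab, hlab⟩ := exists_lab i.2.2.1 i.2.2.2
    obtain ⟨V, h1, h2⟩ := gen_limit μ lamMinus lamPlus hle hsupp hedge eig hweak hext i.2.1.1
      i.2.2.1 i.2.2.2 hlab
    exact ⟨V, lab, h1, h2, tendsto_dF_lab _ i.2.2.1 i.2.2.2 hlab⟩
  choose V lab hV hEP hdF using key
  have hdx : Tendsto (fun N => dF (empiricalLaw (c N)) ν) atTop (𝓝 0) :=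
    tendsto_of_tendsto_of_tendsto_of_le_of_le tendsto_const_nhds hW (fun _ => zero_le)
      (fun N => dF_le_transportCost _ _)
  obtain ⟨F, hx, hs⟩ := transport_limit V (fun i => dF (alaw i.2.1.1 i.2.1.2) ν)
    (fun N => EP (eig N) (c N)) (fun N => dF (empiricalLaw (c N)) ν) hdx
    (by
      intro e he
      obtain ⟨N, hN1, hN2⟩ :=
        ((hdx.eventually (ge_mem_nhds he)).and (eventually_gt_atTop 0)).exists
      refine ⟨⟨N, ⟨(c N, fun _ => 1 / (N : ℚ)), ?_, ?_⟩⟩, ?_⟩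
      · intro j; positivity
      · have : (N : ℚ) ≠ 0 := by exact_mod_cast hN2.ne'
        simp only [Finset.sum_const, Finset.card_univ, Fintype.card_fin, nsmul_eq_mul]
        field_simp
      · show dF (alaw (c N) fun _ => 1 / (N : ℚ)) ν ≤ e
        rw [← empiricalLaw_eq_alaw hN2]; exact hN1)
    (by
      intro i
      refine ⟨_, _, hEP i, hdF i, fun N => ?_⟩
      refine (abs_EP_sub_le_dF _ _ _).trans ?_
      refine (dF_triangle _ ν _).trans ?_
      rw [add_assoc]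
      refine add_le_add le_rfl ?_
      refine (dF_triangle _ (alaw i.2.1.1 i.2.1.2) _).trans ?_
      rw [dF_comm ν, dF_comm (alaw i.2.1.1 i.2.1.2) (empiricalLaw _)])
  refine ⟨F, ?_, both_of_EP μ lamMinus lamPlus hle hsupp hedge eig hweak hext P Us hmeas horth hHaar
    c hx⟩
  intro Jq cq γq hq htc
  let s : ℕ → ι := fun q => ⟨Jq q, ⟨(cq q, γq q), (hq q).2.1, (hq q).2.2⟩⟩
  have h1 : Tendsto (fun q => dF (alaw (s q).2.1.1 (s q).2.1.2) ν) atTop (𝓝 0) :=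
    tendsto_of_tendsto_of_tendsto_of_le_of_le tendsto_const_nhds htc (fun _ => zero_le)
      (fun q => dF_le_transportCost _ _)
  have h2 := (continuous_coe_real_ereal.tendsto F).comp (hs s h1)
  refine h2.congr fun q => ?_
  exact (hV (s q)).symm

end

end Crest.Agent.R164
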