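import Crest.Agent.R164.FinL
import Crest.Agent.R164.Disc

/-!
# Row 164: Gen
**General spectra.**  For each `e > 0`, `discretise` gives `V⁻ ≤ V ≤ V⁺` (`spectralPart_mono`, `IsSp.isLaw`,
`magneticValue_mono`), `EP⁻ ≤ EP ≤ EP⁺` eventually (`EP_mono`), `EP^± → V^±` (`disc_limit`), `EP⁺ - EP⁻ ≤ 2e`
(`EP_gap`).  `squeeze_limit` is the abstract conclusion.  `gen_conc`: `pressure_mono`, `ae_block_conc` for both
block spectra, `e = 1/(n+1)`, `ae_all_iff`.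
-/

set_option autoImplicit false

open MeasureTheory ProbabilityTheory Filter Topology
open scoped ENNReal BigOperators Matrix

noncomputable section

namespace Crest.Agent.R164

open Crest.ProbabilityR.InvariantGlass


theorem squeeze_limit {V : EReal} {x : ℕ → ℝ} (h : ∀ e : ℝ, 0 < e → ∃ (a b : ℝ) (y z : ℕ → ℝ),
    (a : EReal) ≤ V ∧ V ≤ b ∧ Tendsto y atTop (𝓝 a) ∧ Tendsto z atTop (𝓝 b) ∧
      ∀ᶠ N in atTop, y N ≤ x N ∧ x N ≤ z N ∧ z N - y N ≤ e) :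
    ∃ F : ℝ, V = F ∧ Tendsto x atTop (𝓝 F) := by
  obtain ⟨a0, b0, -, -, ha0, hb0, -⟩ := h 1 one_pos
  have h1 : V ≠ ⊤ := ne_top_of_le_ne_top (EReal.coe_ne_top b0) hb0
  have h2 : V ≠ ⊥ := ne_bot_of_le_ne_bot (EReal.coe_ne_bot a0) ha0
  lift V to ℝ using ⟨h1, h2⟩
  refine ⟨V, rfl, Metric.tendsto_atTop.2 fun ε hε => eventually_atTop.1 ?_⟩
  obtain ⟨a, b, y, z, ha, hb, hy, hz, hev⟩ := h (ε / 3) (by positivity)
  rw [EReal.coe_le_coe_iff] at ha hb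
  have hab : b - a ≤ ε / 3 := le_of_tendsto (hz.sub hy) (hev.mono fun N hN => hN.2.2)
  filter_upwards [hev, hy.eventually (lt_mem_nhds (show a - ε / 3 < a by linarith)),
    hz.eventually (gt_mem_nhds (show b < b + ε / 3 by linarith))] with N hN h3 h4
  rw [Real.dist_eq, abs_lt]
  constructor <;> linarith [hN.1, hN.2.1]

theorem gen_count {κ : Type} [DecidableEq κ] {pp : (N : ℕ) → Fin N → κ} {j : κ} {γ g : ℝ}
    (h : Tendsto (fun N : ℕ => ((Finset.univ.filter fun i => pp N i = j).card : ℝ) / N) atTop (𝓝 γ))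
    (hg : g < γ) :
    ∀ᶠ N : ℕ in atTop, g * N ≤ ((Finset.univ.filter fun i => pp N i = j).card : ℝ) := by
  filter_upwards [h.eventually (lt_mem_nhds hg), eventually_gt_atTop 0] with N h1 h2
  have : (0 : ℝ) < N := Nat.cast_pos.2 h2
  exact ((lt_div_iff₀ this).1 h1).le

theorem gen_pack (μ : Measure ℝ) [IsProbabilityMeasure μ] (lamMinus lamPlus : ℝ)
    (hle : lamMinus ≤ lamPlus) (hsupp : μ (Set.Icc lamMinus lamPlus) = 1)
    (hedge : ∀ ε : ℝ, 0 < ε →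
      0 < μ (Set.Icc lamMinus (lamMinus + ε)) ∧ 0 < μ (Set.Icc (lamPlus - ε) lamPlus))
    (eig : (N : ℕ) → Fin N → ℝ)
    (hweak : ∀ φ : ℝ → ℝ, Continuous φ → (∃ C : ℝ, ∀ x, |φ x| ≤ C) →
      Tendsto (fun N : ℕ => (1 / (N : ℝ)) * ∑ i : Fin N, φ (eig N i)) atTop (𝓝 (∫ x, φ x ∂μ)))
    (hext : ∀ ε : ℝ, 0 < ε → ∀ᶠ N : ℕ in atTop, ∀ i : Fin N,
      lamMinus - ε ≤ eig N i ∧ eig N i ≤ lamPlus + ε) {e : ℝ} (he : 0 < e) :
    ∃ (K : ℕ) (γp γm : Option (Fin K) → ℚ) (lp lm : Option (Fin K) → ℝ)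
      (pp pm' : (N : ℕ) → Fin N → Option (Fin K)),
      IsSp (fun j => (γp j : ℝ)) lp ∧ IsSp (fun j => (γm j : ℝ)) lm ∧
      (∀ j, Tendsto (fun N : ℕ => ((Finset.univ.filter fun i => pp N i = j).card : ℝ) / N) atTop
        (𝓝 (γp j : ℝ))) ∧
      (∀ j, Tendsto (fun N : ℕ => ((Finset.univ.filter fun i => pm' N i = j).card : ℝ) / N) atTop
        (𝓝 (γm j : ℝ))) ∧
      (∀ᶠ N : ℕ in atTop, ∀ i, lm (pm' N i) ≤ eig N i ∧ eig N i ≤ lp (pp N i)) ∧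
      (∀ p, IsTrialPath p →
        spectralPart (disc (fun j => (γm j : ℝ)) lm) (lm none) p ≤ spectralPart μ lamPlus p) ∧
      (∀ p, IsTrialPath p →
        spectralPart μ lamPlus p ≤ spectralPart (disc (fun j => (γp j : ℝ)) lp) (lp none) p) ∧
      ∀ᶠ N : ℕ in atTop, ∀ c : Fin N → ℝ,
        EP (fun i => lp (pp N i)) c - EP (fun i => lm (pm' N i)) c ≤ e := by
  obtain ⟨K, γp, γm, lp, lm, pp, pm', g₀, θ, hp, hm, tp, tm, hs, hR, h1, hg, hgp, h3, h4⟩ :=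
    discretise μ lamMinus lamPlus hle hsupp hedge eig hweak hext (half_pos he)
  have hμ : IsLaw μ lamMinus lamPlus := ⟨inferInstance, hle, hsupp⟩
  obtain ⟨ap, hap⟩ := hp.isLaw
  obtain ⟨am, ham⟩ := hm.isLaw
  refine ⟨K, γp, γm, lp, lm, pp, pm', hp, hm, tp, tm, hs,
    fun p h => spectralPart_mono ham hμ (fun x => (hR x).1) h,
    fun p h => spectralPart_mono hμ hap (fun x => (hR x).2) h, ?_⟩
  have h2 : ∀ᶠ N : ℕ in atTop, ∀ j,
      g₀ / 2 * N ≤ ((Finset.univ.filter fun i => pp N i = j).card : ℝ) :=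
    eventually_all.2 fun j => gen_count (tp j) (by linarith [hgp j])
  filter_upwards [h2, h4] with N h2 h4 c
  have := EP_gap (pp N) (pm' N) lp lm c (half_pos he).le hg h1 h2 h3 h4
  linarith

theorem gen_limit0 (μ : Measure ℝ) [IsProbabilityMeasure μ] (lamMinus lamPlus : ℝ) (hle : lamMinus ≤ lamPlus)
    (hsupp : μ (Set.Icc lamMinus lamPlus) = 1)
    (hedge : ∀ ε : ℝ, 0 < ε →
      0 < μ (Set.Icc lamMinus (lamMinus + ε)) ∧ 0 < μ (Set.Icc (lamPlus - ε) lamPlus))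
    (eig : (N : ℕ) → Fin N → ℝ)
    (hweak : ∀ φ : ℝ → ℝ, Continuous φ → (∃ C : ℝ, ∀ x, |φ x| ≤ C) →
      Tendsto (fun N : ℕ => (1 / (N : ℝ)) * ∑ i : Fin N, φ (eig N i)) atTop (𝓝 (∫ x, φ x ∂μ)))
    (hext : ∀ ε : ℝ, 0 < ε → ∀ᶠ N : ℕ in atTop, ∀ i : Fin N,
      lamMinus - ε ≤ eig N i ∧ eig N i ≤ lamPlus + ε) :
    ∃ F : ℝ, variationalValue μ lamPlus = F ∧
      Tendsto (fun N => EP (eig N) (fun _ => 0)) atTop (𝓝 F) := by
  refine squeeze_limit fun e he => ?_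
  obtain ⟨K, γp, γm, lp, lm, pp, pm', hp, hm, tp, tm, hs, h1, h2, h3⟩ :=
    gen_pack μ lamMinus lamPlus hle hsupp hedge eig hweak hext he
  obtain ⟨a, ha, ta⟩ := disc_limit0 hm tm
  obtain ⟨b, hb, tb⟩ := disc_limit0 hp tp
  refine ⟨a, b, fun N => EP (fun i => lm (pm' N i)) (fun _ => 0),
    fun N => EP (fun i => lp (pp N i)) (fun _ => 0), ha.symm.trans_le (variationalValue_mono h1),
    (variationalValue_mono h2).trans_eq hb, ta, tb, ?_⟩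
  filter_upwards [hs, h3] with N hs h3
  exact ⟨EP_mono (fun i => (hs i).1) _, EP_mono (fun i => (hs i).2) _, h3 _⟩

theorem gen_limit (μ : Measure ℝ) [IsProbabilityMeasure μ] (lamMinus lamPlus : ℝ) (hle : lamMinus ≤ lamPlus)
    (hsupp : μ (Set.Icc lamMinus lamPlus) = 1)
    (hedge : ∀ ε : ℝ, 0 < ε →
      0 < μ (Set.Icc lamMinus (lamMinus + ε)) ∧ 0 < μ (Set.Icc (lamPlus - ε) lamPlus))
    (eig : (N : ℕ) → Fin N → ℝ)
    (hweak : ∀ φ : ℝ → ℝ, Continuous φ → (∃ C : ℝ, ∀ x, |φ x| ≤ C) →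
      Tendsto (fun N : ℕ => (1 / (N : ℝ)) * ∑ i : Fin N, φ (eig N i)) atTop (𝓝 (∫ x, φ x ∂μ)))
    (hext : ∀ ε : ℝ, 0 < ε → ∀ᶠ N : ℕ in atTop, ∀ i : Fin N,
      lamMinus - ε ≤ eig N i ∧ eig N i ≤ lamPlus + ε)
    {J : ℕ} (c : Fin J → ℝ) {γ' : Fin J → ℚ} (hγ' : ∀ a, 0 < γ' a) (h1 : ∑ a, γ' a = 1)
    {lab : (N : ℕ) → Fin N → Fin J}
    (hlab : ∀ a, Tendsto (fun N : ℕ => ((Finset.univ.filter fun r => lab N r = a).card : ℝ) / N) atTop
      (𝓝 (γ' a : ℝ))) :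
    ∃ F : ℝ, magneticValue μ lamPlus c γ' = F ∧
      Tendsto (fun N => EP (eig N) (fun r => c (lab N r))) atTop (𝓝 F) := by
  refine squeeze_limit fun e he => ?_
  obtain ⟨K, γp, γm, lp, lm, pp, pm', hp, hm, tp, tm, hs, h1', h2, h3⟩ :=
    gen_pack μ lamMinus lamPlus hle hsupp hedge eig hweak hext he
  obtain ⟨a, ha, ta⟩ := disc_limit hm tm c hγ' h1 hlab
  obtain ⟨b, hb, tb⟩ := disc_limit hp tp c hγ' h1 hlab
  refine ⟨a, b, fun N => EP (fun i => lm (pm' N i)) (fun r => c (lab N r)),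
    fun N => EP (fun i => lp (pp N i)) (fun r => c (lab N r)),
    ha.symm.trans_le (magneticValue_mono h1' c γ'), (magneticValue_mono h2 c γ').trans_eq hb,
    ta, tb, ?_⟩
  filter_upwards [hs, h3] with N hs h3
  exact ⟨EP_mono (fun i => (hs i).1) _, EP_mono (fun i => (hs i).2) _, h3 _⟩

theorem gen_arith {x xp xm y yp ym e : ℝ} (a1 : |xp - yp| ≤ e) (a2 : |xm - ym| ≤ e) (b1 : xm ≤ x)
    (b2 : x ≤ xp) (b3 : ym ≤ y) (b4 : y ≤ yp) (b5 : yp - ym ≤ e) : |x - y| ≤ 2 * e := by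
  obtain ⟨a11, a12⟩ := abs_le.1 a1
  obtain ⟨a21, a22⟩ := abs_le.1 a2
  exact abs_le.2 ⟨by linarith, by linarith⟩

theorem gen_conc (μ : Measure ℝ) [IsProbabilityMeasure μ] (lamMinus lamPlus : ℝ) (hle : lamMinus ≤ lamPlus)
    (hsupp : μ (Set.Icc lamMinus lamPlus) = 1)
    (hedge : ∀ ε : ℝ, 0 < ε →
      0 < μ (Set.Icc lamMinus (lamMinus + ε)) ∧ 0 < μ (Set.Icc (lamPlus - ε) lamPlus))
    (eig : (N : ℕ) → Fin N → ℝ)
    (hweak : ∀ φ : ℝ → ℝ, Continuous φ → (∃ C : ℝ, ∀ x, |φ x| ≤ C) →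
      Tendsto (fun N : ℕ => (1 / (N : ℝ)) * ∑ i : Fin N, φ (eig N i)) atTop (𝓝 (∫ x, φ x ∂μ)))
    (hext : ∀ ε : ℝ, 0 < ε → ∀ᶠ N : ℕ in atTop, ∀ i : Fin N,
      lamMinus - ε ≤ eig N i ∧ eig N i ≤ lamPlus + ε)
    (c : (N : ℕ) → Fin N → ℝ) {Ω : Type} [MeasurableSpace Ω] (P : Measure Ω) [IsProbabilityMeasure P]
    (Us : (N : ℕ) → Ω → (Fin N → Fin N → ℝ)) (hmeas : ∀ N, Measurable (Us N))
    (horth : ∀ N, ∀ᵐ ω ∂P, Matrix.of (Us N ω) ∈ Matrix.orthogonalGroup (Fin N) ℝ)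
    (hHaar : ∀ (N : ℕ) (O : Matrix (Fin N) (Fin N) ℝ), O ∈ Matrix.orthogonalGroup (Fin N) ℝ →
      P.map (fun ω => fun i j => (Matrix.of (Us N ω) * O) i j) = P.map (Us N)) :
    ∀ᵐ ω ∂P, Tendsto (fun N => pressureFieldN (eig N) (Matrix.of (Us N ω)) (c N) - EP (eig N) (c N))
      atTop (𝓝 0) := by
  have key : ∀ e : ℝ, 0 < e → ∀ᵐ ω ∂P, ∀ᶠ N in atTop,
      |pressureFieldN (eig N) (Matrix.of (Us N ω)) (c N) - EP (eig N) (c N)| ≤ 2 * e := by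
    intro e he
    obtain ⟨K, γp, γm, lp, lm, pp, pm', hp, hm, tp, tm, hs, -, -, h3⟩ :=
      gen_pack μ lamMinus lamPlus hle hsupp hedge eig hweak hext he
    have g1 : (0 : ℝ) < γp none := hp.1 none
    have g2 : (0 : ℝ) < γm none := hm.1 none
    have c1 := gen_count (tp none) (half_lt_self g1)
    have c2 := gen_count (tm none) (half_lt_self g2)
    have a1 := ae_block_conc lp pp (half_pos g1) c1 c P Us hmeas horth hHaar he
    have a2 := ae_block_conc lm pm' (half_pos g2) c2 c P Us hmeas horth hHaar he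
    refine (a1.and a2).mono fun ω hω => ?_
    refine ((hω.1.and hω.2).and (hs.and h3)).mono fun N hN => ?_
    exact gen_arith hN.1.1 hN.1.2
      (pressure_mono (fun i => (hN.2.1 i).1) (c N) (Matrix.of (Us N ω)))
      (pressure_mono (fun i => (hN.2.1 i).2) (c N) (Matrix.of (Us N ω)))
      (EP_mono (fun i => (hN.2.1 i).1) (c N)) (EP_mono (fun i => (hN.2.1 i).2) (c N))
      (hN.2.2 (c N))
  have h2 := ae_all_iff.2 fun n : ℕ => key (1 / ((n : ℝ) + 1)) Nat.one_div_pos_of_nat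
  refine h2.mono fun ω hω => ?_
  refine Metric.tendsto_atTop.2 fun ε hε => eventually_atTop.1 ?_
  obtain ⟨n, hn⟩ := exists_nat_one_div_lt (half_pos hε)
  refine (hω n).mono fun N hN => ?_
  rw [Real.dist_eq, sub_zero]
  exact hN.trans_lt (by linarith)

end Crest.Agent.R164
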