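import Crest.Agent.R164.Defs
import Crest.Agent.R350.Gauss

/-!
# Row 164: Gaussian facts for `Tree` (completing the square, moments)
-/

set_option autoImplicit false

open MeasureTheory ProbabilityTheory Filter Topology
open scoped ENNReal BigOperators

noncomputable section

namespace Crest.Agent.R164

theorem tra_tilt {c s : ℝ} (hc : 0 ≤ c) (hs : 0 ≤ s) (y : ℝ) :
    (gaussianReal 0 1).withDensity
        (fun g => ENNReal.ofReal (Real.exp (-(c / 2) * (y + √s * g) ^ 2))) =
      ENNReal.ofReal ((√(1 + c * s))⁻¹ * Real.exp (-(c / 2) * y ^ 2 / (1 + c * s))) •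
        (gaussianReal 0 1).map
          (fun g => -(c * √s * y) / (1 + c * s) + (√(1 + c * s))⁻¹ * g) := by
  have ht : 0 < 1 + c * s := by positivity
  have hr : 0 < √(1 + c * s) := Real.sqrt_pos.2 ht
  set m := -(c * √s * y) / (1 + c * s) with hm
  set σ := (√(1 + c * s))⁻¹ with hσ
  have hσ0 : 0 < σ := inv_pos.2 hr
  have hσ2 : σ ^ 2 = (1 + c * s)⁻¹ := by rw [hσ, inv_pow, Real.sq_sqrt ht.le]
  have h1 : (gaussianReal 0 1).map (fun g => m + σ * g) =
      gaussianReal m (.mk (σ ^ 2) (sq_nonneg _)) := by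
    have := Measure.map_map (μ := gaussianReal 0 1) (g := fun g : ℝ => m + g)
      (f := fun g : ℝ => σ * g) (by fun_prop) (by fun_prop)
    rw [gaussianReal_map_const_mul, gaussianReal_map_const_add] at this
    simpa [Function.comp_def] using this.symm
  have hv : (NNReal.mk (σ ^ 2) (sq_nonneg _)) ≠ 0 := by
    intro h
    have := congrArg NNReal.toReal h
    simp only [NNReal.coe_mk, NNReal.coe_zero] at this
    exact (pow_pos hσ0 2).ne' this
  rw [h1, gaussianReal_of_var_ne_zero _ hv, gaussianReal_of_var_ne_zero _ one_ne_zero,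
    ← withDensity_mul _ (measurable_gaussianPDF _ _) (by fun_prop),
    ← withDensity_smul _ (measurable_gaussianPDF _ _)]
  congr 1
  funext g
  simp only [Pi.mul_apply, Pi.smul_apply, smul_eq_mul, gaussianPDF]
  rw [← ENNReal.ofReal_mul (gaussianPDFReal_nonneg _ _ _), ← ENNReal.ofReal_mul (by positivity)]
  congr 1
  simp only [gaussianPDFReal, NNReal.coe_mk, NNReal.coe_one, mul_one, sub_zero]
  have h2 : √(2 * Real.pi * σ ^ 2) = √(2 * Real.pi) * σ := by
    rw [Real.sqrt_mul (by positivity), Real.sqrt_sq hσ0.le]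
  have h3 : -g ^ 2 / 2 + -(c / 2) * (y + √s * g) ^ 2 =
      -(c / 2) * y ^ 2 / (1 + c * s) + -(g - m) ^ 2 / (2 * σ ^ 2) := by
    have h4 : √s ^ 2 = s := Real.sq_sqrt hs
    rw [hσ2, hm]
    generalize √s = t at h4
    subst h4
    field_simp
    ring
  rw [h2, mul_assoc, ← Real.exp_add, h3, Real.exp_add]
  have : √(2 * Real.pi) ≠ 0 := by positivity
  field_simp

theorem tra_wd_apply {E : Type} [MeasurableSpace E] {m : Measure E} {f : E → ℝ}
    (hf : Integrable f m) (h0 : ∀ x, 0 ≤ f x) {s : Set E} (hs : MeasurableSet s) :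
    m.withDensity (fun x => ENNReal.ofReal (f x)) s = ENNReal.ofReal (∫ x in s, f x ∂m) := by
  rw [withDensity_apply _ hs, ofReal_integral_eq_lintegral_ofReal hf.integrableOn (ae_of_all _ h0)]

theorem tra_pi_wd {κ E : Type} [Fintype κ] [MeasurableSpace E] {m : Measure E} [SigmaFinite m]
    {f : κ → E → ℝ} (hf : ∀ i, Integrable (f i) m) (h0 : ∀ i x, 0 ≤ f i x) :
    Measure.pi (fun i : κ => m.withDensity fun x => ENNReal.ofReal (f i x)) =
      (Measure.pi fun _ : κ => m).withDensity fun t => ENNReal.ofReal (∏ i, f i (t i)) := by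
  have := fun i => isFiniteMeasure_withDensity_ofReal (hf i).2
  refine Measure.pi_eq fun s hs => ?_
  rw [tra_wd_apply (Integrable.fintype_prod (f := f) hf)
    (fun t => Finset.prod_nonneg fun i _ => h0 _ _) (MeasurableSet.univ_pi hs),
    Measure.restrict_pi_pi, integral_fintype_prod_eq_prod f,
    ENNReal.ofReal_prod_of_nonneg fun i _ => integral_nonneg (h0 i)]
  exact Finset.prod_congr rfl fun i _ => (tra_wd_apply (hf i) (h0 i) (hs i)).symm

theorem tra_pi_smul {κ E : Type} [Fintype κ] [MeasurableSpace E] (μ : κ → Measure E)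
    [∀ i, IsFiniteMeasure (μ i)] {K : κ → ℝ} (hK : ∀ i, 0 ≤ K i) :
    Measure.pi (fun i => ENNReal.ofReal (K i) • μ i) =
      ENNReal.ofReal (∏ i, K i) • Measure.pi μ := by
  have : ∀ i, IsFiniteMeasure (ENNReal.ofReal (K i) • μ i) := fun i =>
    Measure.smul_finite _ ENNReal.ofReal_ne_top
  refine Measure.pi_eq fun s _ => ?_
  simp only [Measure.smul_apply, Measure.pi_pi, smul_eq_mul, Finset.prod_mul_distrib,
    ENNReal.ofReal_prod_of_nonneg fun i _ => hK i]

/-- Completing the square, vector form with a spectator. -/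
theorem tra_tilt_integral {d A : Type} [Fintype d] [MeasurableSpace A] (P : Measure A)
    [IsProbabilityMeasure P] {c : d → ℝ} {s : ℝ} (hc : ∀ a, 0 ≤ c a) (hs : 0 ≤ s) (y : d → ℝ)
    {F : (d → ℝ) × A → ℝ} (hF : Measurable F) :
    ∫ ω, Real.exp (∑ a, -(c a / 2) * (y a + √s * ω.1 a) ^ 2) * F ω ∂((gpi d).prod P) =
      (∏ a, (√(1 + c a * s))⁻¹ * Real.exp (-(c a / 2) * y a ^ 2 / (1 + c a * s))) *
        ∫ ω, F (fun a => -(c a * √s * y a) / (1 + c a * s) + (√(1 + c a * s))⁻¹ * ω.1 a, ω.2)
          ∂((gpi d).prod P) := by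
  have hint : ∀ a, Integrable (fun g => Real.exp (-(c a / 2) * (y a + √s * g) ^ 2))
      (gaussianReal 0 1) := fun a =>
    Integrable.of_bound (by fun_prop) 1 (ae_of_all _ fun g => by
      rw [Real.norm_eq_abs, abs_of_pos (Real.exp_pos _), Real.exp_le_one_iff]
      have := hc a
      have := sq_nonneg (y a + √s * g)
      nlinarith)
  have hK : ∀ a, 0 ≤ (√(1 + c a * s))⁻¹ * Real.exp (-(c a / 2) * y a ^ 2 / (1 + c a * s)) :=
    fun a => by positivity
  have h1 := tra_pi_wd hint fun a g => (Real.exp_pos _).le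
  simp only [tra_tilt (hc _) hs] at h1
  rw [tra_pi_smul _ hK, ← Measure.pi_map_pi (fun a => by fun_prop)] at h1
  have hT : Measurable fun (g : d → ℝ) a =>
      -(c a * √s * y a) / (1 + c a * s) + (√(1 + c a * s))⁻¹ * g a := by fun_prop
  have h2 := congrArg (fun μ : Measure (d → ℝ) => ∫ ω, F ω ∂(μ.prod P)) h1
  simp only at h2
  rw [prod_withDensity_left (by fun_prop), Measure.prod_smul_left, integral_smul_measure,
    ENNReal.toReal_ofReal (Finset.prod_nonneg fun a _ => hK a),
    integral_withDensity_eq_integral_toReal_smul (by fun_prop)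
      (ae_of_all _ fun _ => ENNReal.ofReal_lt_top)] at h2
  have h3 : ((Measure.pi fun _ : d => gaussianReal 0 1).map fun (g : d → ℝ) a =>
      -(c a * √s * y a) / (1 + c a * s) + (√(1 + c a * s))⁻¹ * g a).prod P =
      ((Measure.pi fun _ : d => gaussianReal 0 1).prod P).map (Prod.map (fun (g : d → ℝ) a =>
      -(c a * √s * y a) / (1 + c a * s) + (√(1 + c a * s))⁻¹ * g a) id) := by
    rw [← Measure.map_prod_map _ _ hT measurable_id, Measure.map_id]
  rw [h3, integral_map (hT.prodMap measurable_id).aemeasurable hF.aestronglyMeasurable] at h2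
  unfold gpi
  refine Eq.trans ?_ h2.symm
  refine integral_congr_ae (ae_of_all _ fun ω => ?_)
  simp only [smul_eq_mul]
  rw [ENNReal.toReal_ofReal (Finset.prod_nonneg fun a _ => (Real.exp_pos _).le), Real.exp_sum]

theorem tra_poly (a0 a1 a2 a3 a4 : ℝ) :
    ∫ g, (a0 + a1 * g + a2 * g ^ 2 + a3 * g ^ 3 + a4 * g ^ 4) ∂(gaussianReal 0 1) =
      a0 + a2 + 3 * a4 := by
  have hi := R350.gauss_integrable_pow 1
  have m0 := R350.gaussMom_zero 1
  have m1 := R350.gaussMom_succ 1 0
  have m2 := R350.gaussMom_succ 1 1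
  have m3 := R350.gaussMom_succ 1 2
  have m4 := R350.gaussMom_succ 1 3
  norm_num at m1 m2 m3 m4
  rw [m0] at m2
  rw [m1] at m3
  rw [m2] at m4
  unfold R350.gaussMom at m1 m2 m3 m4
  have i1 : Integrable (fun g : ℝ => a1 * g) (gaussianReal 0 1) := by
    simpa using (hi 1).const_mul a1
  have j1 : Integrable (fun g : ℝ => a0 + a1 * g) (gaussianReal 0 1) :=
    (integrable_const a0).add i1
  have j2 : Integrable (fun g : ℝ => a0 + a1 * g + a2 * g ^ 2) (gaussianReal 0 1) :=
    j1.add ((hi 2).const_mul a2)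
  have j3 : Integrable (fun g : ℝ => a0 + a1 * g + a2 * g ^ 2 + a3 * g ^ 3) (gaussianReal 0 1) :=
    j2.add ((hi 3).const_mul a3)
  rw [integral_add j3 ((hi 4).const_mul a4), integral_add j2 ((hi 3).const_mul a3),
    integral_add j1 ((hi 2).const_mul a2), integral_add (integrable_const a0) i1,
    integral_const_mul a1 fun g : ℝ => g, integral_id_gaussianReal]
  simp only [integral_const_mul, m2, m3, m4, integral_const,
    probReal_univ, smul_eq_mul]
  ring

end Crest.Agent.R164
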