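import Crest.Agent.R164.Max
import Crest.Agent.R164.M5
import Crest.Agent.R164.Spec2

/-!
# Row 164: UpperAux
The maximiser of the penalised functional and its first-order conditions.
-/

set_option autoImplicit false

open MeasureTheory ProbabilityTheory Filter Topology
open scoped ENNReal BigOperators Matrix

noncomputable section

namespace Crest.Agent.R164

theorem deriv_nonpos_of_right_max {h : ℝ → ℝ} {h' τ₀ : ℝ} (hd : HasDerivAt h h' 0) (h0 : 0 < τ₀)
    (hm : ∀ τ, 0 < τ → τ ≤ τ₀ → h τ ≤ h 0) : h' ≤ 0 := by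
  have h1 : Tendsto (fun τ => τ⁻¹ • (h (0 + τ) - h 0)) (𝓝[>] 0) (𝓝 h') :=
    hd.tendsto_slope_zero_right
  refine le_of_tendsto h1 ?_
  filter_upwards [Ioc_mem_nhdsGT h0] with τ hτ
  rw [zero_add, smul_eq_mul]
  exact mul_nonpos_of_nonneg_of_nonpos (inv_nonneg.2 hτ.1.le) (sub_nonpos.2 (hm τ hτ.1 hτ.2))

/-- first-order condition along a path of reference points -/
theorem foc_path {P W : Type} [Fintype P] {K : Set W} {f : (P → ℝ) → ℝ} {φ : W → P → ℝ}
    {g : W → ℝ} {δ : ℝ} {w₀ : W} {u : P → ℝ} (hu : ∀ θ, |u θ| ≤ 1 / 2)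
    (hmax : ∀ w' ∈ K, ∀ u' : P → ℝ, (∀ θ, |u' θ| ≤ 1) →
      f (φ w' + u') - (∑ θ, u' θ ^ 2) / δ - g w' ≤ f (φ w₀ + u) - (∑ θ, u θ ^ 2) / δ - g w₀)
    {w : ℝ → W} {v : P → ℝ} {τ₀ g' : ℝ} (h0 : 0 < τ₀) (hw0 : w 0 = w₀)
    (hK : ∀ τ, 0 < τ → τ ≤ τ₀ → w τ ∈ K) (hφ : ∀ τ, φ (w τ) = φ w₀ + τ • v)
    (hg : HasDerivAt (fun τ => g (w τ)) g' 0) : ∑ θ, v θ * (2 * u θ / δ) ≤ g' := by
  set V : ℝ := ∑ θ, |v θ| + 1 with hV
  have hVpos : 0 < V := by positivity
  have hvV : ∀ θ, |v θ| ≤ V := fun θ => by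
    have := Finset.single_le_sum (f := fun θ => |v θ|) (fun _ _ => abs_nonneg _) (Finset.mem_univ θ)
    linarith
  have hd : HasDerivAt (fun τ : ℝ => -((∑ θ, (u θ - τ * v θ) ^ 2) / δ) - g (w τ))
      (∑ θ, v θ * (2 * u θ / δ) - g') 0 := by
    have h1 : HasDerivAt (fun τ : ℝ => ∑ θ, (u θ - τ * v θ) ^ 2) (∑ θ, -(2 * u θ * v θ)) 0 := by
      refine HasDerivAt.fun_sum fun θ _ => ?_
      have := (((hasDerivAt_id (0 : ℝ)).mul_const (v θ)).const_sub (u θ)).pow 2
      exact this.congr_deriv (by simp)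
    have h2 := ((h1.div_const δ).neg).sub hg
    refine h2.congr_deriv ?_
    congr 1
    rw [Finset.sum_div, ← Finset.sum_neg_distrib]
    refine Finset.sum_congr rfl fun θ _ => by ring
  have key := deriv_nonpos_of_right_max hd (τ₀ := min τ₀ (1 / (2 * V))) (by positivity) (by
    intro τ hτ hτ'
    have h1 := hmax (w τ) (hK τ hτ (hτ'.trans (min_le_left _ _))) (fun θ => u θ - τ * v θ) (by
      intro θ
      have h2 : τ * |v θ| ≤ 1 / 2 := by
        calc τ * |v θ| ≤ (1 / (2 * V)) * V :=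
              mul_le_mul (hτ'.trans (min_le_right _ _)) (hvV θ) (abs_nonneg _) (by positivity)
          _ = 1 / 2 := by field_simp
      calc |u θ - τ * v θ| ≤ |u θ| + |τ * v θ| := abs_sub _ _
        _ ≤ 1 := by rw [abs_mul, abs_of_pos hτ]; linarith [hu θ])
    have h3 : φ (w τ) + (fun θ => u θ - τ * v θ) = φ w₀ + u := by
      rw [hφ]; funext θ; simp
    rw [h3] at h1
    simp only [hw0, zero_mul, sub_zero]
    linarith)
  linarith

variable {κ : Type} [Fintype κ] [DecidableEq κ] {γ l : Option κ → ℝ}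

/-- Extension by zero of amplitudes indexed by `Fin k`. -/
def extA {k : ℕ} (a : Fin k → ℝ) (s : ℕ) : ℝ :=
  if h : 1 ≤ s ∧ s ≤ k then a ⟨s - 1, by omega⟩ else 0

/-- Reference point. -/
def phiU (k : ℕ) (l : Option κ → ℝ) (w : ℝ × (Fin k → ℝ)) : PI κ Unit k → ℝ
  | Sum.inl j => w.1 * l j
  | Sum.inr (Sum.inl p) => w.2 p.2
  | Sum.inr (Sum.inr _) => 0

/-- The subtracted function. -/
def gU (k : ℕ) (γ l : Option κ → ℝ) (p : ℕ → ℝ) (ε : ℝ) (w : ℝ × (Fin k → ℝ)) : ℝ :=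
  (1 / 2) * ∑ s : Fin k, w.2 s ^ 2 * ptail k p (s + 1) +
    Gd k (fun x => cR γ l (w.1 * x)) p / 2 + ε * w.1

omit [Fintype κ] [DecidableEq κ] in
theorem phiU_eq (k : ℕ) (l : Option κ → ℝ) (w : ℝ × (Fin k → ℝ)) :
    phiU k l w = mkP k (fun j => w.1 * l j) (fun _ => extA w.2) (fun _ => 0) := by
  funext θ
  rcases θ with j | p | g
  · rfl
  · have : 1 ≤ p.2.val + 1 ∧ p.2.val + 1 ≤ k := ⟨by omega, p.2.2⟩
    simp [phiU, mkP, extA, this]
  · rfl

theorem sum_extA {k : ℕ} (a : Fin k → ℝ) (F : ℝ → ℕ → ℝ) :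
    ∑ s ∈ Finset.Icc 1 k, F (extA a s) s = ∑ s : Fin k, F (a s) (s + 1) := by
  symm
  refine Finset.sum_bij (fun s _ => s.val + 1) ?_ ?_ ?_ ?_
  · intro s _; simp only [Finset.mem_Icc]; have := s.2; omega
  · intro s _ s' _ h; exact Fin.ext (by omega)
  · intro s hs
    simp only [Finset.mem_Icc] at hs
    exact ⟨⟨s - 1, by omega⟩, Finset.mem_univ _, by simp; omega⟩
  · intro s _
    have : 1 ≤ s.val + 1 ∧ s.val + 1 ≤ k := ⟨by omega, s.2⟩
    simp [extA, this]

theorem extA_zero {k : ℕ} (a : Fin k → ℝ) : extA a 0 = 0 := by simp [extA]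

theorem extA_bounds {k : ℕ} {a : Fin k → ℝ} {A : ℝ} (hA : 0 ≤ A) (h : ∀ s, 0 ≤ a s ∧ a s ≤ A)
    (s : ℕ) : 0 ≤ extA a s ∧ extA a s ≤ A := by
  unfold extA
  split_ifs
  · exact h _
  · exact ⟨le_rfl, hA⟩

omit [Fintype κ] [DecidableEq κ] in
theorem continuous_phiU (k : ℕ) (l : Option κ → ℝ) : Continuous (phiU k l) := by
  refine continuous_pi fun θ => ?_
  rcases θ with j | p | g
  · exact continuous_fst.mul continuous_const
  · exact (continuous_apply p.2).comp continuous_snd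
  · exact continuous_const

theorem continuous_gU (hsp : IsSp γ l) (k : ℕ) (p : ℕ → ℝ) (ε : ℝ) : Continuous (gU k γ l p ε) := by
  unfold gU
  have h1 := (continuous_Gd hsp k p).comp (continuous_fst (X := ℝ) (Y := Fin k → ℝ))
  refine Continuous.add (Continuous.add ?_ (h1.div_const 2)) (by fun_prop)
  fun_prop

omit [Fintype κ] [DecidableEq κ] in
theorem amp_phiU {k : ℕ} (l : Option κ → ℝ) (w : ℝ × (Fin k → ℝ)) (j : Option κ) (s : ℕ) :
    amp (phiU k l w) j s = extA w.2 s := by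
  unfold amp extA
  split_ifs <;> rfl

/-- The maximiser and its properties. -/
theorem up_point (hsp : IsSp γ l) {k : ℕ} {p : ℕ → ℝ} (hp : IsProf k 1 p) {ε t₀ α₀ A R₀ δ : ℝ}
    (ht₀ : 0 < t₀) (ht₁ : t₀ ≤ 1) (hα₀ : 0 < α₀) (hαA : α₀ ≤ A) (hB : ∀ j, |l j| ≤ R₀) (hA : A ≤ R₀)
    (hδ : 0 < δ) (hs : δ * (1 + 2 * (R₀ + 1)) * Fintype.card (PI κ Unit k) ≤ 1 / 2)
    (S : BS κ Unit) :
    ∃ (w : ℝ × (Fin k → ℝ)) (u : PI κ Unit k → ℝ), (t₀ ≤ w.1 ∧ w.1 ≤ 1) ∧
      (∀ s, α₀ ≤ w.2 s ∧ w.2 s ≤ A) ∧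
      (∀ θ, |u θ| ≤ δ * (1 + 2 * (R₀ + 1)) * Fintype.card (PI κ Unit k)) ∧
      (∀ u' : PI κ Unit k → ℝ, (∀ θ, |u' θ| ≤ 1) →
        S.f k (phiU k l w + u') / S.N - (∑ θ, u' θ ^ 2) / δ ≤
          S.f k (phiU k l w + u) / S.N - (∑ θ, u θ ^ 2) / δ) ∧
      (∀ s : Fin k, w.2 s < A →
        ∑ j, 2 * u (Sum.inr (Sum.inl (j, s))) / δ ≤ w.2 s * ptail k p (s + 1)) ∧
      (t₀ < w.1 → Gd k (fun x => kap γ l (w.1 * x)) p / w.1 / 2 + ε ≤
        ∑ j, l j * (2 * u (Sum.inl j) / δ)) ∧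
      S.f k (phiU k l (1, fun _ => α₀)) / S.N - gU k γ l p ε (1, fun _ => α₀) ≤
        S.f k (phiU k l w + u) / S.N - gU k γ l p ε w := by
  have hR₀ : 0 ≤ R₀ := (abs_nonneg _).trans (hB none)
  set K : Set (ℝ × (Fin k → ℝ)) := Set.Icc t₀ 1 ×ˢ Set.Icc (fun _ => α₀) (fun _ => A) with hK
  have hKc : IsCompact K := isCompact_Icc.prod isCompact_Icc
  have h1K : ((1 : ℝ), fun _ : Fin k => α₀) ∈ K :=
    ⟨⟨ht₁, le_rfl⟩, ⟨fun _ => le_rfl, fun _ => hαA⟩⟩
  have hR : ∀ w ∈ K, ∀ θ, |phiU k l w θ| ≤ R₀ := by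
    intro w hw θ
    rcases θ with j | q | g
    · show |w.1 * l j| ≤ R₀
      rw [abs_mul, abs_of_pos (ht₀.trans_le hw.1.1)]
      calc w.1 * |l j| ≤ 1 * R₀ := mul_le_mul hw.1.2 (hB j) (abs_nonneg _) zero_le_one
        _ = R₀ := one_mul _
    · show |w.2 q.2| ≤ R₀
      rw [abs_of_pos (hα₀.trans_le (hw.2.1 q.2))]
      exact (hw.2.2 q.2).trans hA
    · show |(0 : ℝ)| ≤ R₀
      simpa using hR₀
  obtain ⟨w, hw, u, -, hu, -, hmax⟩ := exists_max (f := fun ϑ => S.f k ϑ / S.N) (L := 1 + 2 * (R₀ + 1))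
    hKc ⟨_, h1K⟩ (S.continuous_f.div_const _) (continuous_phiU k l) (continuous_gU hsp k p ε) hδ
    (by positivity) hR (by
      intro x y hx hy
      have h1 := S.f_lip hy hx
      rcases Nat.eq_zero_or_pos S.N with h0 | h0
      · simp only [h0, Nat.cast_zero, div_zero, sub_zero, abs_zero]; positivity
      · have hN : (0 : ℝ) < S.N := by exact_mod_cast h0
        rw [← sub_div, abs_div, abs_of_pos hN, div_le_iff₀ hN]
        linarith)
  have hu2 : ∀ θ, |u θ| ≤ 1 / 2 := fun θ => (hu θ).trans hs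
  refine ⟨w, u, hw.1, fun s => ⟨hw.2.1 s, hw.2.2 s⟩, hu, ?_, ?_, ?_, ?_⟩
  · intro u' hu'
    have := hmax w hw u' hu'
    linarith
  · intro s hs'
    have hfoc := foc_path (K := K) (f := fun ϑ => S.f k ϑ / S.N) (φ := phiU k l) (g := gU k γ l p ε)
      hu2 hmax (w := fun τ => (w.1, w.2 + Pi.single s τ))
      (v := fun θ => match θ with
        | Sum.inl _ => 0
        | Sum.inr (Sum.inl q) => if q.2 = s then 1 else 0
        | Sum.inr (Sum.inr _) => 0)
      (τ₀ := A - w.2 s) (g' := w.2 s * ptail k p (s + 1)) (by linarith) (by simp) (by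
        intro τ h0 h1
        refine ⟨hw.1, fun s' => ?_, fun s' => ?_⟩
        · have := hw.2.1 s'
          by_cases h : s' = s
          · subst h; simp only [Pi.add_apply, Pi.single_eq_same]; linarith
          · simpa [Pi.single_apply, h] using this
        · have := hw.2.2 s'
          by_cases h : s' = s
          · subst h; simp only [Pi.add_apply, Pi.single_eq_same]; linarith
          · simpa [Pi.single_apply, h] using this)
      (by
        intro τ
        funext θ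
        rcases θ with j | q | g
        · simp [phiU]
        · simp [phiU, Pi.single_apply]
        · simp [phiU])
      (by
        unfold gU
        have h1 : HasDerivAt (fun τ : ℝ => ∑ s' : Fin k,
            (w.2 + (Pi.single s τ : Fin k → ℝ)) s' ^ 2 * ptail k p (s' + 1))
            (∑ s' : Fin k, if s' = s then 2 * w.2 s * ptail k p (s + 1) else 0) 0 := by
          refine HasDerivAt.fun_sum fun s' _ => ?_
          by_cases h : s' = s
          · subst h
            simp only [Pi.add_apply, Pi.single_eq_same, if_true]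
            have := (((hasDerivAt_id (0 : ℝ)).const_add (w.2 s')).pow 2).mul_const
              (ptail k p (s' + 1))
            exact this.congr_deriv (by simp)
          · simp only [Pi.add_apply, Pi.single_apply, h, if_false]
            exact hasDerivAt_const _ _
        have h2 := ((h1.const_mul (1 / 2)).add_const
          (Gd k (fun x => cR γ l (w.1 * x)) p / 2)).add_const (ε * w.1)
        refine h2.congr_deriv ?_
        simp
        ring)
    refine le_trans (le_of_eq ?_) hfoc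
    simp [Fintype.sum_sum_type, Fintype.sum_prod_type]
  · intro ht
    have hw0 : 0 < w.1 := ht₀.trans ht
    have hfoc := foc_path (K := K) (f := fun ϑ => S.f k ϑ / S.N) (φ := phiU k l) (g := gU k γ l p ε)
      hu2 hmax (w := fun τ => (w.1 - τ, w.2))
      (v := fun θ => match θ with
        | Sum.inl j => -l j
        | Sum.inr _ => 0)
      (τ₀ := w.1 - t₀) (g' := -(Gd k (fun x => kap γ l (w.1 * x)) p / w.1 / 2 + ε)) (by linarith)
      (by simp) (by
        intro τ h0 h1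
        exact ⟨⟨by show t₀ ≤ w.1 - τ; linarith, by show w.1 - τ ≤ 1; linarith [hw.1.2]⟩, hw.2⟩)
      (by
        intro τ
        funext θ
        rcases θ with j | q | g
        · simp [phiU]; ring
        · simp [phiU]
        · simp [phiU])
      (by
        unfold gU
        have h0 : HasDerivAt (fun τ : ℝ => w.1 - τ) (-1) 0 := (hasDerivAt_id (0 : ℝ)).const_sub w.1
        have h1 : HasDerivAt (fun t => Gd k (fun x => cR γ l (t * x)) p)
            (Gd k (fun x => kap γ l (w.1 * x)) p / w.1) (w.1 - 0) := by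
          rw [sub_zero]; exact hasDerivAt_Gd hsp hp hw0
        have h2 := (h1.comp (0 : ℝ) h0).div_const 2
        have h3 := (h2.const_add ((1 / 2) * ∑ s : Fin k, w.2 s ^ 2 * ptail k p (s + 1))).add
          (h0.const_mul ε)
        refine h3.congr_deriv ?_
        ring)
    have h4 : ∑ θ : PI κ Unit k, (match θ with
        | Sum.inl j => -l j
        | Sum.inr _ => 0) * (2 * u θ / δ) = -∑ j, l j * (2 * u (Sum.inl j) / δ) := by
      rw [Fintype.sum_sum_type]
      simp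
    rw [h4] at hfoc
    linarith
  · have := hmax _ h1K 0 (by simp)
    have h2 : 0 ≤ (∑ θ, u θ ^ 2) / δ := by positivity
    have h3 : (∑ θ : PI κ Unit k, (0 : PI κ Unit k → ℝ) θ ^ 2) / δ = 0 := by simp
    rw [add_zero, h3] at this
    linarith

end Crest.Agent.R164
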